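import Vale.Agent.P361.LRO.Trot.Uniform

/-!
P361, block (1): `(A_N)^N → exp X` if `N (A_N - 1) → X`, and products.
-/

namespace Vale.Agent.P361.LRO.Trot

open Filter Topology NormedSpace

/-- first order of a product -/
theorem first_mul {R : Type*} [NormedRing R] [NormedAlgebra ℝ R] {a b : ℕ → R} {x y : R}
    (ha : Tendsto (fun N : ℕ => (N : ℝ) • (a N - 1)) atTop (𝓝 x))
    (hb : Tendsto (fun N : ℕ => (N : ℝ) • (b N - 1)) atTop (𝓝 y)) :
    Tendsto (fun N : ℕ => (N : ℝ) • (a N * b N - 1)) atTop (𝓝 (x + y)) := by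
  have hb1 : Tendsto b atTop (𝓝 1) := by
    have h1 : Tendsto (fun N : ℕ => (N : ℝ)⁻¹ • ((N : ℝ) • (b N - 1))) atTop (𝓝 ((0 : ℝ) • y)) :=
      (tendsto_inv_atTop_nhds_zero_nat (𝕜 := ℝ)).smul hb
    rw [zero_smul] at h1
    have h2 : Tendsto (fun N : ℕ => (N : ℝ)⁻¹ • ((N : ℝ) • (b N - 1)) + 1) atTop (𝓝 (0 + 1)) :=
      h1.add tendsto_const_nhds
    rw [zero_add] at h2
    refine h2.congr' ?_
    filter_upwards [eventually_gt_atTop 0] with N hN
    have hN' : (N : ℝ) ≠ 0 := by exact_mod_cast hN.ne'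
    rw [smul_smul, inv_mul_cancel₀ hN', one_smul]
    abel
  have h3 := (ha.mul hb1).add hb
  rw [mul_one] at h3
  refine h3.congr fun N => ?_
  rw [smul_mul_assoc, ← smul_add]
  congr 1
  noncomm_ring

theorem first_one {R : Type*} [NormedRing R] [NormedAlgebra ℝ R] :
    Tendsto (fun N : ℕ => (N : ℝ) • ((1 : R) - 1)) atTop (𝓝 0) := by
  simp

/-- first order of a product over a list -/
theorem first_list {R : Type*} [NormedRing R] [NormedAlgebra ℝ R] {ι : Type*} (L : List ι)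
    (a : ι → ℕ → R) (x : ι → R)
    (ha : ∀ i ∈ L, Tendsto (fun N : ℕ => (N : ℝ) • (a i N - 1)) atTop (𝓝 (x i))) :
    Tendsto (fun N : ℕ => (N : ℝ) • ((L.map fun i => a i N).prod - 1)) atTop
      (𝓝 (L.map x).sum) := by
  induction L with
  | nil => simp
  | cons i L ih =>
    simp only [List.map_cons, List.prod_cons, List.sum_cons]
    exact first_mul (ha i (by simp)) (ih fun j hj => ha j (by simp [hj]))

/-- first order of a product over a finite set (commutative) -/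
theorem first_prod {R : Type*} [NormedCommRing R] [NormedAlgebra ℝ R] {ι : Type*}
    (s : Finset ι) (a : ι → ℕ → R) (x : ι → R)
    (ha : ∀ i ∈ s, Tendsto (fun N : ℕ => (N : ℝ) • (a i N - 1)) atTop (𝓝 (x i))) :
    Tendsto (fun N : ℕ => (N : ℝ) • ((∏ i ∈ s, a i N) - 1)) atTop (𝓝 (∑ i ∈ s, x i)) := by
  classical
  induction s using Finset.induction_on with
  | empty => simp
  | insert i s hi ih =>
    simp only [Finset.prod_insert hi, Finset.sum_insert hi]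
    exact first_mul (ha i (by simp)) (ih fun j hj => ha j (by simp [hj]))

/-- **The limit of powers.** -/
theorem pow_tendsto_exp {𝔸 : Type*} [NormedRing 𝔸] [NormedAlgebra ℝ 𝔸] [CompleteSpace 𝔸]
    (h1 : ‖(1 : 𝔸)‖ ≤ 1) {a : ℕ → 𝔸} {x : 𝔸}
    (ha : Tendsto (fun N : ℕ => (N : ℝ) • (a N - 1)) atTop (𝓝 x)) :
    Tendsto (fun N : ℕ => a N ^ N) atTop (𝓝 (exp x)) := by
  set c : ℝ := ‖x‖ + 1 with hc
  have hc0 : 0 < c := by positivity
  -- norms of `a N`
  have hn : ∀ᶠ N : ℕ in atTop, ‖a N‖ ≤ Real.exp (c / N) := by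
    have h2 : ∀ᶠ N : ℕ in atTop, ‖(N : ℝ) • (a N - 1)‖ < c :=
      (ha.norm).eventually_lt_const (by rw [hc]; linarith)
    filter_upwards [h2, eventually_gt_atTop 0] with N hN hN0
    have hN' : (0 : ℝ) < N := by exact_mod_cast hN0
    rw [norm_smul, Real.norm_natCast] at hN
    have h3 : ‖a N - 1‖ ≤ c / N := by
      rw [le_div_iff₀ hN', mul_comm]
      exact hN.le
    calc ‖a N‖ = ‖(a N - 1) + 1‖ := by rw [sub_add_cancel]
      _ ≤ ‖a N - 1‖ + ‖(1 : 𝔸)‖ := norm_add_le _ _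
      _ ≤ c / N + 1 := add_le_add h3 h1
      _ ≤ Real.exp (c / N) := Real.add_one_le_exp _
  have he : ∀ᶠ N : ℕ in atTop, ‖exp ((N : ℝ)⁻¹ • x)‖ ≤ Real.exp (c / N) := by
    filter_upwards [eventually_gt_atTop 0] with N hN0
    have hN' : (0 : ℝ) < N := by exact_mod_cast hN0
    refine (norm_exp_le h1 _).trans (Real.exp_le_exp.2 ?_)
    rw [norm_smul, norm_inv, Real.norm_natCast, div_eq_inv_mul]
    gcongr
    rw [hc]
    linarith
  -- `N (exp (x/N) - 1) → x`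
  have hx : Tendsto (fun N : ℕ => (N : ℝ) • (exp ((N : ℝ)⁻¹ • x) - 1)) atTop (𝓝 x) := by
    rw [tendsto_iff_norm_sub_tendsto_zero]
    have hb : ∀ᶠ N : ℕ in atTop, ‖(N : ℝ) • (exp ((N : ℝ)⁻¹ • x) - 1) - x‖ ≤
        (‖x‖ ^ 2 * Real.exp ‖x‖) * (N : ℝ)⁻¹ := by
      filter_upwards [eventually_gt_atTop 0] with N hN0
      have hN' : (0 : ℝ) < N := by exact_mod_cast hN0
      have hN1 : (1 : ℝ) ≤ N := by exact_mod_cast hN0
      have e : (N : ℝ) • (exp ((N : ℝ)⁻¹ • x) - 1) - x =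
          (N : ℝ) • (exp ((N : ℝ)⁻¹ • x) - 1 - (N : ℝ)⁻¹ • x) := by
        rw [smul_sub (N : ℝ) (exp ((N : ℝ)⁻¹ • x) - 1), smul_smul, mul_inv_cancel₀ hN'.ne',
          one_smul]
      rw [e, norm_smul, Real.norm_natCast]
      have h3 := norm_exp_sub_one_sub_le ((N : ℝ)⁻¹ • x)
      have h4 : ‖(N : ℝ)⁻¹ • x‖ = (N : ℝ)⁻¹ * ‖x‖ := by
        rw [norm_smul, norm_inv, Real.norm_natCast]
      rw [h4] at h3
      have h5 := exp_rem_le (x := (N : ℝ)⁻¹ * ‖x‖) (by positivity)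
      have h6 : Real.exp ((N : ℝ)⁻¹ * ‖x‖) ≤ Real.exp ‖x‖ := by
        apply Real.exp_le_exp.2
        have : (N : ℝ)⁻¹ ≤ 1 := inv_le_one_of_one_le₀ hN1
        nlinarith [norm_nonneg x]
      calc (N : ℝ) * ‖exp ((N : ℝ)⁻¹ • x) - 1 - (N : ℝ)⁻¹ • x‖
          ≤ (N : ℝ) * (((N : ℝ)⁻¹ * ‖x‖) ^ 2 * Real.exp ‖x‖) := by
            gcongr
            exact h3.trans (h5.trans (by gcongr))
        _ = (‖x‖ ^ 2 * Real.exp ‖x‖) * (N : ℝ)⁻¹ := by
            field_simp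
    have h0 : Tendsto (fun N : ℕ => (‖x‖ ^ 2 * Real.exp ‖x‖) * (N : ℝ)⁻¹) atTop (𝓝 0) := by
      have := (tendsto_inv_atTop_nhds_zero_nat (𝕜 := ℝ)).const_mul (‖x‖ ^ 2 * Real.exp ‖x‖)
      rwa [mul_zero] at this
    exact squeeze_zero' (Eventually.of_forall fun N => norm_nonneg _) hb h0
  have hd : Tendsto (fun N : ℕ => (N : ℝ) * ‖a N - exp ((N : ℝ)⁻¹ • x)‖) atTop (𝓝 0) := by
    have h2 := (ha.sub hx).norm
    rw [sub_self, norm_zero] at h2
    refine h2.congr fun N => ?_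
    rw [← smul_sub, norm_smul, Real.norm_natCast]
    congr 2
    abel
  rw [tendsto_iff_norm_sub_tendsto_zero]
  have hfin : ∀ᶠ N : ℕ in atTop, ‖a N ^ N - exp x‖ ≤
      Real.exp c * ((N : ℝ) * ‖a N - exp ((N : ℝ)⁻¹ • x)‖) := by
    filter_upwards [hn, he, eventually_gt_atTop 0] with N hN1 hN2 hN0
    have hN' : (0 : ℝ) < N := by exact_mod_cast hN0
    have h2 : exp x = exp ((N : ℝ)⁻¹ • x) ^ N := by
      let _ : NormedAlgebra ℚ 𝔸 := NormedAlgebra.restrictScalars ℚ ℝ 𝔸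
      rw [← NormedSpace.exp_nsmul, ← Nat.cast_smul_eq_nsmul ℝ, smul_smul,
        mul_inv_cancel₀ hN'.ne', one_smul]
    rw [h2]
    refine (norm_pow_sub_pow_le (Real.one_le_exp (by positivity)) hN1 hN2 N h1).trans
      (le_of_eq ?_)
    rw [← Real.exp_nat_mul]
    have : (N : ℝ) * (c / N) = c := by field_simp
    rw [this]
    ring
  have h0 := hd.const_mul (Real.exp c)
  rw [mul_zero] at h0
  exact squeeze_zero' (Eventually.of_forall fun N => norm_nonneg _) hfin h0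

end Vale.Agent.P361.LRO.Trot
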