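import Vale.Agent.P361.LRO.Defs

/-!
Block (1) of the low temperature order proof (P361): the symmetrisation lemma
`1 - symM A ≤ ½ ∑_{pairs in A} (1 - swap)`.
-/

namespace Vale.Agent.P361.LRO.Tw

open Finset Matrix

set_option linter.unusedSectionVars false

variable {V : Type} [Fintype V] [DecidableEq V]

/-- Number of down spins (`1`) of `σ` in `A`. -/
def dn (A : Finset V) (σ : V → Fin 2) : ℕ := ∑ x ∈ A, (σ x : ℕ)

/-- `σ` and `τ` agree outside `A` and have the same number of down spins in `A`. -/
def Rel (A : Finset V) (σ τ : V → Fin 2) : Prop :=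
  (∀ x, x ∉ A → σ x = τ x) ∧ dn A σ = dn A τ

instance (A : Finset V) (σ τ : V → Fin 2) : Decidable (Rel A σ τ) := by
  unfold Rel; infer_instance

theorem Rel.refl (A : Finset V) (σ : V → Fin 2) : Rel A σ σ := ⟨fun _ _ => rfl, rfl⟩

theorem Rel.symm {A : Finset V} {σ τ : V → Fin 2} (h : Rel A σ τ) : Rel A τ σ :=
  ⟨fun x hx => (h.1 x hx).symm, h.2.symm⟩

theorem Rel.trans {A : Finset V} {σ τ ρ : V → Fin 2} (h : Rel A σ τ) (h' : Rel A τ ρ) :
    Rel A σ ρ :=
  ⟨fun x hx => (h.1 x hx).trans (h'.1 x hx), h.2.trans h'.2⟩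

/-- Averaging over the permutations of `A`. -/
noncomputable def symM (A : Finset V) : Matrix (V → Fin 2) (V → Fin 2) ℝ :=
  Matrix.of fun σ τ => if Rel A σ τ then ((A.card.choose (dn A σ) : ℕ) : ℝ)⁻¹ else 0

theorem dn_insert {a : V} {A : Finset V} (ha : a ∉ A) (σ : V → Fin 2) :
    dn (insert a A) σ = (σ a : ℕ) + dn A σ := by
  unfold dn; rw [Finset.sum_insert ha]

theorem dn_comp_swap {A : Finset V} {x y : V} (hx : x ∈ A) (hy : y ∈ A) (σ : V → Fin 2) :
    dn A (σ ∘ Equiv.swap x y) = dn A σ := by
  unfold dn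
  refine Finset.sum_equiv (Equiv.swap x y) ?_ (fun i _ => rfl)
  intro i
  by_cases h1 : i = x
  · subst h1; simp [hx, hy]
  · by_cases h2 : i = y
    · subst h2; simp [hx, hy]
    · rw [Equiv.swap_apply_of_ne_of_ne h1 h2]

theorem dn_le (A : Finset V) (σ : V → Fin 2) : dn A σ ≤ A.card := by
  unfold dn
  calc ∑ x ∈ A, (σ x : ℕ) ≤ ∑ x ∈ A, 1 := Finset.sum_le_sum fun x _ => by
        have := (σ x).isLt; omega
    _ = A.card := by simp

theorem swap_comp_swap (x y : V) (σ : V → Fin 2) :
    (σ ∘ Equiv.swap x y) ∘ Equiv.swap x y = σ := by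
  funext i; simp

theorem rel_swap_iff {a y : V} {A : Finset V} (ha : a ∉ A) (hy : y ∈ insert a A)
    (σ τ : V → Fin 2) :
    Rel A (σ ∘ Equiv.swap a y) τ ↔ (σ y = τ a ∧ Rel (insert a A) σ τ) := by
  have haA : a ∈ insert a A := Finset.mem_insert_self a A
  have hd : dn (insert a A) (σ ∘ Equiv.swap a y) = dn (insert a A) σ := dn_comp_swap haA hy σ
  rw [dn_insert ha (σ ∘ Equiv.swap a y)] at hd
  have hsa : (σ ∘ Equiv.swap a y) a = σ y := by simp
  rw [hsa] at hd
  constructor
  · rintro ⟨h1, h2⟩
    have h3 : σ y = τ a := by rw [← hsa]; exact h1 a ha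
    refine ⟨h3, ?_, ?_⟩
    · intro x hx
      have hxa : x ≠ a := fun h => hx (h ▸ haA)
      have hxy : x ≠ y := fun h => hx (h ▸ hy)
      have hxA : x ∉ A := fun h => hx (Finset.mem_insert_of_mem h)
      have := h1 x hxA
      simpa [Equiv.swap_apply_of_ne_of_ne hxa hxy] using this
    · rw [dn_insert ha τ, ← hd, h2, h3]
  · rintro ⟨h3, h1, h2⟩
    refine ⟨?_, ?_⟩
    · intro x hxA
      by_cases hxa : x = a
      · subst hxa; rw [hsa]; exact h3
      · have hx : x ∉ insert a A := by
          intro h; rcases Finset.mem_insert.1 h with h | h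
          · exact hxa h
          · exact hxA h
        have hxy : x ≠ y := fun h => hx (h ▸ hy)
        have := h1 x hx
        simpa [Equiv.swap_apply_of_ne_of_ne hxa hxy] using this
    · have h4 := h2
      rw [dn_insert ha τ, ← hd, h3] at h4
      omega

theorem card_filter_one (A : Finset V) (σ : V → Fin 2) :
    (A.filter fun y => σ y = 1).card = dn A σ := by
  unfold dn
  rw [Finset.card_filter]
  refine Finset.sum_congr rfl fun x _ => ?_
  rcases Fin.exists_fin_two.1 ⟨σ x, rfl⟩ with h | h <;> simp [h]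

theorem card_filter_zero (A : Finset V) (σ : V → Fin 2) :
    (A.filter fun y => σ y = 0).card + dn A σ = A.card := by
  rw [← card_filter_one, ← Finset.card_filter_add_card_filter_not (s := A) (fun y => σ y = 0)]
  congr 1
  congr 1
  refine Finset.filter_congr fun x _ => ?_
  constructor
  · intro h; rw [h]; decide
  · intro h
    rcases Fin.exists_fin_two.1 ⟨σ x, rfl⟩ with h' | h'
    · exact absurd h' h
    · exact h'

/-- The recursion of the symmetrisation kernel. -/
theorem symM_rec {a : V} {A : Finset V} (ha : a ∉ A) (σ τ : V → Fin 2) :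
    (((insert a A).card : ℕ) : ℝ) * symM (insert a A) σ τ
      = ∑ y ∈ insert a A, symM A (σ ∘ Equiv.swap a y) τ := by
  have hc : (insert a A).card = A.card + 1 := Finset.card_insert_of_notMem ha
  by_cases hR : Rel (insert a A) σ τ
  · have hL : symM (insert a A) σ τ
        = (((insert a A).card.choose (dn (insert a A) τ) : ℕ) : ℝ)⁻¹ := by
      unfold symM; simp only [Matrix.of_apply]; rw [if_pos hR, hR.2]
    have hS : ∑ y ∈ insert a A, symM A (σ ∘ Equiv.swap a y) τ
        = ((((insert a A).filter fun y => σ y = τ a).card : ℕ) : ℝ)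
            * (((A.card.choose (dn A τ) : ℕ) : ℝ)⁻¹) := by
      rw [Finset.card_filter]
      push_cast
      rw [Finset.sum_mul]
      refine Finset.sum_congr rfl fun y hy => ?_
      unfold symM; simp only [Matrix.of_apply]
      by_cases h : σ y = τ a
      · have hr : Rel A (σ ∘ Equiv.swap a y) τ := (rel_swap_iff ha hy σ τ).2 ⟨h, hR⟩
        rw [if_pos hr, hr.2]; simp [h]
      · have hr : ¬ Rel A (σ ∘ Equiv.swap a y) τ := fun h' => h ((rel_swap_iff ha hy σ τ).1 h').1
        rw [if_neg hr]; simp [h]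
    rw [hL, hS]
    have hdτ := dn_insert ha τ
    have hle := dn_le A τ
    have hpos1 : (0 : ℝ) < ((A.card.choose (dn A τ) : ℕ) : ℝ) := by
      exact_mod_cast Nat.choose_pos hle
    have hpos2 : (0 : ℝ) < (((insert a A).card.choose (dn (insert a A) τ) : ℕ) : ℝ) := by
      exact_mod_cast Nat.choose_pos (dn_le _ _)
    rw [← div_eq_mul_inv, ← div_eq_mul_inv, div_eq_div_iff hpos2.ne' hpos1.ne']
    rcases Fin.exists_fin_two.1 ⟨τ a, rfl⟩ with h | h
    · -- τ a = 0
      have h0 : τ a = 0 := h
      rw [h0] at hdτ ⊢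
      have hcard := card_filter_zero (insert a A) σ
      rw [hR.2] at hcard
      have hdt : dn (insert a A) τ = dn A τ := by rw [hdτ]; simp
      rw [hdt, hc] at hcard
      rw [hdt, hc]
      have key := Nat.choose_mul_succ_eq A.card (dn A τ)
      have e1 : (Finset.filter (fun y => σ y = 0) (insert a A)).card = A.card + 1 - dn A τ := by
        omega
      rw [e1]
      have key' : ((A.card.choose (dn A τ) * (A.card + 1) : ℕ) : ℝ)
          = (((A.card + 1).choose (dn A τ) * (A.card + 1 - dn A τ) : ℕ) : ℝ) := by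
        exact_mod_cast key
      rw [Nat.cast_mul, Nat.cast_mul] at key'
      linarith [key', mul_comm ((A.card.choose (dn A τ) : ℕ) : ℝ) ((A.card + 1 : ℕ) : ℝ),
        mul_comm (((A.card + 1).choose (dn A τ) : ℕ) : ℝ) ((A.card + 1 - dn A τ : ℕ) : ℝ)]
    · have h1 : τ a = 1 := h
      rw [h1] at hdτ ⊢
      have hcard := card_filter_one (insert a A) σ
      rw [hR.2] at hcard
      have hdt : dn (insert a A) τ = dn A τ + 1 := by rw [hdτ]; simp [add_comm]
      rw [hdt] at hcard
      rw [hcard, hdt, hc]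
      have key := Nat.add_one_mul_choose_eq A.card (dn A τ)
      have key' : (((A.card + 1) * A.card.choose (dn A τ) : ℕ) : ℝ)
          = (((A.card + 1).choose (dn A τ + 1) * (dn A τ + 1) : ℕ) : ℝ) := by
        exact_mod_cast key
      rw [Nat.cast_mul, Nat.cast_mul] at key'
      linarith [key', mul_comm (((A.card + 1).choose (dn A τ + 1) : ℕ) : ℝ)
        ((dn A τ + 1 : ℕ) : ℝ)]
  · have hL : symM (insert a A) σ τ = 0 := by
      unfold symM; simp only [Matrix.of_apply]; rw [if_neg hR]
    rw [hL, mul_zero]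
    symm
    refine Finset.sum_eq_zero fun y hy => ?_
    unfold symM; simp only [Matrix.of_apply]
    rw [if_neg fun h' => hR ((rel_swap_iff ha hy σ τ).1 h').2]

theorem symM_empty : symM (∅ : Finset V) = 1 := by
  ext σ τ
  unfold symM; simp only [Matrix.of_apply]
  by_cases h : σ = τ
  · subst h; rw [if_pos (Rel.refl _ _)]; simp [dn]
  · rw [if_neg, Matrix.one_apply_ne h]
    intro h'; exact h (funext fun x => h'.1 x (Finset.notMem_empty x))

theorem symM_rowsum (A : Finset V) : ∀ σ : V → Fin 2, ∑ τ, symM A σ τ = 1 := by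
  induction A using Finset.induction_on with
  | empty =>
    intro σ; rw [symM_empty]; simp [Matrix.one_apply]
  | insert a A ha ih =>
    intro σ
    have h1 : (((insert a A).card : ℕ) : ℝ) * ∑ τ, symM (insert a A) σ τ
        = ((insert a A).card : ℕ) := by
      rw [Finset.mul_sum]
      rw [Finset.sum_congr rfl fun τ _ => symM_rec ha σ τ]
      rw [Finset.sum_comm]
      rw [Finset.sum_congr rfl fun y _ => ih (σ ∘ Equiv.swap a y)]
      simp
    have hc : (((insert a A).card : ℕ) : ℝ) ≠ 0 := by
      have : (insert a A).card ≠ 0 := by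
        rw [Finset.card_insert_of_notMem ha]; omega
      exact_mod_cast this
    have h2 : (((insert a A).card : ℕ) : ℝ) * ∑ τ, symM (insert a A) σ τ
        = (((insert a A).card : ℕ) : ℝ) * 1 := by rw [h1, mul_one]
    exact mul_left_cancel₀ hc h2

theorem symM_symm (A : Finset V) (σ τ : V → Fin 2) : symM A σ τ = symM A τ σ := by
  unfold symM; simp only [Matrix.of_apply]
  by_cases h : Rel A σ τ
  · rw [if_pos h, if_pos h.symm, h.2]
  · rw [if_neg h, if_neg fun h' => h h'.symm]

theorem symM_transpose (A : Finset V) : (symM A)ᵀ = symM A := by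
  ext σ τ; rw [Matrix.transpose_apply]; exact symM_symm A τ σ

theorem symM_congr {A : Finset V} {σ τ : V → Fin 2} (h : Rel A σ τ) (ρ : V → Fin 2) :
    symM A τ ρ = symM A σ ρ := by
  unfold symM; simp only [Matrix.of_apply]
  by_cases h' : Rel A σ ρ
  · rw [if_pos h', if_pos (h.symm.trans h'), h.2]
  · rw [if_neg h', if_neg fun h'' => h' (h.trans h'')]

theorem symM_mul_self (A : Finset V) : symM A * symM A = symM A := by
  ext σ ρ
  rw [Matrix.mul_apply]
  have : ∀ τ, symM A σ τ * symM A τ ρ = symM A σ τ * symM A σ ρ := by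
    intro τ
    by_cases h : Rel A σ τ
    · rw [symM_congr h ρ]
    · have : symM A σ τ = 0 := by unfold symM; simp only [Matrix.of_apply]; rw [if_neg h]
      rw [this, zero_mul, zero_mul]
  rw [Finset.sum_congr rfl fun τ _ => this τ, ← Finset.sum_mul, symM_rowsum, one_mul]

theorem swapM_mul_apply (x y : V) (M : Matrix (V → Fin 2) (V → Fin 2) ℝ) (σ τ : V → Fin 2) :
    (swapM x y * M) σ τ = M (σ ∘ Equiv.swap x y) τ := by
  rw [Matrix.mul_apply, Finset.sum_eq_single (σ ∘ Equiv.swap x y)]
  · unfold swapM; simp only [Matrix.of_apply]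
    rw [swap_comp_swap, if_pos rfl, one_mul]
  · intro ρ _ hρ
    unfold swapM; simp only [Matrix.of_apply]
    rw [if_neg, zero_mul]
    intro h; exact hρ (by rw [h, swap_comp_swap])
  · intro h; exact absurd (Finset.mem_univ _) h

theorem swapM_transpose (x y : V) : (swapM x y : Matrix (V → Fin 2) (V → Fin 2) ℝ)ᵀ = swapM x y := by
  ext σ τ
  rw [Matrix.transpose_apply]
  unfold swapM; simp only [Matrix.of_apply]
  have : (τ = σ ∘ Equiv.swap x y) ↔ (σ = τ ∘ Equiv.swap x y) := by
    constructor
    · intro h; rw [h, swap_comp_swap]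
    · intro h; rw [h, swap_comp_swap]
  simp only [this]

theorem swapM_mul_self (x y : V) :
    (swapM x y * swapM x y : Matrix (V → Fin 2) (V → Fin 2) ℝ) = 1 := by
  ext σ τ
  rw [swapM_mul_apply]
  unfold swapM; simp only [Matrix.of_apply]
  have : (σ ∘ Equiv.swap x y = τ ∘ Equiv.swap x y) ↔ (σ = τ) := by
    constructor
    · intro h
      have h2 := congrArg (fun f => f ∘ Equiv.swap x y) h
      simpa only [swap_comp_swap] using h2
    · intro h; rw [h]
  simp only [this, Matrix.one_apply]

theorem swapM_self (x : V) : (swapM x x : Matrix (V → Fin 2) (V → Fin 2) ℝ) = 1 := by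
  ext σ τ
  unfold swapM; simp only [Matrix.of_apply]
  rw [Equiv.swap_self, Matrix.one_apply]
  simp

theorem swapM_comm (x y : V) : (swapM x y : Matrix (V → Fin 2) (V → Fin 2) ℝ) = swapM y x := by
  unfold swapM; rw [Equiv.swap_comm]

/-- `1 - swap` is positive semidefinite. -/
theorem one_sub_swapM_posSemidef (x y : V) :
    (1 - swapM x y : Matrix (V → Fin 2) (V → Fin 2) ℝ).PosSemidef := by
  have h : (1 - swapM x y : Matrix (V → Fin 2) (V → Fin 2) ℝ)
      = (1 / 2 : ℝ) • ((1 - swapM x y)ᴴ * (1 - swapM x y)) := by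
    rw [Matrix.conjTranspose_eq_transpose_of_trivial, Matrix.transpose_sub,
      Matrix.transpose_one, swapM_transpose, sub_mul, mul_sub, mul_sub, swapM_mul_self,
      mul_one, one_mul, mul_one]
    ext σ τ
    simp only [Matrix.sub_apply, Matrix.smul_apply, smul_eq_mul]
    ring
  rw [h]
  exact (Matrix.posSemidef_conjTranspose_mul_self _).smul (by norm_num)

theorem one_sub_symM_posSemidef (A : Finset V) :
    (1 - symM A : Matrix (V → Fin 2) (V → Fin 2) ℝ).PosSemidef := by
  have h : (1 - symM A : Matrix (V → Fin 2) (V → Fin 2) ℝ) = (1 - symM A)ᴴ * (1 - symM A) := by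
    rw [Matrix.conjTranspose_eq_transpose_of_trivial, Matrix.transpose_sub,
      Matrix.transpose_one, symM_transpose, sub_mul, mul_sub, mul_sub, symM_mul_self,
      mul_one, one_mul, mul_one]
    abel
  rw [h]
  exact Matrix.posSemidef_conjTranspose_mul_self _

theorem symM_posSemidef (A : Finset V) :
    (symM A : Matrix (V → Fin 2) (V → Fin 2) ℝ).PosSemidef := by
  have h : (symM A : Matrix (V → Fin 2) (V → Fin 2) ℝ) = (symM A)ᴴ * symM A := by
    rw [Matrix.conjTranspose_eq_transpose_of_trivial, symM_transpose, symM_mul_self]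
  rw [h]
  exact Matrix.posSemidef_conjTranspose_mul_self _

/-- `X = ∑_{y ∈ A} (1 - swap a y)`. -/
def XM (a : V) (A : Finset V) : Matrix (V → Fin 2) (V → Fin 2) ℝ := ∑ y ∈ A, (1 - swapM a y)

theorem XM_posSemidef (a : V) (A : Finset V) : (XM a A).PosSemidef := by
  unfold XM
  exact Matrix.posSemidef_sum _ fun y _ => one_sub_swapM_posSemidef a y

/-- one step of the symmetrisation inequality -/
theorem step_psd {a : V} {A : Finset V} (ha : a ∉ A) :
    (XM a A - ((A.card : ℝ) + 1) • (symM A - symM (insert a A))).PosSemidef := by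
  have hrec : ((A.card : ℝ) + 1) • symM (insert a A)
      = symM A + (∑ y ∈ A, swapM a y) * symM A := by
    ext σ τ
    rw [Matrix.smul_apply, smul_eq_mul, Matrix.add_apply, Finset.sum_mul, Matrix.sum_apply]
    have h := symM_rec ha σ τ
    rw [Finset.card_insert_of_notMem ha, Finset.sum_insert ha] at h
    push_cast at h
    rw [h, Equiv.swap_self]
    congr 1
    refine Finset.sum_congr rfl fun y _ => ?_
    rw [swapM_mul_apply]
  have hX : XM a A = (A.card : ℝ) • (1 : Matrix (V → Fin 2) (V → Fin 2) ℝ)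
      - ∑ y ∈ A, swapM a y := by
    unfold XM
    rw [Finset.sum_sub_distrib, Finset.sum_const, Nat.cast_smul_eq_nsmul]
  have hTT : (∑ y ∈ A, (swapM a y : Matrix (V → Fin 2) (V → Fin 2) ℝ))ᵀ
      = ∑ y ∈ A, swapM a y := by
    rw [Matrix.transpose_sum]
    exact Finset.sum_congr rfl fun y _ => swapM_transpose a y
  have hrec' : ((A.card : ℝ) + 1) • symM (insert a A)
      = symM A + symM A * (∑ y ∈ A, swapM a y) := by
    have h := congrArg Matrix.transpose hrec
    rw [Matrix.transpose_smul, Matrix.transpose_add, Matrix.transpose_mul, hTT,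
      symM_transpose, symM_transpose] at h
    exact h
  have hcomm : (∑ y ∈ A, swapM a y) * symM A = symM A * (∑ y ∈ A, swapM a y) := by
    have := hrec.symm.trans hrec'
    exact add_left_cancel this
  have hXc : XM a A * symM A = symM A * XM a A := by
    rw [hX, sub_mul, mul_sub, hcomm, Matrix.smul_mul, Matrix.mul_smul, one_mul, mul_one]
  have key : XM a A - ((A.card : ℝ) + 1) • (symM A - symM (insert a A))
      = (1 - symM A)ᴴ * XM a A * (1 - symM A) := by
    rw [Matrix.conjTranspose_eq_transpose_of_trivial, Matrix.transpose_sub,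
      Matrix.transpose_one, symM_transpose]
    have h1 : (1 - symM A) * XM a A * (1 - symM A) = XM a A - XM a A * symM A := by
      rw [sub_mul, one_mul, mul_sub, mul_one, sub_mul]
      rw [← hXc, mul_assoc (XM a A) (symM A) (symM A), symM_mul_self]
      abel
    rw [h1, smul_sub, hrec, hX, sub_mul, Matrix.smul_mul, one_mul, add_smul, one_smul]
    abel
  rw [key]
  exact (XM_posSemidef a A).conjTranspose_mul_mul_same _

/-- **Symmetrisation lemma.** `1 - Π_A ≤ ¼ ∑_{x,y ∈ A} (1 - swap x y)`. -/
theorem sym_psd (A : Finset V) :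
    ((1 / 4 : ℝ) • (∑ x ∈ A, ∑ y ∈ A, (1 - swapM x y)) - (1 - symM A) :
      Matrix (V → Fin 2) (V → Fin 2) ℝ).PosSemidef := by
  induction A using Finset.induction_on with
  | empty =>
    simp only [Finset.sum_empty, smul_zero, symM_empty, sub_self]
    exact Matrix.PosSemidef.zero
  | insert a A ha ih =>
    have hsum : (∑ x ∈ insert a A, ∑ y ∈ insert a A,
        (1 - swapM x y : Matrix (V → Fin 2) (V → Fin 2) ℝ))
        = (∑ x ∈ A, ∑ y ∈ A, (1 - swapM x y)) + (2 : ℝ) • XM a A := by
      rw [Finset.sum_insert ha]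
      rw [Finset.sum_insert ha]
      rw [Finset.sum_congr rfl fun x _ => Finset.sum_insert ha]
      rw [Finset.sum_add_distrib]
      have h1 : ∑ x ∈ A, (1 - swapM x a : Matrix (V → Fin 2) (V → Fin 2) ℝ) = XM a A := by
        unfold XM; exact Finset.sum_congr rfl fun x _ => by rw [swapM_comm]
      rw [h1, swapM_self, sub_self, zero_add, two_smul]
      unfold XM
      abel
    have hdec : ((1 / 4 : ℝ) • (∑ x ∈ insert a A, ∑ y ∈ insert a A, (1 - swapM x y))
        - (1 - symM (insert a A)) : Matrix (V → Fin 2) (V → Fin 2) ℝ)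
        = ((1 / 4 : ℝ) • (∑ x ∈ A, ∑ y ∈ A, (1 - swapM x y)) - (1 - symM A))
          + (((A.card : ℝ) + 1)⁻¹ •
              (XM a A - ((A.card : ℝ) + 1) • (symM A - symM (insert a A)))
            + (1 / 2 - ((A.card : ℝ) + 1)⁻¹) • XM a A) := by
      have hne : ((A.card : ℝ) + 1) ≠ 0 := by positivity
      rw [hsum]
      ext σ τ
      simp only [Matrix.sub_apply, Matrix.add_apply, Matrix.smul_apply, smul_eq_mul]
      field_simp
      ring
    rw [hdec]
    refine ih.add (Matrix.PosSemidef.add ?_ ?_)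
    · exact (step_psd ha).smul (by positivity)
    · by_cases hA : A = ∅
      · subst hA
        have : XM a (∅ : Finset V) = 0 := by unfold XM; simp
        rw [this, smul_zero]; exact Matrix.PosSemidef.zero
      · refine (XM_posSemidef a A).smul ?_
        have h1 : (1 : ℝ) ≤ A.card := by
          exact_mod_cast Finset.card_pos.2 (Finset.nonempty_iff_ne_empty.2 hA)
        have h2 : ((A.card : ℝ) + 1)⁻¹ ≤ 1 / 2 := by
          rw [inv_le_comm₀ (by linarith) (by norm_num)]
          norm_num; linarith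
        linarith

end Vale.Agent.P361.LRO.Tw
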