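import Vale.Agent.P361.LRO.Energy.Swap
import Vale.Agent.P361.LRO.Tw.SymProj

/-!
P361, block (1): the Gibbs operator is positive semidefinite and conserves the number of downs.
-/

namespace Vale.Agent.P361.LRO.Tw

open Finset Matrix

noncomputable section

variable {V : Type} [Fintype V] [DecidableEq V]

theorem expH_psd (L : List (V × V)) (β : ℝ) (h : V → ℝ) :
    (NormedSpace.exp (-β • ham L h)).PosSemidef := by
  obtain ⟨C, hC⟩ := EnR.exp_ham_factor L β h
  rw [hC, ← Matrix.conjTranspose_eq_transpose_of_trivial]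
  exact Matrix.posSemidef_conjTranspose_mul_self C

/-- The number of downs. -/
def numD : Matrix (V → Fin 2) (V → Fin 2) ℝ :=
  Matrix.diagonal fun σ => ((dn univ σ : ℕ) : ℝ)

theorem numD_swapM (x y : V) : Commute (numD : Matrix (V → Fin 2) (V → Fin 2) ℝ) (swapM x y) := by
  unfold Commute SemiconjBy
  ext σ τ
  unfold numD
  rw [Matrix.diagonal_mul, Matrix.mul_diagonal]
  simp only [swapM, Matrix.of_apply]
  split_ifs with h
  · rw [h, dn_comp_swap (mem_univ x) (mem_univ y)]
    ring
  · simp

theorem numD_ham (L : List (V × V)) (h : V → ℝ) :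
    Commute (numD : Matrix (V → Fin 2) (V → Fin 2) ℝ) (ham L h) := by
  unfold ham
  refine Commute.sub_right ?_ ?_
  · induction L with
    | nil => simp
    | cons e L ih =>
      rw [List.map_cons, List.sum_cons]
      refine Commute.add_right ?_ ih
      unfold hM
      exact ((Commute.one_right _).sub_right (numD_swapM _ _)).smul_right _
  · refine Commute.sum_right _ _ _ fun x _ => Commute.smul_right ?_ _
    unfold numD szM
    exact Matrix.commute_diagonal _ _

theorem expH_cons (L : List (V × V)) (β : ℝ) (h : V → ℝ) (σ τ : V → Fin 2)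
    (hd : NormedSpace.exp (-β • ham L h) σ τ ≠ 0) : dn univ σ = dn univ τ := by
  have h1 : Commute (numD : Matrix (V → Fin 2) (V → Fin 2) ℝ)
      (NormedSpace.exp (-β • ham L h)) := ((numD_ham L h).smul_right _).exp_right
  have h2 := congrFun (congrFun h1.eq σ) τ
  unfold numD at h2
  rw [Matrix.diagonal_mul, Matrix.mul_diagonal, mul_comm] at h2
  exact_mod_cast mul_left_cancel₀ hd h2

theorem trace_expH_pos (L : List (V × V)) (β : ℝ) (h : V → ℝ) :
    0 < Matrix.trace (NormedSpace.exp (-β • ham L h)) := by
  have hC : NormedSpace.exp (-β • ham L h) = (NormedSpace.exp (-(β / 2) • ham L h))ᴴ *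
      NormedSpace.exp (-(β / 2) • ham L h) := by
    rw [Matrix.conjTranspose_eq_transpose_of_trivial, ← Matrix.exp_transpose, transpose_smul,
      EnR.ham_transpose, ← Matrix.exp_add_of_commute _ _ rfl, ← add_smul]
    congr 2
    ring
  refine lt_of_le_of_ne (expH_psd L β h).trace_nonneg fun h0 => ?_
  rw [hC] at h0
  have h1 := (Matrix.trace_conjTranspose_mul_self_eq_zero_iff).1 h0.symm
  exact (Matrix.isUnit_exp (-(β / 2) • ham L h)).ne_zero h1

end

end Vale.Agent.P361.LRO.Tw
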