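import Vale.Agent.P361.LRO.Top

/-!
P361, block (1): the rotated slice `rotT` on a block (`Dst` is in `Top.lean`).
-/

namespace Vale.Agent.P361.LRO

open Finset Matrix

noncomputable section

/-- `1 + θ (cos φ σ³ + sin φ σ¹)`. -/
def rotM (θ φ : ℝ) : Matrix (Fin 2) (Fin 2) ℝ :=
  !![1 + θ * Real.cos φ, θ * Real.sin φ; θ * Real.sin φ, 1 - θ * Real.cos φ]

variable {V : Type} [Fintype V] [DecidableEq V]

/-- The product of `rotM θ φ` over the sites of `b`. -/
def rotT (b : Finset V) (θ φ : ℝ) : Matrix (V → Fin 2) (V → Fin 2) ℝ :=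
  Matrix.of fun σ τ => ∏ x, if x ∈ b then rotM θ φ (σ x) (τ x) else if σ x = τ x then 1 else 0

/-- One time step: all gates, then all slices; `p = β / (2N)`. -/
def stepM (L : List (V × V)) (β : ℝ) (h : V → ℝ) (N : ℕ) : Matrix (V → Fin 2) (V → Fin 2) ℝ :=
  (L.map fun e => (1 - β / (2 * N)) • (1 : Matrix (V → Fin 2) (V → Fin 2) ℝ) +
    (β / (2 * N)) • swapM e.1 e.2).prod *
  Matrix.diagonal fun σ : V → Fin 2 => ∏ x, (1 + β * h x / (2 * N) * if σ x = 0 then 1 else -1)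

end

end Vale.Agent.P361.LRO
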