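import Vale.Agent.P361.LRO.Tw.Sums
import Vale.Agent.P361.LRO.Tw.Defs

/-!
Block (1) of the low temperature order proof (P361): the operator part.
-/

namespace Vale.Agent.P361.LRO.Tw

open Finset Matrix MeasureTheory intervalIntegral

set_option linter.unusedSectionVars false

variable {V : Type} [Fintype V] [DecidableEq V]

open scoped MatrixOrder in
theorem exists_factor_real {m : Type*} [Fintype m] [DecidableEq m] {A : Matrix m m ℝ}
    (hA : A.PosSemidef) : ∃ B : Matrix m m ℝ, A = Bᴴ * B := by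
  obtain ⟨b, hb⟩ := CStarAlgebra.nonneg_iff_eq_star_mul_self.mp hA.nonneg
  exact ⟨b, hb⟩

theorem tr_mul_nonneg {m : Type*} [Fintype m] [DecidableEq m] {A B : Matrix m m ℝ}
    (hA : A.PosSemidef) (hB : B.PosSemidef) : 0 ≤ Matrix.trace (A * B) := by
  obtain ⟨C, rfl⟩ := exists_factor_real hB
  rw [← Matrix.mul_assoc, Matrix.trace_mul_comm, ← Matrix.mul_assoc]
  exact (hA.mul_mul_conjTranspose_same C).trace_nonneg

/-- The density of down spins. -/
theorem half_sub_szM (x : V) : (1 / 2 : ℝ) • (1 - szM x)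
    = (Matrix.diagonal fun σ : V → Fin 2 => ((σ x : ℕ) : ℝ)) := by
  unfold szM
  rw [← Matrix.diagonal_one, Matrix.diagonal_sub, ← Matrix.diagonal_smul]
  congr 1
  funext σ
  simp only [Pi.smul_apply, smul_eq_mul]
  rcases Fin.exists_fin_two.1 ⟨σ x, rfl⟩ with h | h
  · rw [h]; norm_num
  · rw [h]; norm_num

theorem NM_eq_sum (A : Finset V) : (NM A : Matrix (V → Fin 2) (V → Fin 2) ℝ)
    = ∑ x ∈ A, (1 / 2 : ℝ) • (1 - szM x) := by
  rw [Finset.sum_congr rfl fun x _ => half_sub_szM x]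
  ext σ τ
  rw [Matrix.sum_apply]
  unfold NM dn
  by_cases h : σ = τ
  · subst h
    simp only [Matrix.diagonal_apply_eq]
    push_cast
    rfl
  · simp only [Matrix.diagonal_apply_ne _ h]
    simp

/-- `symM A` commutes with `NM A`. -/
theorem symM_NM (A : Finset V) : symM A * NM A = NM A * symM A := by
  ext σ τ
  unfold NM
  rw [Matrix.mul_diagonal, Matrix.diagonal_mul]
  by_cases h : Rel A σ τ
  · rw [h.2, mul_comm]
  · have : symM A σ τ = 0 := by unfold symM; simp only [Matrix.of_apply]; rw [if_neg h]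
    rw [this, mul_zero, zero_mul]

theorem card_sub_NM_posSemidef (A : Finset V) :
    (((A.card : ℝ) • (1 : Matrix (V → Fin 2) (V → Fin 2) ℝ)) - NM A).PosSemidef := by
  have h : ((A.card : ℝ) • (1 : Matrix (V → Fin 2) (V → Fin 2) ℝ)) - NM A
      = Matrix.diagonal fun σ : V → Fin 2 => (A.card : ℝ) - (dn A σ : ℝ) := by
    unfold NM
    rw [← Matrix.diagonal_one, ← Matrix.diagonal_smul, Matrix.diagonal_sub]
    congr 1
    funext σ
    simp
  rw [h]
  refine Matrix.PosSemidef.diagonal fun σ => ?_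
  have : (dn A σ : ℝ) ≤ (A.card : ℝ) := by exact_mod_cast dn_le A σ
  simp only [Pi.zero_apply]
  linarith

/-- `N (1 - Π) ≤ |A| (1 - Π)`. -/
theorem card_NM_psd (A : Finset V) :
    ((symM A * NM A) - (NM A - (A.card : ℝ) • (1 - symM A))).PosSemidef := by
  have h : (symM A * NM A) - (NM A - (A.card : ℝ) • (1 - symM A))
      = (1 - symM A)ᴴ * (((A.card : ℝ) • (1 : Matrix (V → Fin 2) (V → Fin 2) ℝ)) - NM A)
        * (1 - symM A) := by
    rw [Matrix.conjTranspose_eq_transpose_of_trivial, Matrix.transpose_sub,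
      Matrix.transpose_one, symM_transpose]
    have e1 : symM A * NM A * symM A = symM A * NM A := by
      rw [mul_assoc, ← symM_NM, ← mul_assoc, symM_mul_self]
    have e2 : NM A * symM A = symM A * NM A := (symM_NM A).symm
    simp only [sub_mul, mul_sub, one_mul, mul_one, Matrix.smul_mul, Matrix.mul_smul, smul_sub,
      symM_mul_self, e1, e2]
    abel
  rw [h]
  exact (card_sub_NM_posSemidef A).conjTranspose_mul_mul_same _

theorem sum_hM (A : Finset V) : (1 / 4 : ℝ) • (∑ x ∈ A, ∑ y ∈ A, (1 - swapM x y))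
    = (1 / 2 : ℝ) • ∑ x ∈ A, ∑ y ∈ A, (hM x y : Matrix (V → Fin 2) (V → Fin 2) ℝ) := by
  unfold hM
  simp only [← Finset.smul_sum]
  rw [smul_smul]
  norm_num

theorem hM_posSemidef (x y : V) : (hM x y).PosSemidef := by
  unfold hM
  exact (one_sub_swapM_posSemidef x y).smul (by norm_num)

theorem hM_self (x : V) : (hM x x : Matrix (V → Fin 2) (V → Fin 2) ℝ) = 0 := by
  unfold hM
  rw [swapM_self, sub_self, smul_zero]

theorem rotM_eq (θ : ℝ) {φ : ℝ} (h0 : 0 ≤ φ) (h1 : φ ≤ Real.pi) (i j : Fin 2) :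
    rotM θ φ i j = (1 - θ) * (if i = j then 1 else 0)
      + 2 * θ * (vq ((1 - Real.cos φ) / 2) i * vq ((1 - Real.cos φ) / 2) j) := by
  have hc : √(1 - (1 - Real.cos φ) / 2) = Real.cos (φ / 2) := by
    have e : 1 - (1 - Real.cos φ) / 2 = Real.cos (φ / 2) ^ 2 := by
      rw [Real.cos_sq]; ring_nf
    rw [e, Real.sqrt_sq]
    exact Real.cos_nonneg_of_mem_Icc ⟨by linarith [Real.pi_pos], by linarith⟩
  have hs : √((1 - Real.cos φ) / 2) = Real.sin (φ / 2) := by
    have e : (1 - Real.cos φ) / 2 = Real.sin (φ / 2) ^ 2 := by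
      rw [Real.sin_sq, Real.cos_sq]; ring_nf
    rw [e, Real.sqrt_sq]
    exact Real.sin_nonneg_of_nonneg_of_le_pi (by linarith) (by linarith)
  have hcos : Real.cos φ = 2 * Real.cos (φ / 2) ^ 2 - 1 := by
    rw [← Real.cos_two_mul]; ring_nf
  have hsin : Real.sin φ = 2 * Real.sin (φ / 2) * Real.cos (φ / 2) := by
    rw [← Real.sin_two_mul]; ring_nf
  have hsq := Real.sin_sq_add_cos_sq (φ / 2)
  unfold rotM vq
  rw [hc, hs]
  fin_cases i <;> fin_cases j
  · simp; rw [hcos]; ring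
  · simp; rw [hsin]; ring
  · simp; rw [hsin]; ring
  · have hs2 : Real.sin (φ / 2) * Real.sin (φ / 2) = 1 - Real.cos (φ / 2) ^ 2 := by
      linarith [hsq, sq (Real.sin (φ / 2))]
    simp; rw [hcos, hs2]; ring

theorem rotT_eq (b : Finset V) (θ : ℝ) {φ : ℝ} (h0 : 0 ≤ φ) (h1 : φ ≤ Real.pi) :
    rotT b θ φ = TM b θ ((1 - Real.cos φ) / 2) := by
  ext σ τ
  unfold rotT TM
  simp only [Matrix.of_apply]
  refine Finset.prod_congr rfl fun x _ => ?_
  by_cases hx : x ∈ b
  · rw [if_pos hx, if_pos hx, rotM_eq θ h0 h1]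
  · rw [if_neg hx, if_neg hx]

theorem continuous_vq (i : Fin 2) : Continuous fun q : ℝ => vq q i := by
  unfold vq
  split_ifs
  · exact Real.continuous_sqrt.comp (continuous_const.sub continuous_id)
  · exact Real.continuous_sqrt

theorem continuous_TM (b : Finset V) (θ : ℝ) (W : Matrix (V → Fin 2) (V → Fin 2) ℝ) :
    Continuous fun q : ℝ => Matrix.trace (W * TM b θ q) := by
  have h : (fun q : ℝ => Matrix.trace (W * TM b θ q))
      = fun q : ℝ => ∑ σ, ∑ τ, W σ τ * TM b θ q τ σ := by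
    funext q; rw [Matrix.trace]; rfl
  rw [h]
  refine continuous_finsetSum _ fun σ _ => continuous_finsetSum _ fun τ _ => ?_
  refine continuous_const.mul ?_
  unfold TM
  simp only [Matrix.of_apply]
  refine continuous_finsetProd _ fun x _ => ?_
  by_cases hx : x ∈ b
  · simp only [if_pos hx]
    exact continuous_const.add (continuous_const.mul
      ((continuous_vq _).mul (continuous_vq _)))
  · simp only [if_neg hx]
    exact continuous_const

theorem change_var {F : ℝ → ℝ} (hF : Continuous F) :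
    ∫ φ in (0 : ℝ)..Real.pi, Real.sin φ * F ((1 - Real.cos φ) / 2)
      = 2 * ∫ q in (0 : ℝ)..1, F q := by
  have h := intervalIntegral.integral_comp_mul_deriv (a := 0) (b := Real.pi)
    (f := fun φ => (1 - Real.cos φ) / 2) (f' := fun φ => Real.sin φ / 2) (g := F)
    (fun φ _ => by
      have := ((Real.hasDerivAt_cos φ).const_sub 1).div_const 2
      simpa using this)
    (by fun_prop) hF
  simp only [Function.comp_apply, Real.cos_zero, sub_self, zero_div, Real.cos_pi, sub_neg_eq_add] at h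
  have e : ((1 : ℝ) + 1) / 2 = 1 := by norm_num
  rw [e] at h
  rw [← h, ← intervalIntegral.integral_const_mul]
  congr 1
  funext φ
  ring

/-- The final inequality with `θ`. -/
theorem op_core {W : Matrix (V → Fin 2) (V → Fin 2) ℝ} (hW : W.PosSemidef) (hsym : Cons W)
    {b : Finset V} {θ κ : ℝ} (hθ : 0 < θ) (hθ1 : θ ≤ 1)
    (h6 : 6 * (1 + θ) ≤ (b.card : ℝ) * (2 * θ)) (hκ : 0 < κ)
    (hk : 2 * κ * ∫ q in (0 : ℝ)..1, q * Matrix.trace (W * TM b θ q)
      ≤ ∫ q in (0 : ℝ)..1, Matrix.trace (W * TM b θ q)) :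
    2 * κ * ((2 / 3) * ((1 + θ) ^ (b.card + 1) / (((b.card : ℝ) + 1) * (2 * θ)))
        * ((∑ x ∈ b, Matrix.trace (W * ((1 / 2 : ℝ) • (1 - szM x)))) / b.card)
      - (1 / 12) * ((2 * θ) ^ 2 * (1 + θ) ^ (b.card - 2))
        * ∑ x ∈ b, ∑ y ∈ b, Matrix.trace (W * hM x y))
      ≤ (1 + θ) ^ (b.card + 1) / (((b.card : ℝ) + 1) * (2 * θ)) * Matrix.trace W := by
  set n : ℝ := (b.card : ℝ) with hn
  have hn6 : 6 ≤ n := by
    by_contra hlt
    push Not at hlt
    have : n * (2 * θ) < 6 * (2 * θ) := by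
      exact mul_lt_mul_of_pos_right hlt (by linarith)
    nlinarith
  have hnpos : 0 < n := by linarith
  set r : V → ℝ := fun x => Matrix.trace (W * ((1 / 2 : ℝ) • (1 - szM x))) with hr
  set H : V → V → ℝ := fun x y => Matrix.trace (W * hM x y) with hH
  have hH0 : ∀ x y, 0 ≤ H x y := fun x y => tr_mul_nonneg hW (hM_posSemidef x y)
  have hHd : ∀ x, H x x = 0 := by
    intro x; rw [hH]; simp only [hM_self]; simp
  have hWtr : 0 ≤ Matrix.trace W := hW.trace_nonneg
  set Q := (1 + θ) ^ (b.card + 1) / ((n + 1) * (2 * θ)) with hQ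
  have hQ0 : 0 ≤ Q := by rw [hQ]; positivity
  have hw0 : ∀ A : Finset V, 0 ≤ wS θ b.card A.card := fun A => by
    unfold wS
    exact mul_nonneg (by positivity) (pow_nonneg (by linarith) _)
  have hxy : 2 * θ + (1 - θ) = 1 + θ := by ring
  -- first integral
  have I1 : ∫ q in (0 : ℝ)..1, Matrix.trace (W * TM b θ q) ≤ Q * Matrix.trace W := by
    rw [integral_Z b θ hsym]
    have h1 := sum_one_le (x := 2 * θ) (y := 1 - θ) (by linarith) (by linarith) b
    rw [hxy] at h1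
    calc ∑ A ∈ b.powerset, wS θ b.card A.card *
          (((A.card : ℝ) + 1)⁻¹ * Matrix.trace (W * symM A))
        ≤ ∑ A ∈ b.powerset, (2 * θ) ^ A.card * (1 - θ) ^ (b.card - A.card)
            * ((A.card : ℝ) + 1)⁻¹ * Matrix.trace W := by
          refine Finset.sum_le_sum fun A _ => ?_
          have h2 : Matrix.trace (W * symM A) ≤ Matrix.trace W := by
            have := tr_mul_nonneg hW (one_sub_symM_posSemidef A)
            rw [mul_sub, mul_one, Matrix.trace_sub] at this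
            linarith
          have h3 : 0 ≤ (2 * θ) ^ A.card * (1 - θ) ^ (b.card - A.card) := hw0 A
          calc wS θ b.card A.card * (((A.card : ℝ) + 1)⁻¹ * Matrix.trace (W * symM A))
              = (2 * θ) ^ A.card * (1 - θ) ^ (b.card - A.card)
                  * ((A.card : ℝ) + 1)⁻¹ * Matrix.trace (W * symM A) := by unfold wS; ring
            _ ≤ _ := mul_le_mul_of_nonneg_left h2 (by positivity)
      _ = (∑ A ∈ b.powerset, (2 * θ) ^ A.card * (1 - θ) ^ (b.card - A.card)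
            * ((A.card : ℝ) + 1)⁻¹) * Matrix.trace W := by rw [Finset.sum_mul]
      _ ≤ Q * Matrix.trace W := mul_le_mul_of_nonneg_right h1 hWtr
  -- second integral
  have I2 : (∑ A ∈ b.powerset, (wS θ b.card A.card * (((A.card : ℝ) + 1) * ((A.card : ℝ) + 2))⁻¹)
        * ∑ x ∈ A, r x)
      - (1 / 12) * ∑ A ∈ b.powerset, wS θ b.card A.card * ∑ x ∈ A, ∑ y ∈ A, H x y
      ≤ ∫ q in (0 : ℝ)..1, q * Matrix.trace (W * TM b θ q) := by
    rw [integral_qZ b θ hsym, Finset.mul_sum, ← Finset.sum_sub_distrib]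
    refine Finset.sum_le_sum fun A _ => ?_
    have ha : (0 : ℝ) ≤ (A.card : ℝ) := by positivity
    set a : ℝ := (A.card : ℝ) with haa
    have p1 : 0 ≤ Matrix.trace (W * symM A) := tr_mul_nonneg hW (symM_posSemidef A)
    have p2 : ∑ x ∈ A, r x - a * Matrix.trace (W * (1 - symM A))
        ≤ Matrix.trace (W * (symM A * NM A)) := by
      have h := tr_mul_nonneg hW (card_NM_psd A)
      have e : Matrix.trace (W * NM A) = ∑ x ∈ A, r x := by
        rw [NM_eq_sum, Finset.mul_sum, Matrix.trace_sum]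
      rw [mul_sub, mul_sub, Matrix.trace_sub, Matrix.trace_sub, e, Matrix.mul_smul,
        Matrix.trace_smul, smul_eq_mul] at h
      linarith
    have p3 : Matrix.trace (W * (1 - symM A)) ≤ (1 / 2) * ∑ x ∈ A, ∑ y ∈ A, H x y := by
      have h := tr_mul_nonneg hW (sym_psd A)
      rw [sum_hM, mul_sub, Matrix.trace_sub, Matrix.mul_smul, Matrix.trace_smul, smul_eq_mul,
        Finset.mul_sum, Matrix.trace_sum] at h
      have e : ∑ x ∈ A, Matrix.trace (W * ∑ y ∈ A, hM x y) = ∑ x ∈ A, ∑ y ∈ A, H x y := by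
        refine Finset.sum_congr rfl fun x _ => ?_
        rw [Finset.mul_sum, Matrix.trace_sum]
      rw [e] at h
      linarith
    have p4 : 0 ≤ ∑ x ∈ A, ∑ y ∈ A, H x y :=
      Finset.sum_nonneg fun x _ => Finset.sum_nonneg fun y _ => hH0 x y
    set SH := ∑ x ∈ A, ∑ y ∈ A, H x y with hSH
    set Sr := ∑ x ∈ A, r x with hSr
    have hc : 0 ≤ ((a + 1) * (a + 2))⁻¹ := by positivity
    have hc6 : ((a + 1) * (a + 2))⁻¹ * a ≤ 1 / 6 := by
      rw [inv_mul_le_iff₀ (by positivity)]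
      -- a ≤ (a+1)(a+2)/6, integer a
      rcases Nat.eq_zero_or_pos A.card with h0 | h0
      · rw [haa, h0]; norm_num
      · rcases Nat.eq_or_lt_of_le h0 with h1 | h1
        · have : a = 1 := by rw [haa, ← h1]; norm_num
          rw [this]; norm_num
        · have : (2 : ℝ) ≤ a := by rw [haa]; exact_mod_cast h1
          nlinarith
    have q1 : Sr - a * ((1 / 2) * SH) ≤ Matrix.trace (W * symM A) + Matrix.trace (W * (symM A * NM A)) := by
      have : a * Matrix.trace (W * (1 - symM A)) ≤ a * ((1 / 2) * SH) :=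
        mul_le_mul_of_nonneg_left p3 ha
      linarith
    have q2 := mul_le_mul_of_nonneg_left q1 hc
    have q3 : ((a + 1) * (a + 2))⁻¹ * Sr - (1 / 12) * SH
        ≤ ((a + 1) * (a + 2))⁻¹ * (Matrix.trace (W * symM A) + Matrix.trace (W * (symM A * NM A))) := by
      refine le_trans ?_ q2
      have : (((a + 1) * (a + 2))⁻¹ * a) * ((1 / 2) * SH) ≤ (1 / 6) * ((1 / 2) * SH) :=
        mul_le_mul_of_nonneg_right hc6 (by linarith)
      nlinarith
    have q4 := mul_le_mul_of_nonneg_left q3 (hw0 A)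
    calc wS θ b.card A.card * ((a + 1) * (a + 2))⁻¹ * Sr - 1 / 12 * (wS θ b.card A.card * SH)
        = wS θ b.card A.card * (((a + 1) * (a + 2))⁻¹ * Sr - (1 / 12) * SH) := by ring
      _ ≤ _ := q4
  -- averages
  have hr0 : ∀ x, 0 ≤ r x := by
    intro x
    rw [hr]
    refine tr_mul_nonneg hW ?_
    rw [half_sub_szM]
    exact Matrix.PosSemidef.diagonal fun σ => by simp
  have I3 : (2 / 3) * Q * ((∑ x ∈ b, r x) / n)
      ≤ ∑ A ∈ b.powerset, (wS θ b.card A.card * (((A.card : ℝ) + 1) * ((A.card : ℝ) + 2))⁻¹)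
        * ∑ x ∈ A, r x := by
    have h1 := sum_mem_avg b (fun k => wS θ b.card k * (((k : ℝ) + 1) * ((k : ℝ) + 2))⁻¹) r
    have h2 := le_sum_two (x := 2 * θ) (y := 1 - θ) (by linarith) (by linarith) b
      (by rw [hxy]; exact h6)
    rw [hxy] at h2
    have h3 : (2 / 3) * Q ≤ ∑ A ∈ b.powerset,
        wS θ b.card A.card * (((A.card : ℝ) + 1) * ((A.card : ℝ) + 2))⁻¹ * (A.card : ℝ) := h2
    have hs : 0 ≤ ∑ x ∈ b, r x := Finset.sum_nonneg fun x _ => hr0 x
    have h4 := mul_le_mul_of_nonneg_right h3 hs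
    rw [← h1] at h4
    rw [← mul_div_assoc, div_le_iff₀ hnpos]
    linarith
  -- pairs
  have I4 : ∑ A ∈ b.powerset, wS θ b.card A.card * ∑ x ∈ A, ∑ y ∈ A, H x y
      = (2 * θ) ^ 2 * (1 + θ) ^ (b.card - 2) * ∑ x ∈ b, ∑ y ∈ b, H x y := by
    have h1 : ∑ A ∈ b.powerset, wS θ b.card A.card * ∑ x ∈ A, ∑ y ∈ A, H x y
        = ∑ A ∈ b.powerset, ∑ x ∈ b, ∑ y ∈ b,
            H x y * (if x ∈ A ∧ y ∈ A then wS θ b.card A.card else 0) := by
      refine Finset.sum_congr rfl fun A hA => ?_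
      have hAb : A ⊆ b := Finset.mem_powerset.1 hA
      rw [Finset.mul_sum, ← Finset.sum_subset hAb]
      · refine Finset.sum_congr rfl fun x hx => ?_
        rw [Finset.mul_sum, ← Finset.sum_subset hAb]
        · refine Finset.sum_congr rfl fun y hy => ?_
          rw [if_pos ⟨hx, hy⟩, mul_comm]
        · intro y _ hy; rw [if_neg fun h' => hy h'.2, mul_zero]
      · intro x _ hx
        refine Finset.sum_eq_zero fun y _ => ?_
        rw [if_neg fun h' => hx h'.1, mul_zero]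
    rw [h1, Finset.sum_comm, Finset.mul_sum]
    refine Finset.sum_congr rfl fun x hx => ?_
    rw [Finset.sum_comm, Finset.mul_sum]
    refine Finset.sum_congr rfl fun y hy => ?_
    by_cases hxy' : x = y
    · subst hxy'
      rw [hHd]; simp
    · rw [← Finset.mul_sum]
      unfold wS
      rw [sum_pair b hx hy hxy', hxy, mul_comm]
  have hfin : 2 * κ * ((2 / 3) * Q * ((∑ x ∈ b, r x) / n)
      - (1 / 12) * ((2 * θ) ^ 2 * (1 + θ) ^ (b.card - 2)) * ∑ x ∈ b, ∑ y ∈ b, H x y)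
      ≤ 2 * κ * ∫ q in (0 : ℝ)..1, q * Matrix.trace (W * TM b θ q) := by
    refine mul_le_mul_of_nonneg_left ?_ (by linarith)
    rw [I4] at I2
    linarith
  exact hfin.trans (hk.trans I1)

theorem tanh_eq (u : ℝ) : Real.tanh u = (Real.exp (2 * u) - 1) / (Real.exp (2 * u) + 1) := by
  rw [Real.tanh_eq_sinh_div_cosh, Real.sinh_eq, Real.cosh_eq]
  have h1 : Real.exp (2 * u) = Real.exp u * Real.exp u := by rw [← Real.exp_add]; ring_nf
  have h2 : Real.exp (-u) = (Real.exp u)⁻¹ := Real.exp_neg u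
  have h3 := Real.exp_pos u
  rw [h1, h2]
  field_simp

/-- **The operator part of the block twist.** -/
theorem op_part {W : Matrix (V → Fin 2) (V → Fin 2) ℝ} (hW : W.PosSemidef)
    (hsym : ∀ σ τ : V → Fin 2, W σ τ ≠ 0 → ∑ x, (σ x : ℕ) = ∑ x, (τ x : ℕ))
    {b : Finset V} {K κ : ℝ} (hK : 10 ≤ K) (hKb : K ≤ b.card) (hκ : 0 < κ)
    (hk : κ * ∫ φ in (0 : ℝ)..Real.pi, Real.sin φ * (1 - Real.cos φ)
        * Matrix.trace (W * rotT b (Real.tanh (K / (2 * b.card))) φ)
      ≤ ∫ φ in (0 : ℝ)..Real.pi, Real.sin φ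
        * Matrix.trace (W * rotT b (Real.tanh (K / (2 * b.card))) φ)) :
    (∑ x ∈ b, Matrix.trace (W * ((1 / 2 : ℝ) • (1 - szM x)))) / b.card
      ≤ (1 / κ) * Matrix.trace W
        + K ^ 3 * (2 / (b.card : ℝ) ^ 2 * ∑ x ∈ b, ∑ y ∈ b, Matrix.trace (W * hM x y)) := by
  have hn10 : (10 : ℝ) ≤ b.card := hK.trans hKb
  have hnpos : (0 : ℝ) < b.card := by linarith
  set θ := Real.tanh (K / (2 * b.card)) with hθdef
  set v : ℝ := K / b.card with hv
  have hv0 : 0 < v := by rw [hv]; positivity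
  have hv1 : v ≤ 1 := by rw [hv]; exact (div_le_one hnpos).2 hKb
  have hnv : (b.card : ℝ) * v = K := by rw [hv]; field_simp
  set E := Real.exp v with hE
  have hE1 : 1 + v + v ^ 2 / 2 ≤ E := Real.quadratic_le_exp_of_nonneg hv0.le
  have hEpos : 0 < E := Real.exp_pos v
  have hEgt : 1 < E := by nlinarith
  have hθE : θ = (E - 1) / (E + 1) := by
    rw [hθdef, tanh_eq, hE, hv]
    have : 2 * (K / (2 * (b.card : ℝ))) = K / b.card := by field_simp
    rw [this]
  have hθ0 : 0 < θ := by rw [hθE]; exact div_pos (by linarith) (by linarith)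
  have hθ1 : θ ≤ 1 := by
    rw [hθE]; exact (div_le_one (by linarith)).2 (by linarith)
  have hE1' : (E + 1) * θ = E - 1 := by rw [hθE]; field_simp
  -- 6 (1 + θ) ≤ n 2 θ
  have hEn : 6 * E ≤ (b.card : ℝ) * (E - 1) := by
    have h1 : 0.6 * v * E ≤ E - 1 := by
      have hq : 0 < 1 - 0.6 * v := by linarith
      have h2 : (1 + v + v ^ 2 / 2) * (1 - 0.6 * v) ≤ E * (1 - 0.6 * v) :=
        mul_le_mul_of_nonneg_right hE1 hq.le
      have h3 : 1 ≤ (1 + v + v ^ 2 / 2) * (1 - 0.6 * v) := by nlinarith [mul_nonneg hv0.le (sub_nonneg.2 hv1), mul_nonneg (mul_nonneg hv0.le hv0.le) (sub_nonneg.2 hv1)]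
      linarith
    have h4 : (b.card : ℝ) * (0.6 * v * E) ≤ (b.card : ℝ) * (E - 1) :=
      mul_le_mul_of_nonneg_left h1 hnpos.le
    have h5 : (b.card : ℝ) * (0.6 * v * E) = 0.6 * K * E := by rw [← hnv]; ring
    rw [h5] at h4
    nlinarith
  have h6 : 6 * (1 + θ) ≤ (b.card : ℝ) * (2 * θ) := by
    have hpos : 0 < E + 1 := by linarith
    refine le_of_mul_le_mul_left ?_ hpos
    have e1 : (E + 1) * (6 * (1 + θ)) = 12 * E := by
      have : (E + 1) * (6 * (1 + θ)) = 6 * ((E + 1) + (E + 1) * θ) := by ring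
      rw [this, hE1']; ring
    have e2 : (E + 1) * ((b.card : ℝ) * (2 * θ)) = 2 * ((b.card : ℝ) * (E - 1)) := by
      have : (E + 1) * ((b.card : ℝ) * (2 * θ)) = 2 * ((b.card : ℝ) * ((E + 1) * θ)) := by ring
      rw [this, hE1']
    rw [e1, e2]; linarith
  -- 2 θ ≤ v (1 + θ)
  have hpr : 2 * θ ≤ v * (1 + θ) := by
    have hpos : 0 < E + 1 := by linarith
    refine le_of_mul_le_mul_left ?_ hpos
    have e1 : (E + 1) * (v * (1 + θ)) = 2 * (v * E) := by
      have : (E + 1) * (v * (1 + θ)) = v * ((E + 1) + (E + 1) * θ) := by ring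
      rw [this, hE1']; ring
    have e2 : (E + 1) * (2 * θ) = 2 * (E - 1) := by rw [← hE1']; ring
    rw [e1, e2]
    have h7 : 1 - v ≤ Real.exp (-v) := by
      have := Real.add_one_le_exp (-v); linarith
    have h8 : Real.exp (-v) * E = 1 := by rw [hE, ← Real.exp_add]; simp
    have h9 : (1 - v) * E ≤ Real.exp (-v) * E := mul_le_mul_of_nonneg_right h7 hEpos.le
    rw [h8] at h9
    linarith
  -- the twist inequality in the variable q
  have hkq : 2 * κ * ∫ q in (0 : ℝ)..1, q * Matrix.trace (W * TM b θ q)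
      ≤ ∫ q in (0 : ℝ)..1, Matrix.trace (W * TM b θ q) := by
    have c1 := change_var (continuous_TM b θ W)
    have c2 := change_var (continuous_id.mul (continuous_TM b θ W))
    have hI1 : ∫ φ in (0 : ℝ)..Real.pi, Real.sin φ * Matrix.trace (W * rotT b θ φ)
        = 2 * ∫ q in (0 : ℝ)..1, Matrix.trace (W * TM b θ q) := by
      rw [← c1]
      refine integral_congr fun φ hφ => ?_
      rw [Set.uIcc_of_le Real.pi_pos.le] at hφ
      rw [rotT_eq b θ hφ.1 hφ.2]
    have hI2 : ∫ φ in (0 : ℝ)..Real.pi, Real.sin φ * (1 - Real.cos φ) * Matrix.trace (W * rotT b θ φ)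
        = 4 * ∫ q in (0 : ℝ)..1, q * Matrix.trace (W * TM b θ q) := by
      have c2' : ∫ φ in (0 : ℝ)..Real.pi, Real.sin φ *
          ((1 - Real.cos φ) / 2 * Matrix.trace (W * TM b θ ((1 - Real.cos φ) / 2)))
          = 2 * ∫ q in (0 : ℝ)..1, q * Matrix.trace (W * TM b θ q) := c2
      have : (4 : ℝ) * ∫ q in (0 : ℝ)..1, q * Matrix.trace (W * TM b θ q)
          = 2 * (2 * ∫ q in (0 : ℝ)..1, q * Matrix.trace (W * TM b θ q)) := by ring
      rw [this, ← c2', ← intervalIntegral.integral_const_mul]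
      refine integral_congr fun φ hφ => ?_
      rw [Set.uIcc_of_le Real.pi_pos.le] at hφ
      rw [rotT_eq b θ hφ.1 hφ.2]
      ring
    rw [hI1, hI2] at hk
    linarith
  have core := op_core hW (fun σ τ h => hsym σ τ h) hθ0 hθ1 h6 hκ hkq
  set n : ℝ := (b.card : ℝ) with hn
  set SR := (∑ x ∈ b, Matrix.trace (W * ((1 / 2 : ℝ) • (1 - szM x)))) / n with hSR
  set SH := ∑ x ∈ b, ∑ y ∈ b, Matrix.trace (W * hM x y) with hSH
  have hSH0 : 0 ≤ SH := Finset.sum_nonneg fun x _ => Finset.sum_nonneg fun y _ =>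
    tr_mul_nonneg hW (hM_posSemidef x y)
  have hWtr : 0 ≤ Matrix.trace W := hW.trace_nonneg
  set Q := (1 + θ) ^ (b.card + 1) / ((n + 1) * (2 * θ)) with hQ
  have hQpos : 0 < Q := by rw [hQ]; positivity
  have hcard2 : 2 ≤ b.card := by
    have : (2 : ℝ) ≤ (b.card : ℝ) := by linarith
    exact_mod_cast this
  -- (2θ)^2 (1+θ)^(n-2) ≤ Q * (2 K^3 / n^2)
  have hpair : (2 * θ) ^ 2 * (1 + θ) ^ (b.card - 2) ≤ Q * (2 * K ^ 3 / n ^ 2) := by
    have e3 : (1 + θ) ^ (b.card + 1) = (1 + θ) ^ 3 * (1 + θ) ^ (b.card - 2) := by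
      rw [← pow_add]; congr 1; omega
    have hc3 : (2 * θ) ^ 3 ≤ (v * (1 + θ)) ^ 3 := pow_le_pow_left₀ (by linarith) hpr 3
    have hP : 0 ≤ (1 + θ) ^ (b.card - 2) := by positivity
    have e4 : K ^ 3 = n ^ 3 * v ^ 3 := by rw [← hnv]; ring
    have e5 : Q * (2 * K ^ 3 / n ^ 2)
        = ((1 + θ) ^ 3 * (1 + θ) ^ (b.card - 2)) * (2 * n * v ^ 3) / ((n + 1) * (2 * θ)) := by
      rw [hQ, e3, e4]; field_simp
    rw [e5, le_div_iff₀ (by positivity)]
    have h10 : (n + 1) * (2 * θ) ^ 3 ≤ (2 * n) * (v * (1 + θ)) ^ 3 :=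
      mul_le_mul (by linarith) hc3 (by positivity) (by positivity)
    calc (2 * θ) ^ 2 * (1 + θ) ^ (b.card - 2) * ((n + 1) * (2 * θ))
        = ((n + 1) * (2 * θ) ^ 3) * (1 + θ) ^ (b.card - 2) := by ring
      _ ≤ ((2 * n) * (v * (1 + θ)) ^ 3) * (1 + θ) ^ (b.card - 2) :=
          mul_le_mul_of_nonneg_right h10 hP
      _ = _ := by ring
  have h11 : (2 * θ) ^ 2 * (1 + θ) ^ (b.card - 2) * SH ≤ Q * (2 * K ^ 3 / n ^ 2) * SH :=
    mul_le_mul_of_nonneg_right hpair hSH0
  have h12 : Q * (2 * κ * ((2 / 3) * SR - (1 / 12) * (2 * K ^ 3 / n ^ 2) * SH))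
      ≤ Q * Matrix.trace W := by
    refine le_trans ?_ core
    have : Q * (2 * κ * ((2 / 3) * SR - (1 / 12) * (2 * K ^ 3 / n ^ 2) * SH))
        = 2 * κ * ((2 / 3) * Q * SR - (1 / 12) * (Q * (2 * K ^ 3 / n ^ 2) * SH)) := by ring
    rw [this]
    refine mul_le_mul_of_nonneg_left ?_ (by linarith)
    linarith
  have h13 := le_of_mul_le_mul_left h12 hQpos
  have h14 : (2 / 3) * SR - (1 / 12) * (2 * K ^ 3 / n ^ 2) * SH ≤ Matrix.trace W / (2 * κ) := by
    rw [le_div_iff₀ (by linarith)]; linarith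
  have h15 : 0 ≤ K ^ 3 * (2 / n ^ 2 * SH) := by positivity
  have h16 : (1 / 12) * (2 * K ^ 3 / n ^ 2) * SH = (1 / 12) * (K ^ 3 * (2 / n ^ 2 * SH)) := by ring
  have h17 : Matrix.trace W / (2 * κ) = (1 / 2) * ((1 / κ) * Matrix.trace W) := by
    field_simp
  have h18 : 0 ≤ (1 / κ) * Matrix.trace W := by positivity
  rw [h16, h17] at h14
  linarith

end Vale.Agent.P361.LRO.Tw
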