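import Vale.Agent.P361.LRO.Tw.Main
import Vale.Agent.P361.LRO.Tw.Gibbs
import Vale.Agent.P361.LRO.Tw.OpPart
import Vale.Agent.P361.LRO.SR.Stable

/-!
P361, block (1): the block twist.
-/

namespace Vale.Agent.P361.LRO

open Finset Matrix Filter Topology

noncomputable section

variable {V : Type} [Fintype V] [DecidableEq V]

/-- **Block twist.** -/
theorem block_twist (L : List (V × V)) {β : ℝ} (hβ : 0 < β) {h : V → ℝ} (hh : ∀ x, 0 ≤ h x)
    {b : Finset V} {K κ : ℝ} (hK : 10 ≤ K) (hKb : K ≤ b.card) (hκ : 0 < κ)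
    (hf : ∃ᶠ N : ℕ in atTop, κ ≤ kap L β N h K b) :
    (∑ x ∈ b, rho L β h x) / b.card ≤ 1 / κ + K ^ 3 * Dst L β h b := by
  have h1 := twist_gibbs (fun X _ _ μ θ hμ hθ => SR.stable_of_isLaw hμ hθ) L hβ hh
    (by linarith) b hf
  have h2 := Tw.op_part (Tw.expH_psd L β h) (fun σ τ hd => Tw.expH_cons L β h σ τ hd)
    hK hKb hκ h1
  have h3 := Tw.trace_expH_pos L β h
  have h4 := div_le_div_of_nonneg_right h2 h3.le
  set T := Matrix.trace (NormedSpace.exp (-β • ham L h)) with hT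
  have e1 : (∑ x ∈ b, rho L β h x) / b.card =
      (∑ x ∈ b, Matrix.trace (NormedSpace.exp (-β • ham L h) * ((1 / 2 : ℝ) • (1 - szM x)))) /
        b.card / T := by
    unfold rho gib
    rw [← hT, ← Finset.sum_div]
    ring
  have e2 : 1 / κ + K ^ 3 * Dst L β h b = (1 / κ * T + K ^ 3 * (2 / (b.card : ℝ) ^ 2 *
      ∑ x ∈ b, ∑ y ∈ b, Matrix.trace (NormedSpace.exp (-β • ham L h) * hM x y))) / T := by
    unfold Dst gib
    rw [← hT]
    have e3 : ∑ x ∈ b, ∑ y ∈ b, Matrix.trace (NormedSpace.exp (-β • ham L h) * hM x y) / T =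
        (∑ x ∈ b, ∑ y ∈ b, Matrix.trace (NormedSpace.exp (-β • ham L h) * hM x y)) / T := by
      rw [Finset.sum_div]
      exact Finset.sum_congr rfl fun x _ => (Finset.sum_div _ _ _).symm
    rw [e3, add_div, mul_div_assoc (1 / κ), div_self h3.ne', mul_one]
    ring
  rw [e1, e2]
  exact h4

theorem gib_nonneg_of_form (L : List (V × V)) (β : ℝ) (h : V → ℝ)
    {A : Matrix (V → Fin 2) (V → Fin 2) ℝ} (hA : A.PosSemidef) : 0 ≤ gib L β h A := by
  have h1 := EnR.gib_le_of_form_le L β h (A := 0) (B := A) fun ψ => by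
    have := hA.dotProduct_mulVec_nonneg ψ
    simpa using this
  have h2 : gib L β h (0 : Matrix (V → Fin 2) (V → Fin 2) ℝ) = 0 := by
    unfold gib
    simp
  linarith

theorem Dst_nonneg (L : List (V × V)) (β : ℝ) (h : V → ℝ) (b : Finset V) : 0 ≤ Dst L β h b := by
  unfold Dst
  refine mul_nonneg (by positivity) (Finset.sum_nonneg fun x _ => Finset.sum_nonneg fun y _ => ?_)
  refine gib_nonneg_of_form L β h ?_
  unfold hM
  exact (Tw.one_sub_swapM_posSemidef x y).smul (by norm_num)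

/-- **Block (1).** -/
theorem pTwist : PTwist := by
  refine ⟨1, one_pos, ?_⟩
  intro V _ _ L _ β hβ h hh b K κ _ hK hKb hκ hf
  have h1 := block_twist L hβ (fun x => (hh x).1.le) hK hKb hκ hf
  have h2 := Dst_nonneg L β h b
  have hK0 : 0 < K := by linarith
  have h3 : K ^ 3 ≤ (1 + K) ^ 4 := by
    have e : (1 + K) ^ 4 - K ^ 3 = 1 + 4 * K + 6 * K ^ 2 + 3 * K ^ 3 + K ^ 4 := by ring
    have : 0 ≤ 1 + 4 * K + 6 * K ^ 2 + 3 * K ^ 3 + K ^ 4 := by positivity
    linarith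
  have h4 : K ^ 3 * Dst L β h b ≤ (1 + K) ^ 4 * Dst L β h b := mul_le_mul_of_nonneg_right h3 h2
  linarith

end

end Vale.Agent.P361.LRO
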