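import Vale.Agent.P361.LRO.Tw.SymProj

/-!
Block (1) of the low temperature order proof (P361): the twisted partition function as a sum over
subsets of the block, and its moments.
-/

namespace Vale.Agent.P361.LRO.Tw

open Finset Matrix MeasureTheory intervalIntegral

set_option linter.unusedSectionVars false

variable {V : Type} [Fintype V] [DecidableEq V]

/-! ### Beta integrals -/

theorem cont_bern (p r : ℕ) : Continuous fun q : ℝ => (1 - q) ^ p * q ^ r := by fun_prop

theorem beta_step (p r : ℕ) :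
    ((r : ℝ) + 1) * ∫ q in (0 : ℝ)..1, (1 - q) ^ (p + 1) * q ^ r
      = ((p : ℝ) + 1) * ∫ q in (0 : ℝ)..1, (1 - q) ^ p * q ^ (r + 1) := by
  have hder : ∀ q ∈ Set.uIcc (0 : ℝ) 1,
      HasDerivAt (fun q : ℝ => (1 - q) ^ (p + 1) * q ^ (r + 1))
        (((r : ℝ) + 1) * ((1 - q) ^ (p + 1) * q ^ r)
          - ((p : ℝ) + 1) * ((1 - q) ^ p * q ^ (r + 1))) q := by
    intro q _
    have h1 : HasDerivAt (fun q : ℝ => 1 - q) (-1) q := by
      simpa using (hasDerivAt_id q).const_sub 1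
    have h2 := (h1.fun_pow (p + 1)).fun_mul ((hasDerivAt_id' q).fun_pow (r + 1))
    have e : ((r : ℝ) + 1) * ((1 - q) ^ (p + 1) * q ^ r) - ((p : ℝ) + 1) * ((1 - q) ^ p * q ^ (r + 1))
        = ((p + 1 : ℕ) : ℝ) * (1 - q) ^ (p + 1 - 1) * -1 * q ^ (r + 1)
          + (1 - q) ^ (p + 1) * (((r + 1 : ℕ) : ℝ) * q ^ (r + 1 - 1) * 1) := by
      simp only [Nat.add_sub_cancel, Nat.cast_add, Nat.cast_one]
      ring
    rw [e]
    exact h2
  have hint : IntervalIntegrable (fun q : ℝ => ((r : ℝ) + 1) * ((1 - q) ^ (p + 1) * q ^ r)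
          - ((p : ℝ) + 1) * ((1 - q) ^ p * q ^ (r + 1))) volume 0 1 := by
    apply Continuous.intervalIntegrable
    fun_prop
  have h := integral_eq_sub_of_hasDerivAt hder hint
  rw [intervalIntegral.integral_sub, intervalIntegral.integral_const_mul,
    intervalIntegral.integral_const_mul] at h
  · simp at h
    linarith
  · apply Continuous.intervalIntegrable; fun_prop
  · apply Continuous.intervalIntegrable; fun_prop

theorem beta_int (p : ℕ) : ∀ r : ℕ, ∫ q in (0 : ℝ)..1, (1 - q) ^ p * q ^ r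
    = ((p.factorial * r.factorial : ℕ) : ℝ) / ((p + r + 1).factorial : ℕ) := by
  induction p with
  | zero =>
    intro r
    simp only [pow_zero, one_mul, Nat.factorial_zero, integral_pow]
    rw [zero_add, Nat.factorial_succ]
    have h1 : ((r.factorial : ℕ) : ℝ) ≠ 0 := by exact_mod_cast Nat.factorial_ne_zero r
    have h2 : ((r : ℝ) + 1) ≠ 0 := by positivity
    push_cast
    field_simp
    simp
  | succ p ih =>
    intro r
    have h := beta_step p r
    rw [ih (r + 1)] at h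
    have h2 : ((r : ℝ) + 1) ≠ 0 := by positivity
    have h3 : p + (r + 1) + 1 = p + 1 + r + 1 := by ring
    rw [h3] at h
    have h4 : (((p + 1 + r + 1).factorial : ℕ) : ℝ) ≠ 0 := by
      exact_mod_cast Nat.factorial_ne_zero _
    have h5 : (∫ q in (0 : ℝ)..1, (1 - q) ^ (p + 1) * q ^ r)
        = (((p : ℝ) + 1) * (((p.factorial * (r + 1).factorial : ℕ) : ℝ)
            / ((p + 1 + r + 1).factorial : ℕ))) / ((r : ℝ) + 1) := by
      rw [← h]; field_simp
    rw [h5, Nat.factorial_succ r, Nat.factorial_succ p]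
    push_cast
    field_simp

theorem beta_choose {a m : ℕ} (h : m ≤ a) :
    ∫ q in (0 : ℝ)..1, (1 - q) ^ (a - m) * q ^ m
      = (((a : ℝ) + 1))⁻¹ * ((a.choose m : ℕ) : ℝ)⁻¹ := by
  rw [beta_int, Nat.sub_add_cancel h, Nat.factorial_succ]
  have h1 := Nat.choose_mul_factorial_mul_factorial h
  have h2 : (((a.choose m : ℕ) : ℝ)) * (m.factorial : ℕ) * ((a - m).factorial : ℕ)
      = (a.factorial : ℕ) := by exact_mod_cast h1
  have h3 : (((a.choose m : ℕ) : ℝ)) ≠ 0 := by exact_mod_cast (Nat.choose_pos h).ne'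
  have h4 : ((m.factorial : ℕ) : ℝ) ≠ 0 := by exact_mod_cast Nat.factorial_ne_zero _
  have h5 : (((a - m).factorial : ℕ) : ℝ) ≠ 0 := by exact_mod_cast Nat.factorial_ne_zero _
  have h6 : ((a : ℝ) + 1) ≠ 0 := by positivity
  push_cast
  rw [← h2]
  field_simp

theorem beta_choose' {a m : ℕ} (h : m ≤ a) :
    ∫ q in (0 : ℝ)..1, q * ((1 - q) ^ (a - m) * q ^ m)
      = (((a : ℝ) + 1) * ((a : ℝ) + 2))⁻¹ * (((m : ℝ) + 1) * ((a.choose m : ℕ) : ℝ)⁻¹) := by
  have h0 : (∫ q in (0 : ℝ)..1, q * ((1 - q) ^ (a - m) * q ^ m))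
      = ∫ q in (0 : ℝ)..1, (1 - q) ^ (a - m) * q ^ (m + 1) := by
    congr 1; funext q; ring
  have e : a - m + (m + 1) + 1 = a + 1 + 1 := by omega
  rw [h0, beta_int, e, Nat.factorial_succ (a + 1), Nat.factorial_succ a, Nat.factorial_succ m]
  have h1 := Nat.choose_mul_factorial_mul_factorial h
  have h2 : (((a.choose m : ℕ) : ℝ)) * (m.factorial : ℕ) * ((a - m).factorial : ℕ)
      = (a.factorial : ℕ) := by exact_mod_cast h1
  have h3 : (((a.choose m : ℕ) : ℝ)) ≠ 0 := by exact_mod_cast (Nat.choose_pos h).ne'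
  have h4 : ((m.factorial : ℕ) : ℝ) ≠ 0 := by exact_mod_cast Nat.factorial_ne_zero _
  have h5 : (((a - m).factorial : ℕ) : ℝ) ≠ 0 := by exact_mod_cast Nat.factorial_ne_zero _
  have h6 : ((a : ℝ) + 1) ≠ 0 := by positivity
  have h7 : ((a : ℝ) + 2) ≠ 0 := by positivity
  have h8 : ((a : ℝ) + 1 + 1) ≠ 0 := by positivity
  push_cast
  rw [← h2]
  field_simp
  ring

/-! ### The twist -/

/-- The spin 1/2 coherent vector. -/
noncomputable def vq (q : ℝ) (i : Fin 2) : ℝ := if i = 0 then √(1 - q) else √q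

/-- The twisted slice on the block `b`: `(1 - θ) + 2 θ |v⟩⟨v|` at each site of `b`. -/
noncomputable def TM (b : Finset V) (θ q : ℝ) : Matrix (V → Fin 2) (V → Fin 2) ℝ :=
  Matrix.of fun σ τ => ∏ x, (if x ∈ b then
    (1 - θ) * (if σ x = τ x then 1 else 0) + 2 * θ * (vq q (σ x) * vq q (τ x))
    else (if σ x = τ x then 1 else 0))

/-- The weight of a subset. -/
noncomputable def wS (θ : ℝ) (n k : ℕ) : ℝ := (2 * θ) ^ k * (1 - θ) ^ (n - k)

theorem prod_vq (A : Finset V) (q : ℝ) (σ : V → Fin 2) :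
    ∏ x ∈ A, vq q (σ x) = √(1 - q) ^ (A.card - dn A σ) * √q ^ (dn A σ) := by
  unfold vq
  rw [Finset.prod_ite, Finset.prod_const, Finset.prod_const]
  have h0 := card_filter_zero A σ
  have h1 : (A.filter fun x => ¬ σ x = 0).card = dn A σ := by
    have := Finset.card_filter_add_card_filter_not (s := A) (fun y => σ y = 0)
    omega
  rw [h1]
  congr 2
  omega

theorem prod_vq_vq (A : Finset V) {q : ℝ} (h0 : 0 ≤ q) (h1 : q ≤ 1) {σ τ : V → Fin 2}
    (h : dn A σ = dn A τ) :
    ∏ x ∈ A, (vq q (σ x) * vq q (τ x)) = (1 - q) ^ (A.card - dn A σ) * q ^ (dn A σ) := by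
  rw [Finset.prod_mul_distrib, prod_vq, prod_vq, ← h]
  have e1 : √(1 - q) * √(1 - q) = 1 - q := Real.mul_self_sqrt (by linarith)
  have e2 : √q * √q = q := Real.mul_self_sqrt h0
  calc √(1 - q) ^ (A.card - dn A σ) * √q ^ dn A σ * (√(1 - q) ^ (A.card - dn A σ) * √q ^ dn A σ)
      = (√(1 - q) * √(1 - q)) ^ (A.card - dn A σ) * (√q * √q) ^ dn A σ := by
        rw [mul_pow, mul_pow]; ring
    _ = _ := by rw [e1, e2]

theorem TM_expand (b : Finset V) (θ q : ℝ) (σ τ : V → Fin 2) :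
    TM b θ q σ τ = ∑ A ∈ b.powerset, wS θ b.card A.card *
      (if ∀ x, x ∉ A → σ x = τ x then ∏ x ∈ A, (vq q (σ x) * vq q (τ x)) else 0) := by
  unfold TM
  simp only [Matrix.of_apply]
  rw [← Finset.prod_mul_prod_compl b]
  have e1 : ∏ x ∈ b, (if x ∈ b then
      (1 - θ) * (if σ x = τ x then 1 else 0) + 2 * θ * (vq q (σ x) * vq q (τ x))
      else (if σ x = τ x then (1 : ℝ) else 0))
      = ∏ x ∈ b, (2 * θ * (vq q (σ x) * vq q (τ x))
          + (1 - θ) * (if σ x = τ x then 1 else 0)) := by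
    refine Finset.prod_congr rfl fun x hx => ?_
    rw [if_pos hx, add_comm]
  have e2 : ∏ x ∈ bᶜ, (if x ∈ b then
      (1 - θ) * (if σ x = τ x then 1 else 0) + 2 * θ * (vq q (σ x) * vq q (τ x))
      else (if σ x = τ x then (1 : ℝ) else 0))
      = ∏ x ∈ bᶜ, (if σ x = τ x then (1 : ℝ) else 0) := by
    refine Finset.prod_congr rfl fun x hx => ?_
    rw [if_neg (Finset.mem_compl.1 hx)]
  rw [e1, e2, Finset.prod_add, Finset.sum_mul]
  refine Finset.sum_congr rfl fun A hA => ?_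
  have hAb : A ⊆ b := Finset.mem_powerset.1 hA
  rw [Finset.prod_mul_distrib (f := fun _ => 2 * θ), Finset.prod_const,
    Finset.prod_mul_distrib (f := fun _ => 1 - θ), Finset.prod_const,
    Finset.card_sdiff_of_subset hAb]
  unfold wS
  have e3 : (∏ x ∈ b \ A, (if σ x = τ x then (1 : ℝ) else 0))
      * ∏ x ∈ bᶜ, (if σ x = τ x then (1 : ℝ) else 0)
      = if ∀ x, x ∉ A → σ x = τ x then 1 else 0 := by
    rw [Finset.prod_ite_zero, Finset.prod_ite_zero, Finset.prod_const_one, Finset.prod_const_one]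
    by_cases h : ∀ x, x ∉ A → σ x = τ x
    · rw [if_pos h, if_pos, if_pos, one_mul]
      · intro x hx; exact h x fun h' => (Finset.mem_compl.1 hx) (hAb h')
      · intro x hx; exact h x (Finset.mem_sdiff.1 hx).2
    · rw [if_neg h]
      push Not at h
      obtain ⟨x, hx, hne⟩ := h
      by_cases hxb : x ∈ b
      · rw [if_neg (c := ∀ i ∈ b \ A, σ i = τ i), zero_mul]
        intro h'; exact hne (h' x (Finset.mem_sdiff.2 ⟨hxb, hx⟩))
      · rw [if_neg (c := ∀ i ∈ bᶜ, σ i = τ i), mul_zero]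
        intro h'; exact hne (h' x (Finset.mem_compl.2 hxb))
  calc (2 * θ) ^ A.card * (∏ x ∈ A, (vq q (σ x) * vq q (τ x)))
        * ((1 - θ) ^ (b.card - A.card) * ∏ x ∈ b \ A, (if σ x = τ x then (1 : ℝ) else 0))
        * ∏ x ∈ bᶜ, (if σ x = τ x then (1 : ℝ) else 0)
      = (2 * θ) ^ A.card * (1 - θ) ^ (b.card - A.card)
        * ((∏ x ∈ A, (vq q (σ x) * vq q (τ x)))
        * ((∏ x ∈ b \ A, (if σ x = τ x then (1 : ℝ) else 0))
            * ∏ x ∈ bᶜ, (if σ x = τ x then (1 : ℝ) else 0))) := by ring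
    _ = _ := by
        rw [e3]
        congr 1
        split_ifs <;> simp

/-- `R` conserves the total number of down spins. -/
def Cons (R : Matrix (V → Fin 2) (V → Fin 2) ℝ) : Prop :=
  ∀ σ τ, R σ τ ≠ 0 → dn univ σ = dn univ τ

theorem dn_eq_of_off {A : Finset V} {σ τ : V → Fin 2} (h : ∀ x, x ∉ A → σ x = τ x)
    (hd : dn univ σ = dn univ τ) : dn A σ = dn A τ := by
  unfold dn at hd ⊢
  rw [← Finset.sum_add_sum_compl A, ← Finset.sum_add_sum_compl A (fun x => (τ x : ℕ))] at hd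
  have : ∑ x ∈ Aᶜ, (σ x : ℕ) = ∑ x ∈ Aᶜ, (τ x : ℕ) :=
    Finset.sum_congr rfl fun x hx => by rw [h x (Finset.mem_compl.1 hx)]
  omega

theorem trace_TM (b : Finset V) (θ : ℝ) {q : ℝ} (h0 : 0 ≤ q) (h1 : q ≤ 1)
    {R : Matrix (V → Fin 2) (V → Fin 2) ℝ} (hR : Cons R) :
    Matrix.trace (R * TM b θ q) = ∑ A ∈ b.powerset, wS θ b.card A.card *
      ∑ σ, ∑ τ, (if Rel A τ σ then R σ τ else 0) *
        ((1 - q) ^ (A.card - dn A σ) * q ^ (dn A σ)) := by
  rw [Matrix.trace]
  simp only [Matrix.diag_apply, Matrix.mul_apply]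
  have h : ∀ σ τ, R σ τ * TM b θ q τ σ = ∑ A ∈ b.powerset, wS θ b.card A.card *
      ((if Rel A τ σ then R σ τ else 0) * ((1 - q) ^ (A.card - dn A σ) * q ^ (dn A σ))) := by
    intro σ τ
    rw [TM_expand, Finset.mul_sum]
    refine Finset.sum_congr rfl fun A _ => ?_
    by_cases hz : R σ τ = 0
    · rw [hz]; simp
    · have hd := hR σ τ hz
      by_cases hoff : ∀ x, x ∉ A → τ x = σ x
      · have hdA : dn A τ = dn A σ := dn_eq_of_off hoff hd.symm
        have hrel : Rel A τ σ := ⟨hoff, hdA⟩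
        rw [if_pos hoff, if_pos hrel, prod_vq_vq A h0 h1 hdA, hdA]
        ring
      · have hrel : ¬ Rel A τ σ := fun h' => hoff h'.1
        rw [if_neg hoff, if_neg hrel]; ring
  rw [Finset.sum_congr rfl fun σ _ => Finset.sum_congr rfl fun τ _ => h σ τ]
  rw [Finset.sum_congr rfl fun σ _ => Finset.sum_comm]
  rw [Finset.sum_comm]
  refine Finset.sum_congr rfl fun A _ => ?_
  rw [Finset.mul_sum]
  refine Finset.sum_congr rfl fun σ _ => ?_
  rw [Finset.mul_sum]

theorem integral_TM (b : Finset V) (θ : ℝ) {R : Matrix (V → Fin 2) (V → Fin 2) ℝ} (hR : Cons R)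
    {g : ℝ → ℝ} (hg : Continuous g) :
    ∫ q in (0 : ℝ)..1, g q * Matrix.trace (R * TM b θ q) = ∑ A ∈ b.powerset, wS θ b.card A.card *
      ∑ σ, ∑ τ, (if Rel A τ σ then R σ τ else 0) *
        ∫ q in (0 : ℝ)..1, g q * ((1 - q) ^ (A.card - dn A σ) * q ^ (dn A σ)) := by
  have h : ∫ q in (0 : ℝ)..1, g q * Matrix.trace (R * TM b θ q)
      = ∫ q in (0 : ℝ)..1, ∑ A ∈ b.powerset, ∑ σ : V → Fin 2, ∑ τ : V → Fin 2,
        wS θ b.card A.card * ((if Rel A τ σ then R σ τ else 0) *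
          (g q * ((1 - q) ^ (A.card - dn A σ) * q ^ (dn A σ)))) := by
    refine integral_congr fun q hq => ?_
    rw [Set.uIcc_of_le (by norm_num)] at hq
    rw [trace_TM b θ hq.1 hq.2 hR, Finset.mul_sum]
    refine Finset.sum_congr rfl fun A _ => ?_
    rw [Finset.mul_sum, Finset.mul_sum]
    refine Finset.sum_congr rfl fun σ _ => ?_
    rw [Finset.mul_sum, Finset.mul_sum]
    refine Finset.sum_congr rfl fun τ _ => ?_
    ring
  rw [h, intervalIntegral.integral_finsetSum]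
  · refine Finset.sum_congr rfl fun A _ => ?_
    rw [intervalIntegral.integral_finsetSum]
    · rw [Finset.mul_sum]
      refine Finset.sum_congr rfl fun σ _ => ?_
      rw [intervalIntegral.integral_finsetSum]
      · rw [Finset.mul_sum]
        refine Finset.sum_congr rfl fun τ _ => ?_
        rw [intervalIntegral.integral_const_mul, intervalIntegral.integral_const_mul]
      · intro τ _
        apply Continuous.intervalIntegrable
        fun_prop
    · intro σ _
      apply Continuous.intervalIntegrable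
      fun_prop
  · intro A _
    apply Continuous.intervalIntegrable
    fun_prop

/-- Number of down spins in `A`, as a matrix. -/
def NM (A : Finset V) : Matrix (V → Fin 2) (V → Fin 2) ℝ :=
  Matrix.diagonal fun σ => (dn A σ : ℝ)

theorem integral_Z (b : Finset V) (θ : ℝ) {R : Matrix (V → Fin 2) (V → Fin 2) ℝ} (hR : Cons R) :
    ∫ q in (0 : ℝ)..1, Matrix.trace (R * TM b θ q) = ∑ A ∈ b.powerset, wS θ b.card A.card *
      (((A.card : ℝ) + 1)⁻¹ * Matrix.trace (R * symM A)) := by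
  have h := integral_TM b θ hR (g := fun _ => 1) continuous_const
  simp only [one_mul] at h
  rw [h]
  refine Finset.sum_congr rfl fun A _ => ?_
  congr 1
  rw [Matrix.trace, Finset.mul_sum]
  refine Finset.sum_congr rfl fun σ _ => ?_
  rw [Matrix.diag_apply, Matrix.mul_apply, Finset.mul_sum]
  refine Finset.sum_congr rfl fun τ _ => ?_
  rw [beta_choose (dn_le A σ)]
  unfold symM
  simp only [Matrix.of_apply]
  by_cases hr : Rel A τ σ
  · rw [if_pos hr, if_pos hr, hr.2]; ring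
  · rw [if_neg hr, if_neg hr]; ring

theorem integral_qZ (b : Finset V) (θ : ℝ) {R : Matrix (V → Fin 2) (V → Fin 2) ℝ} (hR : Cons R) :
    ∫ q in (0 : ℝ)..1, q * Matrix.trace (R * TM b θ q)
      = ∑ A ∈ b.powerset, wS θ b.card A.card *
      ((((A.card : ℝ) + 1) * ((A.card : ℝ) + 2))⁻¹ *
        (Matrix.trace (R * symM A) + Matrix.trace (R * (symM A * NM A)))) := by
  rw [integral_TM b θ hR (g := fun q => q) continuous_id]
  refine Finset.sum_congr rfl fun A _ => ?_
  congr 1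
  rw [Matrix.trace, Matrix.trace, ← Finset.sum_add_distrib, Finset.mul_sum]
  refine Finset.sum_congr rfl fun σ _ => ?_
  rw [Matrix.diag_apply, Matrix.diag_apply, Matrix.mul_apply, Matrix.mul_apply,
    ← Finset.sum_add_distrib, Finset.mul_sum]
  refine Finset.sum_congr rfl fun τ _ => ?_
  rw [beta_choose' (dn_le A σ)]
  unfold NM
  rw [Matrix.mul_diagonal]
  unfold symM
  simp only [Matrix.of_apply]
  by_cases hr : Rel A τ σ
  · rw [if_pos hr, if_pos hr, hr.2]; ring
  · rw [if_neg hr, if_neg hr]; ring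

end Vale.Agent.P361.LRO.Tw
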