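import Mathlib

/-!
P361, block (1): scalar part of the block twist.
-/

namespace Vale.Agent.P361.LRO

open Finset MeasureTheory intervalIntegral

/-! ## The twist integral -/

/-- `Z(t) = c ∏ (1 - p_j (1 - t))` -/
noncomputable def zt {ι : Type*} [Fintype ι] (c : ℝ) (p : ι → ℝ) (t : ℝ) : ℝ :=
  c * ∏ j, (1 - p j * (1 - t))

theorem zt_nonneg {ι : Type*} [Fintype ι] {c : ℝ} {p : ι → ℝ} (hc : 0 ≤ c)
    (hp0 : ∀ j, 0 ≤ p j) (hp1 : ∀ j, p j ≤ 1 / 2) {t : ℝ} (ht : -1 ≤ t) :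
    0 ≤ zt c p t := by
  unfold zt
  refine mul_nonneg hc (prod_nonneg fun j _ => ?_)
  have h1 : p j * (1 - t) ≤ 1 / 2 * 2 := by
    have := hp0 j
    have := hp1 j
    nlinarith
  linarith

theorem continuous_zt {ι : Type*} [Fintype ι] (c : ℝ) (p : ι → ℝ) : Continuous (zt c p) := by
  unfold zt
  fun_prop

theorem hasDerivAt_zt {ι : Type*} [Fintype ι] [DecidableEq ι] (c : ℝ) (p : ι → ℝ) (t : ℝ) :
    HasDerivAt (zt c p) (c * ∑ j, (∏ i ∈ univ.erase j, (1 - p i * (1 - t))) * p j) t := by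
  unfold zt
  have h : ∀ j ∈ (univ : Finset ι), HasDerivAt (fun t => 1 - p j * (1 - t)) (p j) t := by
    intro j _
    have h1 : HasDerivAt (fun t : ℝ => 1 - t) (-1) t := by
      simpa using (hasDerivAt_id t).const_sub 1
    have h2 := (h1.const_mul (p j)).const_sub 1
    simpa using h2
  have h3 := HasDerivAt.fun_finsetProd h
  simp only [smul_eq_mul] at h3
  exact h3.const_mul c

/-- `κ ∫ (1-t) Z ≤ ∫ Z`. -/
theorem zint {ι : Type*} [Fintype ι] {c : ℝ} {p : ι → ℝ} (hc : 0 ≤ c)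
    (hp0 : ∀ j, 0 ≤ p j) (hp1 : ∀ j, p j ≤ 1 / 2) :
    (∑ j, p j) * ∫ t in (-1 : ℝ)..1, (1 - t) * zt c p t ≤ ∫ t in (-1 : ℝ)..1, zt c p t := by
  classical
  have hcz := continuous_zt c p
  set D : ℝ → ℝ := fun t => c * ∑ j, (∏ i ∈ univ.erase j, (1 - p i * (1 - t))) * p j with hD
  have hcD : Continuous D := by
    rw [hD]
    refine continuous_const.mul (continuous_finsetSum _ fun j _ => ?_)
    exact (continuous_finsetProd _ fun i _ => by fun_prop).mul continuous_const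
  have hder : ∀ t, HasDerivAt (zt c p) (D t) t := fun t => hasDerivAt_zt c p t
  have hge : ∀ t ∈ Set.Icc (-1 : ℝ) 1, (∑ j, p j) * zt c p t ≤ D t := by
    intro t ht
    rw [hD]
    simp only
    unfold zt
    rw [← mul_assoc, mul_comm (∑ j, p j) c, mul_assoc]
    refine mul_le_mul_of_nonneg_left ?_ hc
    rw [sum_mul]
    refine sum_le_sum fun j _ => ?_
    rw [← mul_prod_erase univ _ (mem_univ j)]
    have hf : ∀ i, 0 ≤ 1 - p i * (1 - t) := by
      intro i
      have := hp0 i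
      have := hp1 i
      have := ht.1
      have := ht.2
      nlinarith
    have hprod : 0 ≤ ∏ i ∈ univ.erase j, (1 - p i * (1 - t)) := prod_nonneg fun i _ => hf i
    have hle : 1 - p j * (1 - t) ≤ 1 := by
      have := hp0 j
      have := ht.2
      nlinarith
    have := mul_le_mul_of_nonneg_right hle hprod
    nlinarith [hp0 j]
  -- integration by parts for (1-t) Z
  have hparts : ∫ t in (-1 : ℝ)..1, ((-1) * zt c p t + (1 - t) * D t) =
      (1 - 1) * zt c p 1 - (1 - (-1)) * zt c p (-1) := by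
    have h : ∀ t ∈ Set.uIcc (-1 : ℝ) 1, HasDerivAt (fun t => (1 - t) * zt c p t)
        ((-1) * zt c p t + (1 - t) * D t) t := by
      intro t _
      have h1 : HasDerivAt (fun t : ℝ => 1 - t) (-1) t := by
        simpa using (hasDerivAt_id t).const_sub 1
      exact h1.mul (hder t)
    have hint : IntervalIntegrable (fun t => (-1) * zt c p t + (1 - t) * D t) volume (-1) 1 := by
      apply Continuous.intervalIntegrable
      fun_prop
    exact intervalIntegral.integral_eq_sub_of_hasDerivAt h hint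
  have i1 : IntervalIntegrable (fun t => (-1) * zt c p t) volume (-1) 1 := by
    apply Continuous.intervalIntegrable; fun_prop
  have i2 : IntervalIntegrable (fun t => (1 - t) * D t) volume (-1) 1 := by
    apply Continuous.intervalIntegrable; fun_prop
  rw [intervalIntegral.integral_add i1 i2, intervalIntegral.integral_const_mul] at hparts
  have hmono : ∫ t in (-1 : ℝ)..1, (∑ j, p j) * ((1 - t) * zt c p t) ≤
      ∫ t in (-1 : ℝ)..1, (1 - t) * D t := by
    refine intervalIntegral.integral_mono_on (by norm_num) ?_ i2 ?_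
    · apply Continuous.intervalIntegrable; fun_prop
    · intro t ht
      have h1 := hge t ht
      have h2 : 0 ≤ 1 - t := by linarith [ht.2]
      nlinarith [mul_le_mul_of_nonneg_left h1 h2]
  rw [intervalIntegral.integral_const_mul] at hmono
  have hz : 0 ≤ zt c p (-1) := zt_nonneg hc hp0 hp1 le_rfl
  linarith

/-! ## Spin averages, `J = N / 2` -/

/-- `A(J) = avg_{M=-J..J} e^{kM}`, `N = 2J`. -/
noncomputable def sA (k : ℝ) (N : ℕ) : ℝ :=
  (∑ j ∈ range (N + 1), Real.exp (k * ((N : ℝ) / 2 - j))) / ((N : ℝ) + 1)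

/-- `b(J) = ∑ M e^{kM} / (J (J+1) (2J+1))`, `N = 2J`. -/
noncomputable def sB (k : ℝ) (N : ℕ) : ℝ :=
  (∑ j ∈ range (N + 1), ((N : ℝ) / 2 - j) * Real.exp (k * ((N : ℝ) / 2 - j))) /
    (((N : ℝ) + 1) * ((N : ℝ) / 2) * ((N : ℝ) / 2 + 1))

theorem sA_pos (k : ℝ) (N : ℕ) : 0 < sA k N := by
  unfold sA
  refine div_pos (sum_pos (fun j _ => Real.exp_pos _) ⟨0, by simp⟩) (by positivity)

theorem sA_step_lower {k : ℝ} (hk : 0 ≤ k) (N : ℕ) : Real.exp (-k) * sA k (N + 2) ≤ sA k N := by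
  unfold sA
  have hN : (0 : ℝ) < (N : ℝ) + 1 := by positivity
  have h1 : Real.exp (-k) * ∑ j ∈ range (N + 2 + 1), Real.exp (k * (((N + 2 : ℕ) : ℝ) / 2 - j)) =
      (∑ j ∈ range (N + 1), Real.exp (k * ((N : ℝ) / 2 - j))) +
        Real.exp (k * ((N : ℝ) / 2 - (N + 1 : ℕ))) + Real.exp (k * ((N : ℝ) / 2 - (N + 2 : ℕ))) := by
    rw [mul_sum, ← sum_range_succ, ← sum_range_succ]
    refine sum_congr rfl fun j _ => ?_
    rw [← Real.exp_add]
    congr 1
    push_cast
    ring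
  have hmin : ∀ j ∈ range (N + 1), Real.exp (k * ((N : ℝ) / 2 - N)) ≤
      Real.exp (k * ((N : ℝ) / 2 - j)) := by
    intro j hj
    apply Real.exp_le_exp.2
    have : (j : ℝ) ≤ N := by exact_mod_cast Nat.lt_succ_iff.1 (mem_range.1 hj)
    exact mul_le_mul_of_nonneg_left (by linarith) hk
  have hsum : ((N : ℝ) + 1) * Real.exp (k * ((N : ℝ) / 2 - N)) ≤
      ∑ j ∈ range (N + 1), Real.exp (k * ((N : ℝ) / 2 - j)) := by
    have := sum_le_sum hmin
    simpa using this
  have e1 : Real.exp (k * ((N : ℝ) / 2 - (N + 1 : ℕ))) ≤ Real.exp (k * ((N : ℝ) / 2 - N)) := by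
    apply Real.exp_le_exp.2
    push_cast
    exact mul_le_mul_of_nonneg_left (by linarith) hk
  have e2 : Real.exp (k * ((N : ℝ) / 2 - (N + 2 : ℕ))) ≤ Real.exp (k * ((N : ℝ) / 2 - N)) := by
    apply Real.exp_le_exp.2
    push_cast
    exact mul_le_mul_of_nonneg_left (by linarith) hk
  have m1 := mul_le_mul_of_nonneg_right e1 hN.le
  have m2 := mul_le_mul_of_nonneg_right e2 hN.le
  rw [← mul_div_assoc, h1, div_le_div_iff₀ (by positivity) hN]
  push_cast at m1 m2 ⊢
  linarith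

theorem sA_eq_cosh (k : ℝ) (N : ℕ) :
    sA k N = (∑ j ∈ range (N + 1), Real.cosh (k * ((N : ℝ) / 2 - j))) / ((N : ℝ) + 1) := by
  unfold sA
  congr 1
  have h : ∑ j ∈ range (N + 1), Real.exp (k * ((N : ℝ) / 2 - j)) =
      ∑ j ∈ range (N + 1), Real.exp (-(k * ((N : ℝ) / 2 - j))) := by
    rw [← sum_range_reflect]
    refine sum_congr rfl fun j hj => ?_
    have hj' : j ≤ N := Nat.lt_succ_iff.1 (mem_range.1 hj)
    congr 1
    rw [show N + 1 - 1 - j = N - j by omega, Nat.cast_sub hj']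
    ring
  have h2 : ∑ j ∈ range (N + 1), Real.cosh (k * ((N : ℝ) / 2 - j)) =
      ((∑ j ∈ range (N + 1), Real.exp (k * ((N : ℝ) / 2 - j))) +
        ∑ j ∈ range (N + 1), Real.exp (-(k * ((N : ℝ) / 2 - j)))) / 2 := by
    rw [← sum_add_distrib, sum_div]
    exact sum_congr rfl fun j _ => Real.cosh_eq _
  rw [h2, ← h]
  ring

theorem sA_step_upper (k : ℝ) (N : ℕ) : sA k N ≤ sA k (N + 2) := by
  rw [sA_eq_cosh, sA_eq_cosh]
  have hN : (0 : ℝ) < (N : ℝ) + 1 := by positivity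
  have h1 : ∑ j ∈ range (N + 2 + 1), Real.cosh (k * (((N + 2 : ℕ) : ℝ) / 2 - j)) =
      (∑ j ∈ range (N + 1), Real.cosh (k * ((N : ℝ) / 2 - j))) +
        Real.cosh (k * ((N : ℝ) / 2 + 1)) + Real.cosh (k * ((N : ℝ) / 2 + 1)) := by
    rw [sum_range_succ', sum_range_succ]
    have e0 : ∑ j ∈ range (N + 1), Real.cosh (k * (((N + 2 : ℕ) : ℝ) / 2 - (j + 1 : ℕ))) =
        ∑ j ∈ range (N + 1), Real.cosh (k * ((N : ℝ) / 2 - j)) := by
      refine sum_congr rfl fun j _ => ?_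
      congr 1
      push_cast
      ring
    rw [e0]
    have e1 : Real.cosh (k * (((N + 2 : ℕ) : ℝ) / 2 - ((N + 1 : ℕ) + 1 : ℕ))) =
        Real.cosh (k * ((N : ℝ) / 2 + 1)) := by
      rw [← Real.cosh_neg]
      congr 1
      push_cast
      ring
    have e2 : Real.cosh (k * (((N + 2 : ℕ) : ℝ) / 2 - (0 : ℕ))) =
        Real.cosh (k * ((N : ℝ) / 2 + 1)) := by
      congr 1
      push_cast
      ring
    rw [e1, e2]
  have hmax : ∀ j ∈ range (N + 1), Real.cosh (k * ((N : ℝ) / 2 - j)) ≤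
      Real.cosh (k * ((N : ℝ) / 2 + 1)) := by
    intro j hj
    rw [Real.cosh_le_cosh]
    have : (j : ℝ) ≤ N := by exact_mod_cast Nat.lt_succ_iff.1 (mem_range.1 hj)
    have hj0 : (0 : ℝ) ≤ j := by positivity
    rw [abs_mul, abs_mul]
    refine mul_le_mul_of_nonneg_left ?_ (abs_nonneg k)
    rw [abs_le, abs_of_nonneg (by positivity : (0 : ℝ) ≤ (N : ℝ) / 2 + 1)]
    constructor <;> linarith
  have hsum : ∑ j ∈ range (N + 1), Real.cosh (k * ((N : ℝ) / 2 - j)) ≤
      ((N : ℝ) + 1) * Real.cosh (k * ((N : ℝ) / 2 + 1)) := by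
    have := sum_le_sum hmax
    simpa using this
  rw [h1, div_le_div_iff₀ hN (by positivity)]
  push_cast
  nlinarith

theorem sA_mono (k : ℝ) (N m : ℕ) : sA k N ≤ sA k (N + 2 * m) := by
  induction m with
  | zero => simp
  | succ m ih =>
    refine ih.trans ?_
    have := sA_step_upper k (N + 2 * m)
    rwa [show N + 2 * m + 2 = N + 2 * (m + 1) by ring] at this

theorem sA_lower {k : ℝ} (hk : 0 ≤ k) (N m : ℕ) :
    Real.exp (-(k * m)) * sA k (N + 2 * m) ≤ sA k N := by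
  induction m with
  | zero => simp
  | succ m ih =>
    have h := sA_step_lower hk (N + 2 * m)
    rw [show N + 2 * m + 2 = N + 2 * (m + 1) by ring] at h
    refine le_trans ?_ ih
    have e : Real.exp (-(k * ((m + 1 : ℕ) : ℝ))) = Real.exp (-(k * m)) * Real.exp (-k) := by
      rw [← Real.exp_add]
      congr 1
      push_cast
      ring
    rw [e, mul_assoc]
    exact mul_le_mul_of_nonneg_left h (Real.exp_pos _).le

theorem sB_nonneg {k : ℝ} (hk : 0 ≤ k) (N : ℕ) : 0 ≤ sB k N := by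
  unfold sB
  refine div_nonneg ?_ (by positivity)
  have h : ∑ j ∈ range (N + 1), ((N : ℝ) / 2 - j) * Real.exp (k * ((N : ℝ) / 2 - j)) =
      ∑ j ∈ range (N + 1), (-((N : ℝ) / 2 - j)) * Real.exp (-(k * ((N : ℝ) / 2 - j))) := by
    rw [← sum_range_reflect]
    refine sum_congr rfl fun j hj => ?_
    have hj' : j ≤ N := Nat.lt_succ_iff.1 (mem_range.1 hj)
    rw [show N + 1 - 1 - j = N - j by omega, Nat.cast_sub hj']
    congr 1
    · ring
    · congr 1
      ring
  have h2 : 0 ≤ (∑ j ∈ range (N + 1), ((N : ℝ) / 2 - j) * Real.exp (k * ((N : ℝ) / 2 - j))) +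
      ∑ j ∈ range (N + 1), ((N : ℝ) / 2 - j) * Real.exp (k * ((N : ℝ) / 2 - j)) := by
    nth_rewrite 2 [h]
    rw [← sum_add_distrib]
    refine sum_nonneg fun j _ => ?_
    have e : ((N : ℝ) / 2 - j) * Real.exp (k * ((N : ℝ) / 2 - j)) +
        (-((N : ℝ) / 2 - j)) * Real.exp (-(k * ((N : ℝ) / 2 - j))) =
        ((N : ℝ) / 2 - j) * (Real.exp (k * ((N : ℝ) / 2 - j)) -
          Real.exp (-(k * ((N : ℝ) / 2 - j)))) := by ring
    rw [e]
    rcases le_total 0 ((N : ℝ) / 2 - j) with h0 | h0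
    · refine mul_nonneg h0 (sub_nonneg.2 (Real.exp_le_exp.2 ?_))
      have := mul_nonneg hk h0
      linarith
    · refine mul_nonneg_of_nonpos_of_nonpos h0 (sub_nonpos.2 (Real.exp_le_exp.2 ?_))
      have := mul_nonpos_of_nonneg_of_nonpos hk h0
      linarith
  linarith

theorem sB_mul_le (k : ℝ) (N : ℕ) : sB k N * ((N : ℝ) / 2) ≤ sA k N := by
  rcases Nat.eq_zero_or_pos N with rfl | hN
  · simpa using (sA_pos k 0).le
  have hN' : (0 : ℝ) < N := by exact_mod_cast hN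
  unfold sB sA
  have h1 : ∑ j ∈ range (N + 1), ((N : ℝ) / 2 - j) * Real.exp (k * ((N : ℝ) / 2 - j)) ≤
      ((N : ℝ) / 2) * ∑ j ∈ range (N + 1), Real.exp (k * ((N : ℝ) / 2 - j)) := by
    rw [mul_sum]
    refine sum_le_sum fun j _ => mul_le_mul_of_nonneg_right ?_ (Real.exp_pos _).le
    have : (0 : ℝ) ≤ j := by positivity
    linarith
  set S := ∑ j ∈ range (N + 1), Real.exp (k * ((N : ℝ) / 2 - j)) with hS
  have hS0 : 0 ≤ S := sum_nonneg fun j _ => (Real.exp_pos _).le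
  set T := ∑ j ∈ range (N + 1), ((N : ℝ) / 2 - j) * Real.exp (k * ((N : ℝ) / 2 - j))
  have e : T / (((N : ℝ) + 1) * ((N : ℝ) / 2) * ((N : ℝ) / 2 + 1)) * ((N : ℝ) / 2) =
      T / (((N : ℝ) + 1) * ((N : ℝ) / 2 + 1)) := by
    field_simp
  rw [e, div_le_div_iff₀ (by positivity) (by positivity)]
  have : T * ((N : ℝ) + 1) ≤ ((N : ℝ) / 2) * S * ((N : ℝ) + 1) :=
    mul_le_mul_of_nonneg_right h1 (by positivity)
  nlinarith [mul_nonneg hS0 hN'.le]

/-- scalar inequality `A (1 - M/J) ≤ 2 (A - b M)` for `|M| ≤ J`, `0 ≤ b`, `b J ≤ A`. -/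
theorem one_sub_le {A b J M : ℝ} (hJ : 0 < J) (hb : 0 ≤ b) (hbJ : b * J ≤ A) (h1 : -J ≤ M)
    (h2 : M ≤ J) : A * (1 - M / J) ≤ 2 * (A - b * M) := by
  have hA : 0 ≤ A := le_trans (mul_nonneg hb hJ.le) hbJ
  have e : 2 * (A - b * M) - A * (1 - M / J) = ((A * (J + M)) - 2 * b * J * M) / J := by
    field_simp
    ring
  have h : 0 ≤ ((A * (J + M)) - 2 * b * J * M) / J := by
    refine div_nonneg ?_ hJ.le
    rcases le_total 0 M with h0 | h0
    · nlinarith [mul_le_mul_of_nonneg_right hbJ h0]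
    · have : 0 ≤ -(b * J * M) := by
        have := mul_nonneg (mul_nonneg hb hJ.le) (neg_nonneg.2 h0)
        linarith
      nlinarith [mul_nonneg hA (by linarith : 0 ≤ J + M)]
  linarith

/-- The final inequality of (1) for a joint law of `(J, M)`: `J = N/2`, `N = Nmax - 2 m`,
`Nmax = |b|`, `d = m / |b|`, `rhobar = avg (1/2 - M/|b|)`. -/
theorem rhobar_le {ι : Type*} [Fintype ι] (w : ι → ℝ) (hw : ∀ i, 0 ≤ w i) (hw1 : ∑ i, w i = 1)
    (N : ι → ℕ) (m : ι → ℕ) (Nb : ℕ) (hNb : 0 < Nb) (hN : ∀ i, N i + 2 * m i = Nb) (M : ι → ℝ)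
    (hM1 : ∀ i, -((N i : ℝ) / 2) ≤ M i) (hM2 : ∀ i, M i ≤ (N i : ℝ) / 2) {k κ : ℝ} (hk : 0 ≤ k)
    (hκ : 0 < κ)
    (h : κ * ∑ i, w i * (sA k (N i) - sB k (N i) * M i) ≤ ∑ i, w i * sA k (N i)) :
    ∑ i, w i * (1 / 2 - M i / Nb) ≤
      (1 + k * Nb) * (∑ i, w i * ((m i : ℝ) / Nb)) + Real.exp 1 / κ := by
  have hNb' : (0 : ℝ) < Nb := by exact_mod_cast hNb
  have hNi : ∀ i, ((N i : ℝ)) / 2 = (Nb : ℝ) / 2 - m i := by
    intro i
    have : ((N i : ℝ)) + 2 * m i = Nb := by exact_mod_cast hN i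
    linarith
  set Amax := sA k Nb with hAmax
  have hAp : 0 < Amax := sA_pos k Nb
  have hAle : ∀ i, sA k (N i) ≤ Amax := by
    intro i
    have := sA_mono k (N i) (m i)
    rwa [hN i] at this
  have hAge : ∀ i, Real.exp (-(k * m i)) * Amax ≤ sA k (N i) := by
    intro i
    have := sA_lower hk (N i) (m i)
    rwa [hN i] at this
  -- pointwise bound
  have hpt : ∀ i, (1 / 2 - M i / Nb) ≤ (1 + k * Nb) * ((m i : ℝ) / Nb) +
      Real.exp 1 / Amax * (sA k (N i) - sB k (N i) * M i) := by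
    intro i
    have hG : 0 ≤ sA k (N i) - sB k (N i) * M i := by
      have h1 := sB_nonneg hk (N i)
      have h2 := sB_mul_le k (N i)
      nlinarith [mul_le_mul_of_nonneg_left (hM2 i) h1]
    have hm0 : (0 : ℝ) ≤ m i := by positivity
    have hd0 : 0 ≤ (m i : ℝ) / Nb := by positivity
    have hsplit : 1 / 2 - M i / Nb = (m i : ℝ) / Nb + ((N i : ℝ) / 2 - M i) / Nb := by
      rw [hNi i]
      field_simp
      ring
    rcases Nat.eq_zero_or_pos (N i) with h0 | h0
    · have hM0 : (N i : ℝ) / 2 - M i ≤ 0 := by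
        have := hM1 i
        rw [h0] at this ⊢
        simp at this ⊢
        linarith
      have : ((N i : ℝ) / 2 - M i) / Nb ≤ 0 := div_nonpos_of_nonpos_of_nonneg hM0 hNb'.le
      have e1 : 0 ≤ k * Nb * ((m i : ℝ) / Nb) := by positivity
      have e2 : 0 ≤ Real.exp 1 / Amax * (sA k (N i) - sB k (N i) * M i) :=
        mul_nonneg (by positivity) hG
      rw [hsplit]
      nlinarith
    have hN0 : (0 : ℝ) < N i := by exact_mod_cast h0
    have hJ : (0 : ℝ) < (N i : ℝ) / 2 := by positivity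
    have hNle : (N i : ℝ) ≤ Nb := by
      have := hNi i
      linarith
    -- (N/2 - M)/Nb ≤ (1/2)(1 - M/J)
    have hq0 : 0 ≤ 1 - M i / ((N i : ℝ) / 2) := by
      rw [sub_nonneg, div_le_one hJ]
      exact hM2 i
    have hq : ((N i : ℝ) / 2 - M i) / Nb ≤ 1 / 2 * (1 - M i / ((N i : ℝ) / 2)) := by
      have e : (N i : ℝ) / 2 - M i = (N i : ℝ) / 2 * (1 - M i / ((N i : ℝ) / 2)) := by
        field_simp
      rw [e, mul_div_right_comm]
      refine mul_le_mul_of_nonneg_right ?_ hq0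
      rw [div_le_iff₀ hNb']
      linarith
    have hkey := one_sub_le hJ (sB_nonneg hk (N i)) (sB_mul_le k (N i)) (hM1 i) (hM2 i)
    rcases le_total (k * m i) 1 with hc | hc
    · have hAi : Amax ≤ Real.exp 1 * sA k (N i) := by
        have h1 : Real.exp (-1) * Amax ≤ sA k (N i) :=
          le_trans (mul_le_mul_of_nonneg_right (Real.exp_le_exp.2 (by linarith)) hAp.le) (hAge i)
        have h2 := mul_le_mul_of_nonneg_left h1 (Real.exp_pos 1).le
        rw [← mul_assoc, ← Real.exp_add] at h2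
        simpa using h2
      have h3 : 1 - M i / ((N i : ℝ) / 2) ≤
          Real.exp 1 / Amax * (sA k (N i) * (1 - M i / ((N i : ℝ) / 2))) := by
        rw [← mul_assoc, div_mul_eq_mul_div]
        refine le_mul_of_one_le_left hq0 ?_
        rw [le_div_iff₀ hAp]
        linarith
      have h4 : Real.exp 1 / Amax * (sA k (N i) * (1 - M i / ((N i : ℝ) / 2))) ≤
          Real.exp 1 / Amax * (2 * (sA k (N i) - sB k (N i) * M i)) :=
        mul_le_mul_of_nonneg_left hkey (by positivity)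
      have e1 : 0 ≤ k * Nb * ((m i : ℝ) / Nb) := by positivity
      rw [hsplit]
      nlinarith
    · have h5 : 1 - M i / ((N i : ℝ) / 2) ≤ 2 := by
        have : -1 ≤ M i / ((N i : ℝ) / 2) := by
          rw [le_div_iff₀ hJ]
          linarith [hM1 i]
        linarith
      have h6 : 1 ≤ k * Nb * ((m i : ℝ) / Nb) := by
        rw [mul_assoc, mul_div_cancel₀ _ hNb'.ne']
        exact hc
      have e2 : 0 ≤ Real.exp 1 / Amax * (sA k (N i) - sB k (N i) * M i) :=
        mul_nonneg (by positivity) hG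
      rw [hsplit]
      nlinarith
  have hsum := sum_le_sum fun i (_ : i ∈ univ) => mul_le_mul_of_nonneg_left (hpt i) (hw i)
  refine hsum.trans ?_
  have e1 : ∑ i, w i * ((1 + k * Nb) * ((m i : ℝ) / Nb) +
      Real.exp 1 / Amax * (sA k (N i) - sB k (N i) * M i)) =
      (1 + k * Nb) * (∑ i, w i * ((m i : ℝ) / Nb)) +
        Real.exp 1 / Amax * ∑ i, w i * (sA k (N i) - sB k (N i) * M i) := by
    rw [mul_sum, mul_sum, ← sum_add_distrib]
    exact sum_congr rfl fun i _ => by ring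
  rw [e1]
  have hA1 : ∑ i, w i * sA k (N i) ≤ Amax := by
    calc ∑ i, w i * sA k (N i) ≤ ∑ i, w i * Amax :=
          sum_le_sum fun i _ => mul_le_mul_of_nonneg_left (hAle i) (hw i)
      _ = Amax := by rw [← sum_mul, hw1, one_mul]
  have h7 : ∑ i, w i * (sA k (N i) - sB k (N i) * M i) ≤ Amax / κ := by
    rw [le_div_iff₀ hκ]
    linarith
  have h8 : Real.exp 1 / Amax * ∑ i, w i * (sA k (N i) - sB k (N i) * M i) ≤ Real.exp 1 / κ := by
    refine (mul_le_mul_of_nonneg_left h7 (by positivity)).trans (le_of_eq ?_)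
    field_simp
  linarith

end Vale.Agent.P361.LRO
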