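import Vale.Agent.P361.LRO.Defs
import Vale.Agent.P361.LRO.Tw.Scalar

/-!
P361, block (1): real-rootedness of the charge law gives the block twist inequality.
-/

namespace Vale.Agent.P361.LRO

open Finset MeasureTheory intervalIntegral

/-- Factorization of a real polynomial all of whose complex roots are real and `≤ -1`. -/
theorem exists_factor (F : Polynomial ℝ) (hF1 : 0 < F.eval 1)
    (hroots : ∀ τ : ℂ, (F.map (algebraMap ℝ ℂ)).eval τ = 0 → ∃ r : ℝ, r ≤ -1 ∧ τ = (r : ℂ)) :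
    ∃ (ι : Type) (_ : Fintype ι) (p : ι → ℝ), (∀ j, 0 ≤ p j) ∧ (∀ j, p j ≤ 1 / 2) ∧
      (∀ t : ℝ, F.eval t = zt (F.eval 1) p t) := by
  classical
  set G := F.map (algebraMap ℝ ℂ) with hG
  have hev : ∀ t : ℝ, G.eval (t : ℂ) = ((F.eval t : ℝ) : ℂ) := by
    intro t
    rw [hG, Polynomial.eval_map_algebraMap]
    have := Polynomial.aeval_algebraMap_apply ℂ t F
    simpa using this
  have hGne : G ≠ 0 := by
    intro h0
    have := hev 1
    rw [h0] at this
    simp only [Polynomial.eval_zero] at this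
    have h2 : F.eval 1 = 0 := by exact_mod_cast this.symm
    linarith
  have hsp : G.Splits := IsAlgClosed.splits G
  have hroot : ∀ τ ∈ G.roots, ∃ r : ℝ, r ≤ -1 ∧ τ = (r : ℂ) := by
    intro τ hτ
    exact hroots τ ((Polynomial.mem_roots hGne).1 hτ)
  have hprod : ∀ t : ℂ, G.eval t = G.leadingCoeff * ∏ j : G.roots, (t - (j : ℂ)) := by
    intro t
    rw [hsp.eval_eq_prod_roots t]
    congr 1
    rw [Finset.prod_eq_multiset_prod, ← Multiset.map_univ]
  refine ⟨G.roots, inferInstance, fun j => 1 / (1 - ((j : ℂ)).re), ?_, ?_, ?_⟩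
  · intro j
    obtain ⟨r, hr, hjr⟩ := hroot (j : ℂ) (Multiset.coe_mem)
    have hre : ((j : ℂ)).re = r := by rw [hjr]; simp
    change 0 ≤ 1 / (1 - ((j : ℂ)).re)
    rw [hre]
    apply div_nonneg <;> linarith
  · intro j
    obtain ⟨r, hr, hjr⟩ := hroot (j : ℂ) (Multiset.coe_mem)
    have hre : ((j : ℂ)).re = r := by rw [hjr]; simp
    change 1 / (1 - ((j : ℂ)).re) ≤ 1 / 2
    rw [hre, div_le_div_iff₀ (by linarith) (by norm_num)]
    linarith
  · intro t
    have h1 := hev t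
    have h2 := hev 1
    rw [hprod] at h1 h2
    have hfac : ∀ j : G.roots, ((t : ℂ) - (j : ℂ)) = (((1 : ℝ) : ℂ) - (j : ℂ)) *
        (((1 - 1 / (1 - ((j : ℂ)).re) * (1 - t) : ℝ)) : ℂ) := by
      intro j
      obtain ⟨r, hr, hjr⟩ := hroot (j : ℂ) (Multiset.coe_mem)
      rw [hjr]
      simp only [Complex.ofReal_re]
      rw [← Complex.ofReal_sub, ← Complex.ofReal_sub, ← Complex.ofReal_mul]
      congr 1
      have : (1 - r) ≠ 0 := by linarith
      field_simp
      ring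
    rw [Finset.prod_congr rfl fun j _ => hfac j, Finset.prod_mul_distrib, ← mul_assoc, h2] at h1
    unfold zt
    rw [← Complex.ofReal_prod] at h1
    exact_mod_cast h1.symm

variable {X : Type} [Fintype X] [DecidableEq X]

/-- The twisted partition function, block charge `Q = ∑_{x ∈ b} j_x`, angle `φ`. -/
noncomputable def Zf (μ : Equiv.Perm X → ℝ) (θ : X → ℝ) (b : Finset X) (φ : ℝ) : ℝ :=
  ∑ π, ∑ s, μ π * wt θ π s * Real.cos (φ * ∑ x ∈ b, jj π s x)

/-- Integer valued block charge. -/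
def qz (π : Equiv.Perm X) (s : X → Fin 2) (b : Finset X) : ℤ :=
  ∑ x ∈ b, (((s x : ℕ) : ℤ) - ((s (π x) : ℕ) : ℤ))

omit [Fintype X] [DecidableEq X] in
theorem qz_cast (π : Equiv.Perm X) (s : X → Fin 2) (b : Finset X) :
    ((qz π s b : ℤ) : ℝ) = ∑ x ∈ b, jj π s x := by
  unfold qz jj
  push_cast
  rfl

/-- The Chebyshev polynomial of the law of `Q`. -/
noncomputable def FP (μ : Equiv.Perm X → ℝ) (θ : X → ℝ) (b : Finset X) : Polynomial ℝ :=
  ∑ π, ∑ s, Polynomial.C (μ π * wt θ π s) * Polynomial.Chebyshev.T ℝ (qz π s b)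

theorem FP_eval_cos (μ : Equiv.Perm X → ℝ) (θ : X → ℝ) (b : Finset X) (φ : ℝ) :
    (FP μ θ b).eval (Real.cos φ) = Zf μ θ b φ := by
  unfold FP Zf
  rw [Polynomial.eval_finsetSum]
  refine sum_congr rfl fun π _ => ?_
  rw [Polynomial.eval_finsetSum]
  refine sum_congr rfl fun s _ => ?_
  rw [Polynomial.eval_mul, Polynomial.eval_C, Polynomial.Chebyshev.T_real_cos, ← qz_cast,
    mul_comm φ]

theorem FP_eval_one (μ : Equiv.Perm X → ℝ) (θ : X → ℝ) (b : Finset X) :
    (FP μ θ b).eval 1 = ZZ μ θ := by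
  have h := FP_eval_cos μ θ b 0
  rw [Real.cos_zero] at h
  rw [h]
  unfold Zf ZZ
  simp

theorem FP_deriv_one (μ : Equiv.Perm X → ℝ) (θ : X → ℝ) (b : Finset X) :
    (FP μ θ b).derivative.eval 1 = ∑ π, ∑ s, μ π * wt θ π s * (∑ x ∈ b, jj π s x) ^ 2 := by
  unfold FP
  rw [Polynomial.derivative_sum, Polynomial.eval_finsetSum]
  refine sum_congr rfl fun π _ => ?_
  rw [Polynomial.derivative_sum, Polynomial.eval_finsetSum]
  refine sum_congr rfl fun s _ => ?_
  rw [Polynomial.derivative_C_mul, Polynomial.Chebyshev.T_derivative_eq_U, Polynomial.eval_mul,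
    Polynomial.eval_C, Polynomial.eval_mul, Polynomial.Chebyshev.U_eval_one, ← qz_cast]
  simp
  ring_nf
  tauto

/-- The exponent `1 + j_x`. -/
def ex (π : Equiv.Perm X) (s : X → Fin 2) (x : X) : ℕ :=
  if s x = s (π x) then 1 else if s x = 1 then 2 else 0

omit [Fintype X] [DecidableEq X] in
theorem ex_cast (π : Equiv.Perm X) (s : X → Fin 2) (x : X) :
    ((ex π s x : ℕ) : ℤ) = 1 + (((s x : ℕ) : ℤ) - ((s (π x) : ℕ) : ℤ)) := by
  unfold ex
  generalize s x = a
  generalize s (π x) = b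
  fin_cases a <;> fin_cases b <;> simp

omit [DecidableEq X] in
theorem sum_ex (π : Equiv.Perm X) (s : X → Fin 2) : ∑ x, ex π s x = Fintype.card X := by
  have h : ((∑ x, ex π s x : ℕ) : ℤ) = ((Fintype.card X : ℕ) : ℤ) := by
    push_cast
    simp only [ex_cast]
    rw [sum_add_distrib, sum_sub_distrib, Equiv.sum_comp π fun x => ((s x : ℕ) : ℤ)]
    simp
  exact_mod_cast h

omit [Fintype X] [DecidableEq X] in
theorem sum_ex_b (π : Equiv.Perm X) (s : X → Fin 2) (b : Finset X) :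
    ((∑ x ∈ b, ex π s x : ℕ) : ℤ) = (b.card : ℤ) + qz π s b := by
  push_cast
  simp only [ex_cast]
  rw [sum_add_distrib]
  unfold qz
  simp

theorem gen_eq (μ : Equiv.Perm X → ℝ) (θ : X → ℝ) (ζ : X → ℂ) :
    gen μ θ ζ = ∑ π, ∑ s, ((μ π * wt θ π s : ℝ) : ℂ) * ∏ x, ζ x ^ ex π s x := by
  unfold gen
  refine sum_congr rfl fun π _ => sum_congr rfl fun s _ => ?_
  congr 1
  refine prod_congr rfl fun x _ => ?_
  unfold ex
  split_ifs <;> simp

theorem gen_smulF (μ : Equiv.Perm X → ℝ) (θ : X → ℝ) (ζ : X → ℂ) (l : ℂ) :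
    gen μ θ (fun x => l * ζ x) = l ^ Fintype.card X * gen μ θ ζ := by
  rw [gen_eq, gen_eq, mul_sum]
  refine sum_congr rfl fun π _ => ?_
  rw [mul_sum]
  refine sum_congr rfl fun s _ => ?_
  simp only [mul_pow]
  rw [prod_mul_distrib, prod_pow_eq_pow_sum, sum_ex]
  ring

/-- The Laurent polynomial of the law of `Q`. -/
noncomputable def SQ (μ : Equiv.Perm X → ℝ) (θ : X → ℝ) (b : Finset X) (w : ℂ) : ℂ :=
  ∑ π, ∑ s, ((μ π * wt θ π s : ℝ) : ℂ) * w ^ qz π s b

theorem gen_block (μ : Equiv.Perm X → ℝ) (θ : X → ℝ) (b : Finset X) {w : ℂ} (hw : w ≠ 0) :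
    gen μ θ (fun x => if x ∈ b then w else 1) = w ^ b.card * SQ μ θ b w := by
  rw [gen_eq]
  unfold SQ
  rw [mul_sum]
  refine sum_congr rfl fun π _ => ?_
  rw [mul_sum]
  refine sum_congr rfl fun s _ => ?_
  have h1 : ∏ x, (if x ∈ b then w else 1) ^ ex π s x = ∏ x ∈ b, w ^ ex π s x := by
    rw [← prod_subset (subset_univ b)]
    · refine prod_congr rfl fun x hx => ?_
      rw [if_pos hx]
    · intro x _ hx
      rw [if_neg hx, one_pow]
  have h2 : ∏ x ∈ b, w ^ ex π s x = w ^ b.card * w ^ qz π s b := by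
    rw [prod_pow_eq_pow_sum, ← zpow_natCast, sum_ex_b, zpow_add₀ hw, zpow_natCast]
  rw [h1, h2]
  ring

/-- Flip of all spins. -/
def flipE : (X → Fin 2) ≃ (X → Fin 2) where
  toFun s := fun x => Fin.rev (s x)
  invFun s := fun x => Fin.rev (s x)
  left_inv s := by funext x; simp
  right_inv s := by funext x; simp

omit [DecidableEq X] in
theorem wt_flipF (θ : X → ℝ) (π : Equiv.Perm X) (s : X → Fin 2) :
    wt θ π (flipE s) = wt θ π s := by
  unfold wt flipE
  refine prod_congr rfl fun x _ => ?_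
  simp

omit [Fintype X] [DecidableEq X] in
theorem qz_flip (π : Equiv.Perm X) (s : X → Fin 2) (b : Finset X) :
    qz π (flipE s) b = - qz π s b := by
  unfold qz flipE
  rw [← sum_neg_distrib]
  refine sum_congr rfl fun x _ => ?_
  change ((Fin.rev (s x) : ℕ) : ℤ) - ((Fin.rev (s (π x)) : ℕ) : ℤ) = _
  generalize s x = a
  generalize s (π x) = c
  fin_cases a <;> fin_cases c <;> simp

theorem SQ_inv (μ : Equiv.Perm X → ℝ) (θ : X → ℝ) (b : Finset X) (w : ℂ) :
    SQ μ θ b w⁻¹ = SQ μ θ b w := by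
  unfold SQ
  refine sum_congr rfl fun π _ => ?_
  rw [← Equiv.sum_comp flipE]
  refine sum_congr rfl fun s _ => ?_
  rw [wt_flipF, qz_flip, inv_zpow', neg_neg]

theorem FP_eval_ccos (μ : Equiv.Perm X → ℝ) (θ : X → ℝ) (b : Finset X) (φ : ℂ) :
    ((FP μ θ b).map (algebraMap ℝ ℂ)).eval (Complex.cos φ) =
      SQ μ θ b (Complex.exp (φ * Complex.I)) := by
  have h1 : ((FP μ θ b).map (algebraMap ℝ ℂ)).eval (Complex.cos φ) =
      ∑ π, ∑ s, ((μ π * wt θ π s : ℝ) : ℂ) * Complex.cos (qz π s b * φ) := by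
    unfold FP
    rw [Polynomial.map_sum, Polynomial.eval_finsetSum]
    refine sum_congr rfl fun π _ => ?_
    rw [Polynomial.map_sum, Polynomial.eval_finsetSum]
    refine sum_congr rfl fun s _ => ?_
    rw [Polynomial.map_mul, Polynomial.map_C, Polynomial.Chebyshev.map_T, Polynomial.eval_mul,
      Polynomial.eval_C, Polynomial.Chebyshev.T_complex_cos]
    rfl
  have h2 : (2 : ℂ) * ((FP μ θ b).map (algebraMap ℝ ℂ)).eval (Complex.cos φ) =
      SQ μ θ b (Complex.exp (φ * Complex.I)) + SQ μ θ b (Complex.exp (φ * Complex.I))⁻¹ := by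
    rw [h1]
    unfold SQ
    rw [mul_sum, ← sum_add_distrib]
    refine sum_congr rfl fun π _ => ?_
    rw [mul_sum, ← sum_add_distrib]
    refine sum_congr rfl fun s _ => ?_
    rw [← Complex.exp_neg, ← Complex.exp_int_mul, ← Complex.exp_int_mul, Complex.cos]
    ring_nf
  rw [SQ_inv] at h2
  linear_combination h2 / 2

theorem SQ_ne_zero_of_im_pos {μ : Equiv.Perm X → ℝ} {θ : X → ℝ} (hst : Stable μ θ)
    (b : Finset X) {w : ℂ} (hw : 0 < w.im) : SQ μ θ b w ≠ 0 := by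
  have hw0 : w ≠ 0 := by
    rintro rfl
    simp at hw
  intro h0
  set δ : ℝ := w.im / (2 * (|w.re| + 1)) with hδ
  have hδ0 : 0 < δ := by positivity
  set l : ℂ := 1 + δ * Complex.I with hl
  have hlim : l.im = δ := by simp [hl]
  have hlre : l.re = 1 := by simp [hl]
  have h1 : gen μ θ (fun x => l * (if x ∈ b then w else 1)) ≠ 0 := by
    apply hst
    intro x
    split_ifs
    · rw [Complex.mul_im, hlim, hlre]
      have h2 : δ * (|w.re| + 1) = w.im / 2 := by
        rw [hδ]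
        field_simp
      have h3 : -(δ * |w.re|) ≤ δ * w.re := by
        have := neg_abs_le w.re
        nlinarith
      nlinarith
    · rw [mul_one, hlim]
      exact hδ0
  apply h1
  rw [gen_smulF, gen_block μ θ b hw0, h0]
  simp

theorem SQ_pos_real {μ : Equiv.Perm X → ℝ} {θ : X → ℝ} (hμ : ∀ π, 0 ≤ μ π)
    (hθ : ∀ x, 0 ≤ θ x) (hZ : 0 < ZZ μ θ) (b : Finset X) {r : ℝ} (hr : 0 < r) :
    SQ μ θ b (r : ℂ) ≠ 0 := by
  have hwt : ∀ π s, 0 ≤ wt θ π s := by
    intro π s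
    unfold wt
    refine prod_nonneg fun x _ => ?_
    split_ifs
    · norm_num
    · exact hθ x
  have h1 : SQ μ θ b (r : ℂ) = ((∑ π, ∑ s, μ π * wt θ π s * r ^ qz π s b : ℝ) : ℂ) := by
    unfold SQ
    push_cast
    rfl
  rw [h1]
  intro h0
  have h2 : (∑ π, ∑ s, μ π * wt θ π s * r ^ qz π s b : ℝ) = 0 := by exact_mod_cast h0
  have h3 : ∀ π, ∑ s, μ π * wt θ π s * r ^ qz π s b = 0 := by
    intro π
    exact (sum_eq_zero_iff_of_nonneg (fun π _ => sum_nonneg fun s _ =>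
      mul_nonneg (mul_nonneg (hμ π) (hwt π s)) (zpow_pos hr _).le)).1 h2 π (mem_univ _)
  have h4 : ZZ μ θ = 0 := by
    unfold ZZ
    refine sum_eq_zero fun π _ => sum_eq_zero fun s _ => ?_
    have := (sum_eq_zero_iff_of_nonneg (fun s _ =>
      mul_nonneg (mul_nonneg (hμ π) (hwt π s)) (zpow_pos hr _).le)).1 (h3 π) s (mem_univ _)
    rcases mul_eq_zero.1 this with h | h
    · exact h
    · exact absurd h (zpow_pos hr _).ne'
  linarith

theorem FP_roots {μ : Equiv.Perm X → ℝ} {θ : X → ℝ} (hμ : ∀ π, 0 ≤ μ π)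
    (hθ : ∀ x, 0 ≤ θ x) (hZ : 0 < ZZ μ θ) (hst : Stable μ θ) (b : Finset X) (τ : ℂ)
    (hτ : ((FP μ θ b).map (algebraMap ℝ ℂ)).eval τ = 0) : ∃ r : ℝ, r ≤ -1 ∧ τ = (r : ℂ) := by
  obtain ⟨φ, rfl⟩ := Complex.cos_surjective τ
  rw [FP_eval_ccos] at hτ
  set w := Complex.exp (φ * Complex.I) with hw
  have hw0 : w ≠ 0 := Complex.exp_ne_zero _
  have hcos : Complex.cos φ = (w + w⁻¹) / 2 := by
    rw [hw, ← Complex.exp_neg, Complex.cos]
    ring_nf
  have him : w.im = 0 := by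
    rcases lt_trichotomy w.im 0 with h | h | h
    · exfalso
      have h1 : 0 < (w⁻¹).im := by
        rw [Complex.inv_im]
        apply div_pos (by linarith)
        exact Complex.normSq_pos.2 hw0
      have := SQ_ne_zero_of_im_pos hst b h1
      rw [SQ_inv] at this
      exact this hτ
    · exact h
    · exact absurd hτ (SQ_ne_zero_of_im_pos hst b h)
  have hwr : w = ((w.re : ℝ) : ℂ) := by
    apply Complex.ext
    · simp
    · simp [him]
  have hneg : w.re < 0 := by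
    rcases lt_trichotomy w.re 0 with h | h | h
    · exact h
    · exfalso
      apply hw0
      rw [hwr, h]
      simp
    · exfalso
      rw [hwr] at hτ
      exact SQ_pos_real hμ hθ hZ b h hτ
  refine ⟨(w.re + w.re⁻¹) / 2, ?_, ?_⟩
  · have h1 : (w.re + w.re⁻¹) / 2 + 1 = (w.re + 1) ^ 2 / (2 * w.re) := by
      have hne : w.re ≠ 0 := hneg.ne
      field_simp
      ring
    have h2 : (w.re + 1) ^ 2 / (2 * w.re) ≤ 0 :=
      div_nonpos_of_nonneg_of_nonpos (sq_nonneg _) (by linarith)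
    linarith
  · rw [hcos]
    conv_lhs => rw [hwr]
    push_cast
    rfl

theorem KK_block (μ : Equiv.Perm X → ℝ) (θ : X → ℝ) (b : Finset X) :
    KK μ θ (fun z => if z ∈ b then 1 else 0) =
      (∑ π, ∑ s, μ π * wt θ π s * (∑ x ∈ b, jj π s x) ^ 2) / ZZ μ θ := by
  unfold KK EE
  congr 1
  refine sum_congr rfl fun π _ => sum_congr rfl fun s _ => ?_
  congr 2
  simp

/-- **Block twist, `t`-form.** -/
theorem kap_int_t {μ : Equiv.Perm X → ℝ} {θ : X → ℝ} (hμ : ∀ π, 0 ≤ μ π)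
    (hθ : ∀ x, 0 ≤ θ x) (hZ : 0 < ZZ μ θ) (hst : Stable μ θ) (b : Finset X) :
    KK μ θ (fun z => if z ∈ b then 1 else 0) *
        (∫ t in (-1 : ℝ)..1, (1 - t) * (FP μ θ b).eval t) ≤
      ∫ t in (-1 : ℝ)..1, (FP μ θ b).eval t := by
  classical
  obtain ⟨ι, hι, p, hp0, hp1, hF⟩ := exists_factor (FP μ θ b) (by rw [FP_eval_one]; exact hZ)
    (FP_roots hμ hθ hZ hst b)
  rw [FP_eval_one] at hF
  have hd1 : HasDerivAt (fun t => (FP μ θ b).eval t) ((FP μ θ b).derivative.eval 1) 1 :=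
    (FP μ θ b).hasDerivAt 1
  have hd2 := hasDerivAt_zt (ZZ μ θ) p 1
  have hfun : (fun t => (FP μ θ b).eval t) = zt (ZZ μ θ) p := funext hF
  rw [hfun] at hd1
  have hd3 := hd1.unique hd2
  have hsum : ∑ j, p j = KK μ θ (fun z => if z ∈ b then 1 else 0) := by
    rw [KK_block, ← FP_deriv_one, hd3, eq_div_iff hZ.ne', mul_comm]
    congr 1
    refine sum_congr rfl fun j _ => ?_
    simp
  have h := zint hZ.le hp0 hp1
  rw [hsum] at h
  simp only [← hF] at h
  exact h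

/-- **Block twist, angle form.** -/
theorem kap_int {μ : Equiv.Perm X → ℝ} {θ : X → ℝ} (hμ : ∀ π, 0 ≤ μ π)
    (hθ : ∀ x, 0 ≤ θ x) (hZ : 0 < ZZ μ θ) (hst : Stable μ θ) (b : Finset X) :
    KK μ θ (fun z => if z ∈ b then 1 else 0) *
        (∫ φ in (0 : ℝ)..Real.pi, Real.sin φ * (1 - Real.cos φ) * Zf μ θ b φ) ≤
      ∫ φ in (0 : ℝ)..Real.pi, Real.sin φ * Zf μ θ b φ := by
  have hsub : ∀ g : ℝ → ℝ, Continuous g →
      (∫ φ in (0 : ℝ)..Real.pi, Real.sin φ * g (Real.cos φ)) = ∫ t in (-1 : ℝ)..1, g t := by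
    intro g hg
    have h := integral_comp_mul_deriv (a := 0) (b := Real.pi) (f := Real.cos)
      (f' := fun φ => -Real.sin φ) (g := g) (fun x _ => Real.hasDerivAt_cos x)
      (by fun_prop) hg
    rw [Real.cos_zero, Real.cos_pi, integral_symm (-1 : ℝ) 1] at h
    have h2 : (∫ φ in (0 : ℝ)..Real.pi, (g ∘ Real.cos) φ * -Real.sin φ) =
        - ∫ φ in (0 : ℝ)..Real.pi, Real.sin φ * g (Real.cos φ) := by
      rw [← intervalIntegral.integral_neg]
      refine integral_congr fun φ _ => ?_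
      simp only [Function.comp]
      ring
    rw [h2] at h
    linarith
  have hc : Continuous fun t : ℝ => (FP μ θ b).eval t := (FP μ θ b).continuous
  have h1 := hsub (fun t => (FP μ θ b).eval t) hc
  have h2 := hsub (fun t => (1 - t) * (FP μ θ b).eval t) (by fun_prop)
  simp only [FP_eval_cos] at h1 h2
  have h3 := kap_int_t hμ hθ hZ hst b
  rw [← h1, ← h2] at h3
  simpa only [mul_assoc] using h3

end Vale.Agent.P361.LRO
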