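import Vale.Agent.P361.LRO.Tw.Defs
import Vale.Agent.P361.LRO.Tw.Pow

/-!
P361, block (1): the limit `N → ∞` of the twist inequality.
-/

namespace Vale.Agent.P361.LRO

open Finset Matrix Filter Topology

noncomputable section

variable {V : Type} [Fintype V] [DecidableEq V]

section lim

set_option linter.unusedSectionVars false

open scoped Matrix.Norms.Operator

theorem norm_one_le_real {m : Type} [Fintype m] [DecidableEq m] : ‖(1 : Matrix m m ℝ)‖ ≤ 1 := by
  rcases isEmpty_or_nonempty m with h | h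
  · have : (1 : Matrix m m ℝ) = 0 := Subsingleton.elim _ _
    rw [this, norm_zero]
    exact zero_le_one
  · rw [norm_one]

theorem gate_first (x y : V) (β : ℝ) :
    Tendsto (fun N : ℕ => (N : ℝ) • (((1 - β / (2 * N)) •
      (1 : Matrix (V → Fin 2) (V → Fin 2) ℝ) + (β / (2 * N)) • swapM x y) - 1)) atTop
      (𝓝 (-β • hM x y)) := by
  refine Tendsto.congr' ?_ tendsto_const_nhds
  filter_upwards [eventually_gt_atTop 0] with N hN
  have hN' : (N : ℝ) ≠ 0 := by exact_mod_cast hN.ne'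
  ext σ τ
  simp only [hM, Matrix.smul_apply, Matrix.add_apply, Matrix.sub_apply, smul_eq_mul]
  field_simp
  ring

theorem slice_first (β : ℝ) (h : V → ℝ) :
    Tendsto (fun N : ℕ => (N : ℝ) • ((Matrix.diagonal fun σ : V → Fin 2 =>
      ∏ x, (1 + β * h x / (2 * N) * if σ x = 0 then 1 else -1)) - 1)) atTop
      (𝓝 (β • ∑ x, (h x / 2) • szM x)) := by
  have key : ∀ σ : V → Fin 2, Tendsto (fun N : ℕ => (N : ℝ) *
      ((∏ x, (1 + β * h x / (2 * N) * if σ x = 0 then (1 : ℝ) else -1)) - 1)) atTop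
      (𝓝 (∑ x, β * (h x / 2) * if σ x = 0 then (1 : ℝ) else -1)) := by
    intro σ
    have h1 := Trot.first_prod (R := ℝ) Finset.univ
      (fun (x : V) (N : ℕ) => 1 + β * h x / (2 * N) * if σ x = 0 then (1 : ℝ) else -1)
      (fun x => β * (h x / 2) * if σ x = 0 then (1 : ℝ) else -1) (fun x _ => by
        refine Tendsto.congr' ?_ tendsto_const_nhds
        filter_upwards [eventually_gt_atTop 0] with N hN
        have hN' : (N : ℝ) ≠ 0 := by exact_mod_cast hN.ne'
        simp only [smul_eq_mul]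
        field_simp
        ring)
    simpa only [smul_eq_mul] using h1
  have hlim : (β • ∑ x, (h x / 2) • szM x : Matrix (V → Fin 2) (V → Fin 2) ℝ) =
      Matrix.diagonal fun σ : V → Fin 2 => ∑ x, β * (h x / 2) * if σ x = 0 then (1 : ℝ) else -1 := by
    ext σ τ
    simp only [Matrix.smul_apply, Matrix.sum_apply, szM, Matrix.diagonal_apply, smul_eq_mul]
    by_cases hst : σ = τ
    · simp only [hst, if_true]
      rw [Finset.mul_sum]
      refine Finset.sum_congr rfl fun x _ => ?_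
      ring
    · simp [hst]
  rw [hlim]
  have hfun : (fun N : ℕ => (N : ℝ) • ((Matrix.diagonal fun σ : V → Fin 2 =>
      ∏ x, (1 + β * h x / (2 * N) * if σ x = 0 then (1 : ℝ) else -1)) - 1)) =
      fun N : ℕ => Matrix.diagonal fun σ : V → Fin 2 => (N : ℝ) *
      ((∏ x, (1 + β * h x / (2 * N) * if σ x = 0 then (1 : ℝ) else -1)) - 1) := by
    funext N
    ext σ τ
    simp only [Matrix.smul_apply, Matrix.sub_apply, Matrix.diagonal_apply, smul_eq_mul,
      Matrix.one_apply]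
    split_ifs <;> simp
  rw [hfun]
  have hcont : Continuous (fun d : (V → Fin 2) → ℝ => Matrix.diagonal d) :=
    continuous_id.matrix_diagonal
  exact (hcont.tendsto _).comp (tendsto_pi_nhds.2 key)

theorem stepM_first (L : List (V × V)) (β : ℝ) (h : V → ℝ) :
    Tendsto (fun N : ℕ => (N : ℝ) • (stepM L β h N - 1)) atTop (𝓝 (-β • ham L h)) := by
  have h1 := Trot.first_list (R := Matrix (V → Fin 2) (V → Fin 2) ℝ) L
    (fun e N => (1 - β / (2 * N)) • (1 : Matrix (V → Fin 2) (V → Fin 2) ℝ) +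
    (β / (2 * N)) • swapM e.1 e.2) (fun e => -β • hM e.1 e.2) fun e _ => gate_first e.1 e.2 β
  have h2 := Trot.first_mul h1 (slice_first β h)
  have h4 : ∀ M : List (V × V), (M.map fun e => -β • hM e.1 e.2).sum =
      -β • (M.map fun e => hM e.1 e.2).sum := by
    intro M
    induction M with
    | nil => simp
    | cons e M ih => rw [List.map_cons, List.sum_cons, ih, List.map_cons, List.sum_cons, smul_add]
  have h3 : (L.map fun e => -β • hM e.1 e.2).sum + (β • ∑ x, (h x / 2) • szM x) =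
      -β • ham L h := by
    rw [h4, ham, smul_sub, sub_eq_add_neg, ← neg_smul (-β), neg_neg]
  rw [h3] at h2
  exact h2

/-- **The word converges to the Gibbs operator.** -/
theorem stepM_tendsto (L : List (V × V)) (β : ℝ) (h : V → ℝ) :
    Tendsto (fun N : ℕ => stepM L β h N ^ N) atTop (𝓝 (NormedSpace.exp (-β • ham L h))) :=
  Trot.pow_tendsto_exp norm_one_le_real (stepM_first L β h)

end lim

/-- The twisted weight. -/
def ZTw (W : Matrix (V → Fin 2) (V → Fin 2) ℝ) (b : Finset V) (θ φ : ℝ) : ℝ :=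
  Matrix.trace (W * rotT b θ φ)

theorem continuous_rotM (θ : ℝ) (i j : Fin 2) : Continuous fun φ : ℝ => rotM θ φ i j := by
  fin_cases i <;> fin_cases j <;> simp only [rotM] <;> simp <;> fun_prop

theorem continuous_rotT (b : Finset V) (θ : ℝ) (σ τ : V → Fin 2) :
    Continuous fun φ : ℝ => rotT b θ φ σ τ := by
  unfold rotT
  simp only [Matrix.of_apply]
  refine continuous_finsetProd _ fun x _ => ?_
  by_cases hx : x ∈ b
  · simp only [hx, if_true]
    exact continuous_rotM θ (σ x) (τ x)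
  · simp only [hx, if_false]
    exact continuous_const

theorem ZTw_eq (W : Matrix (V → Fin 2) (V → Fin 2) ℝ) (b : Finset V) (θ φ : ℝ) :
    ZTw W b θ φ = ∑ σ, ∑ τ, W σ τ * rotT b θ φ τ σ := by
  simp only [ZTw, Matrix.trace, Matrix.diag_apply, Matrix.mul_apply]

theorem int_ZTw (W : Matrix (V → Fin 2) (V → Fin 2) ℝ) (b : Finset V) (θ : ℝ) {g : ℝ → ℝ}
    (hg : Continuous g) :
    (∫ φ in (0 : ℝ)..Real.pi, g φ * ZTw W b θ φ) =
      ∑ σ, ∑ τ, W σ τ * ∫ φ in (0 : ℝ)..Real.pi, g φ * rotT b θ φ τ σ := by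
  have h1 : ∀ σ τ, Continuous fun φ => g φ * (W σ τ * rotT b θ φ τ σ) := fun σ τ =>
    hg.mul (continuous_const.mul (continuous_rotT b θ τ σ))
  have h2 : ∀ σ, Continuous fun φ => ∑ τ, g φ * (W σ τ * rotT b θ φ τ σ) := fun σ =>
    continuous_finsetSum _ fun τ _ => h1 σ τ
  have h3 : (fun φ => g φ * ZTw W b θ φ) = fun φ => ∑ σ, ∑ τ, g φ * (W σ τ * rotT b θ φ τ σ) := by
    funext φ
    rw [ZTw_eq, Finset.mul_sum]
    exact Finset.sum_congr rfl fun σ _ => Finset.mul_sum _ _ _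
  rw [h3, intervalIntegral.integral_finsetSum fun σ _ => (h2 σ).intervalIntegrable _ _]
  refine Finset.sum_congr rfl fun σ _ => ?_
  rw [intervalIntegral.integral_finsetSum fun τ _ => (h1 σ τ).intervalIntegrable _ _]
  refine Finset.sum_congr rfl fun τ _ => ?_
  rw [← intervalIntegral.integral_const_mul]
  refine intervalIntegral.integral_congr fun φ _ => ?_
  ring

theorem tendsto_int_ZTw {W : ℕ → Matrix (V → Fin 2) (V → Fin 2) ℝ}
    {W0 : Matrix (V → Fin 2) (V → Fin 2) ℝ} (hW : Tendsto W atTop (𝓝 W0)) (b : Finset V) (θ : ℝ)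
    {g : ℝ → ℝ} (hg : Continuous g) :
    Tendsto (fun N => ∫ φ in (0 : ℝ)..Real.pi, g φ * ZTw (W N) b θ φ) atTop
      (𝓝 (∫ φ in (0 : ℝ)..Real.pi, g φ * ZTw W0 b θ φ)) := by
  simp only [int_ZTw _ b θ hg]
  refine tendsto_finsetSum _ fun σ _ => tendsto_finsetSum _ fun τ _ => ?_
  refine Tendsto.mul_const _ ?_
  have h1 := tendsto_pi_nhds.1 hW σ
  exact tendsto_pi_nhds.1 h1 τ

/-- **The limit of the twist inequality.** -/
theorem twist_limit {W : ℕ → Matrix (V → Fin 2) (V → Fin 2) ℝ}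
    {W0 : Matrix (V → Fin 2) (V → Fin 2) ℝ} (hW : Tendsto W atTop (𝓝 W0)) (b : Finset V) (θ : ℝ)
    {k : ℕ → ℝ} {κ : ℝ} (hk : ∃ᶠ N in atTop, κ ≤ k N)
    (hpos : ∀ᶠ N in atTop, ∀ φ, 0 ≤ ZTw (W N) b θ φ)
    (hin : ∀ᶠ N in atTop, k N * (∫ φ in (0 : ℝ)..Real.pi,
        Real.sin φ * (1 - Real.cos φ) * ZTw (W N) b θ φ) ≤
      ∫ φ in (0 : ℝ)..Real.pi, Real.sin φ * ZTw (W N) b θ φ) :
    κ * (∫ φ in (0 : ℝ)..Real.pi, Real.sin φ * (1 - Real.cos φ) * ZTw W0 b θ φ) ≤
      ∫ φ in (0 : ℝ)..Real.pi, Real.sin φ * ZTw W0 b θ φ := by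
  have h1 := (tendsto_int_ZTw hW b θ (g := fun φ => Real.sin φ * (1 - Real.cos φ))
    (by fun_prop)).const_mul κ
  have h2 := tendsto_int_ZTw hW b θ (g := Real.sin) (by fun_prop)
  refine le_of_tendsto_of_tendsto_of_frequently h1 h2 ?_
  refine (hk.and_eventually (hpos.and hin)).mono fun N hN => ?_
  obtain ⟨h3, h4, h5⟩ := hN
  refine le_trans (mul_le_mul_of_nonneg_right h3 ?_) h5
  refine intervalIntegral.integral_nonneg Real.pi_pos.le fun φ hφ => ?_
  have h6 := Real.sin_nonneg_of_nonneg_of_le_pi hφ.1 hφ.2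
  have h7 : 0 ≤ 1 - Real.cos φ := by linarith [Real.cos_le_one φ]
  exact mul_nonneg (mul_nonneg h6 h7) (h4 φ)

end

end Vale.Agent.P361.LRO
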