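import Vale.Agent.P361.LRO.Tw.Rot
import Vale.Agent.P361.LRO.Dict.Trace

/-!
P361, block (1): the twisted partition function of the physical circuit is
`Tr (stepM ^ N * rotT)`.
-/

namespace Vale.Agent.P361.LRO

open Finset Matrix

noncomputable section

variable {V : Type} [Fintype V] [DecidableEq V]

theorem rotM_zero_zero : rotM 0 0 = 1 := by
  unfold rotM
  ext i j
  fin_cases i <;> fin_cases j <;> simp

theorem rotM_zero_apply (θ : ℝ) (a b : Fin 2) :
    rotM θ 0 a b = if a = b then 1 + θ * (if a = 0 then 1 else -1) else 0 := by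
  unfold rotM
  fin_cases a <;> fin_cases b <;> simp <;> ring

theorem rotM_symm (θ φ : ℝ) (a b : Fin 2) : rotM θ φ a b = rotM θ φ b a := by
  unfold rotM
  fin_cases a <;> fin_cases b <;> simp

/-- The diagonal slice. -/
def diaM (β : ℝ) (h : V → ℝ) (N : ℕ) : Matrix (V → Fin 2) (V → Fin 2) ℝ :=
  Matrix.diagonal fun σ : V → Fin 2 => ∏ x, (1 + β * h x / (2 * N) * if σ x = 0 then 1 else -1)

theorem layM_phys (K β : ℝ) (h : V → ℝ) (b : Finset V) (N : ℕ) (φ : ℝ) {k : ℕ} (h1 : 1 ≤ k)
    (h2 : k ≤ N) :
    Dict.layM (fun x => spA (th β N h (blk K b)) (hatb N b) φ (Fin.ofNat (N + 1) k, x)) =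
      diaM β h N := by
  have hk : Fin.ofNat (N + 1) k ≠ 0 := by
    intro h0
    have h3 := congrArg Fin.val h0
    simp only [Fin.ofNat, Fin.val_zero] at h3
    rw [Nat.mod_eq_of_lt (by omega)] at h3
    omega
  ext σ τ
  unfold Dict.layM diaM
  rw [Matrix.of_apply, Matrix.diagonal_apply]
  have h4 : ∀ x, spA (th β N h (blk K b)) (hatb N b) φ (Fin.ofNat (N + 1) k, x) (σ x) (τ x) =
      if σ x = τ x then 1 + β * h x / (2 * N) * (if σ x = 0 then 1 else -1) else 0 := by
    intro x
    unfold spA hatb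
    rw [if_neg (by
      simp only [Finset.mem_product, Finset.mem_singleton, not_and]
      exact fun h5 => absurd h5 hk)]
    rw [rotM_zero_apply]
    unfold th
    simp only [if_neg hk]
  simp only [h4]
  by_cases hst : σ = τ
  · subst hst
    simp
  · rw [if_neg hst]
    obtain ⟨x, hx⟩ := Function.ne_iff.1 hst
    exact Finset.prod_eq_zero (Finset.mem_univ x) (if_neg hx)

theorem layM_zero (K β : ℝ) (h : V → ℝ) (b : Finset V) (N : ℕ) (φ : ℝ) :
    Dict.layM (fun x => spA (th β N h (blk K b)) (hatb N b) φ (0, x)) =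
      rotT b (Real.tanh (K / (2 * b.card))) φ := by
  ext σ τ
  unfold Dict.layM rotT
  rw [Matrix.of_apply, Matrix.of_apply]
  refine Finset.prod_congr rfl fun x _ => ?_
  unfold spA hatb th blk
  by_cases hx : x ∈ b
  · simp [hx]
  · simp only [Finset.mem_product, Finset.mem_singleton, hx, and_false, if_false, if_true]
    rw [rotM_zero_zero, Matrix.one_apply]

theorem swapM_transposeR (x y : V) : (swapM x y)ᵀ = swapM x y := by
  ext σ τ
  unfold swapM
  rw [Matrix.transpose_apply, Matrix.of_apply, Matrix.of_apply]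
  congr 1
  apply propext
  constructor
  · rintro rfl
    funext z
    simp
  · rintro rfl
    funext z
    simp

theorem gatM_transpose (L : List (V × V)) (p : ℝ) :
    (Dict.gatM L p : Matrix (V → Fin 2) (V → Fin 2) ℝ)ᵀ =
      (L.map fun e => (1 - p) • (1 : Matrix (V → Fin 2) (V → Fin 2) ℝ) + p • swapM e.1 e.2).prod := by
  unfold Dict.gatM
  rw [Matrix.transpose_list_prod]
  congr 1
  rw [List.map_map, ← List.map_reverse, List.reverse_reverse]
  refine List.map_congr_left fun e _ => ?_
  simp only [Function.comp_apply]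
  unfold Dict.gatR
  rw [Dict.swapR_real, Matrix.transpose_add, Matrix.transpose_smul, Matrix.transpose_smul,
    Matrix.transpose_one, swapM_transposeR]

theorem rotT_transpose (b : Finset V) (t φ : ℝ) : (rotT b t φ)ᵀ = rotT b t φ := by
  ext σ τ
  unfold rotT
  rw [Matrix.transpose_apply, Matrix.of_apply, Matrix.of_apply]
  refine Finset.prod_congr rfl fun x _ => ?_
  split_ifs with h1 h2 h3
  · exact rotM_symm _ _ _ _
  · rfl
  · exact absurd h2.symm h3
  · rename_i h4
    exact absurd h4.symm h2
  · rfl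

/-- **Twisted dictionary for the physical circuit.** -/
theorem Zf_phys (L : List (V × V)) (β : ℝ) (h : V → ℝ) (K : ℝ) (b : Finset V) (N : ℕ) (φ : ℝ) :
    Zf (phys L β N) (th β N h (blk K b)) (hatb N b) φ =
      Matrix.trace (stepM L β h N ^ N * rotT b (Real.tanh (K / (2 * b.card))) φ) := by
  rw [Zf_eq_NZ, Dict.NZ_phys, layM_zero]
  rw [Dict.down_congr (g := fun _ => diaM β h N * Dict.gatM L (β / (2 * N))) (fun k h1 h2 => by
    rw [layM_phys K β h b N φ h1 h2]), Dict.down_const]
  rw [← Matrix.trace_transpose, Matrix.transpose_mul, Matrix.transpose_pow, Matrix.transpose_mul,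
    gatM_transpose, rotT_transpose, Matrix.trace_mul_comm]
  unfold diaM
  rw [Matrix.diagonal_transpose]
  rfl

end

end Vale.Agent.P361.LRO
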