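import Vale.Agent.P361.LRO.Tw.Lim
import Vale.Agent.P361.LRO.Tw.RotPhys
import Vale.Agent.P361.LRO.BaseA

/-!
P361, block (1): assembly.
-/

namespace Vale.Agent.P361.LRO

open Finset Matrix Filter Topology

noncomputable section

variable {V : Type} [Fintype V] [DecidableEq V]

theorem Zf_nonneg {X : Type} [Fintype X] [DecidableEq X] {μ : Equiv.Perm X → ℝ} {θ : X → ℝ}
    (hμ : ∀ π, 0 ≤ μ π) (hθ : ∀ x, 0 ≤ θ x) (hZ : 0 < ZZ μ θ) (hst : Stable μ θ) (b : Finset X)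
    (φ : ℝ) : 0 ≤ Zf μ θ b φ := by
  obtain ⟨ι, hι, p, hp0, hp1, hF⟩ := exists_factor (FP μ θ b) (by rw [FP_eval_one]; exact hZ)
    (FP_roots hμ hθ hZ hst b)
  rw [← FP_eval_cos, hF]
  exact zt_nonneg (by rw [FP_eval_one]; exact hZ.le) hp0 hp1 (Real.neg_one_le_cos φ)

/-- The law of the physical circuit. -/
theorem isLaw_phys' (L : List (V × V)) {β : ℝ} (hβ : 0 ≤ β) {N : ℕ} (hN : β ≤ N) :
    IsLaw (phys L β N) := by
  refine ⟨_, _, ?_, rfl⟩
  intro g hg
  unfold gates at hg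
  rw [List.mem_flatMap] at hg
  obtain ⟨k, -, hk⟩ := hg
  rw [List.mem_map] at hk
  obtain ⟨e, -, rfl⟩ := hk
  rcases Nat.eq_zero_or_pos N with h0 | h0
  · subst h0
    simp
  · have hN' : (0 : ℝ) < N := by exact_mod_cast h0
    constructor
    · positivity
    · show β / (2 * N) ≤ 1 / 2
      rw [div_le_iff₀ (by positivity)]
      linarith

/-- **Block twist for the Gibbs state.** -/
theorem twist_gibbs (hSR : ∀ (X : Type) [Fintype X] [DecidableEq X] (μ : Equiv.Perm X → ℝ)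
      (θ : X → ℝ), IsLaw μ → (∀ x, 0 ≤ θ x ∧ θ x ≤ 1) → Stable μ θ)
    (L : List (V × V)) {β : ℝ} (hβ : 0 < β) {h : V → ℝ} (hh : ∀ x, 0 ≤ h x) {K κ : ℝ}
    (hK : 0 ≤ K) (b : Finset V) (hκ : ∃ᶠ N : ℕ in atTop, κ ≤ kap L β N h K b) :
    κ * (∫ φ in (0 : ℝ)..Real.pi, Real.sin φ * (1 - Real.cos φ) *
        ZTw (NormedSpace.exp (-β • ham L h)) b (Real.tanh (K / (2 * b.card))) φ) ≤
      ∫ φ in (0 : ℝ)..Real.pi, Real.sin φ *
        ZTw (NormedSpace.exp (-β • ham L h)) b (Real.tanh (K / (2 * b.card))) φ := by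
  have hT : 0 ≤ Real.tanh (K / (2 * b.card)) := by
    rw [Real.tanh_eq_sinh_div_cosh]
    exact div_nonneg (Real.sinh_nonneg_iff.2 (by positivity)) (Real.cosh_pos _).le
  have hT1 : Real.tanh (K / (2 * b.card)) ≤ 1 := (Real.tanh_lt_one _).le
  have hgood : ∀ᶠ N : ℕ in atTop, IsLaw (phys L β N) ∧
      ∀ z, 0 ≤ th β N h (blk K b) z ∧ th β N h (blk K b) z ≤ 1 := by
    have h1 : ∀ᶠ N : ℕ in atTop, β ≤ N := eventually_atTop.2 (by
      obtain ⟨n, hn⟩ := exists_nat_ge β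
      exact ⟨n, fun m hm => hn.trans (by exact_mod_cast hm)⟩)
    have h2 : ∀ᶠ N : ℕ in atTop, β * (∑ x, h x) / 2 ≤ N := eventually_atTop.2 (by
      obtain ⟨n, hn⟩ := exists_nat_ge (β * (∑ x, h x) / 2)
      exact ⟨n, fun m hm => hn.trans (by exact_mod_cast hm)⟩)
    filter_upwards [h1, h2, eventually_gt_atTop 0] with N hN1 hN2 hN0
    have hN' : (0 : ℝ) < N := by exact_mod_cast hN0
    refine ⟨isLaw_phys' L hβ.le hN1, fun z => ?_⟩
    unfold th
    split_ifs with hz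
    · unfold blk
      split_ifs
      · exact ⟨hT, hT1⟩
      · exact ⟨le_rfl, zero_le_one⟩
    · constructor
      · exact div_nonneg (mul_nonneg hβ.le (hh _)) (by positivity)
      · rw [div_le_one (by positivity)]
        have h3 : h z.2 ≤ ∑ x, h x := Finset.single_le_sum (fun x _ => hh x) (Finset.mem_univ _)
        have h4 : β * h z.2 ≤ β * ∑ x, h x := mul_le_mul_of_nonneg_left h3 hβ.le
        linarith
  refine twist_limit (stepM_tendsto L β h) b _ hκ ?_ ?_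
  · filter_upwards [hgood] with N hN φ
    obtain ⟨hl, ht⟩ := hN
    unfold ZTw
    rw [← Zf_phys]
    exact Zf_nonneg hl.nonneg (fun z => (ht z).1) (ZZ_pos hl fun z => (ht z).1)
      (hSR _ _ _ hl ht) _ φ
  · filter_upwards [hgood] with N hN
    obtain ⟨hl, ht⟩ := hN
    unfold ZTw
    simp only [← Zf_phys]
    exact kap_int hl.nonneg (fun z => (ht z).1) (ZZ_pos hl fun z => (ht z).1) (hSR _ _ _ hl ht) _

end

end Vale.Agent.P361.LRO
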