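import Vale.Agent.P361.LRO.Defs
import Vale.Agent.P361.LRO.Tw.Scalar

/-!
P361, block (1): the twist of a block. Strong Rayleigh property and spin flip symmetry give
`E cos (φ Q) = ∏ (1 - p_j (1 - cos φ))` with `0 ≤ p_j ≤ 1/2`.
-/

namespace Vale.Agent.P361.LRO.TwR

open Finset Polynomial

/-- A real polynomial all of whose complex roots are real and `≤ -1`. -/
theorem exists_prod_of_roots (G : ℝ[X]) (h0 : G ≠ 0)
    (hG : ∀ τ : ℂ, (G.map (algebraMap ℝ ℂ)).eval τ = 0 → ∃ r : ℝ, r ≤ -1 ∧ τ = r) :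
    ∃ (m : ℕ) (p : Fin m → ℝ), (∀ j, 0 ≤ p j ∧ p j ≤ 1 / 2) ∧
      (∀ t : ℝ, G.eval t = G.eval 1 * ∏ j, (1 - p j * (1 - t))) ∧
      (derivative G).eval 1 = G.eval 1 * ∑ j, p j := by
  classical
  set F : ℂ[X] := G.map (algebraMap ℝ ℂ) with hF
  have hF0 : F ≠ 0 := by
    rw [hF]
    exact (Polynomial.map_ne_zero_iff (algebraMap ℝ ℂ).injective).2 h0
  have hsp : F.Splits := IsAlgClosed.splits F
  have hev : ∀ x : ℂ, F.eval x = F.leadingCoeff * (F.roots.map (x - ·)).prod :=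
    hsp.eval_eq_prod_roots
  set l : List ℂ := F.roots.toList with hl
  have hmem : ∀ z ∈ l, ∃ r : ℝ, r ≤ -1 ∧ z = r := by
    intro z hz
    rw [hl, Multiset.mem_toList, Polynomial.mem_roots hF0] at hz
    exact hG z hz
  have hpr : ∀ x : ℂ, (F.roots.map (x - ·)).prod = ∏ j : Fin l.length, (x - l.get j) := by
    intro x
    have h1 : F.roots = (l : Multiset ℂ) := by rw [hl]; simp
    rw [h1, Multiset.map_coe, Multiset.prod_coe]
    rw [← List.prod_ofFn]
    congr 1
    apply List.ext_get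
    · simp
    · intro i h2 h3
      simp
  choose! r hr1 hr2 using fun j : Fin l.length => hmem (l.get j) (List.get_mem l j)
  have hr3 : ∀ j, (1 : ℝ) - r j ≠ 0 := fun j => by have := hr1 j; linarith
  have hev2 : ∀ t : ℝ, G.eval t = G.eval 1 * ∏ j, (1 - (1 / (1 - r j)) * (1 - t)) := by
    intro t
    have hc : ∀ x : ℝ, ((G.eval x : ℝ) : ℂ) = F.leadingCoeff * ∏ j, ((x : ℂ) - r j) := by
      intro x
      have h1 : F.eval (x : ℂ) = ((G.eval x : ℝ) : ℂ) := by
        rw [hF, Polynomial.eval_map_algebraMap]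
        have := Polynomial.aeval_algebraMap_apply (A := ℝ) ℂ x G
        simpa using this
      rw [← h1, hev, hpr]
      congr 1
      exact Finset.prod_congr rfl fun j _ => by rw [hr2 j]
    have h2 : (((G.eval t : ℝ)) : ℂ) =
        ((G.eval 1 * ∏ j, (1 - (1 / (1 - r j)) * (1 - t)) : ℝ) : ℂ) := by
      rw [hc t, Complex.ofReal_mul, hc 1, mul_assoc]
      congr 1
      rw [Complex.ofReal_prod, ← Finset.prod_mul_distrib]
      refine Finset.prod_congr rfl fun j _ => ?_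
      have h3 : ((t - r j : ℝ) : ℂ) = (((1 - r j) * (1 - (1 / (1 - r j)) * (1 - t)) : ℝ) : ℂ) := by
        congr 1
        field_simp [hr3 j]
        ring
      push_cast at h3 ⊢
      exact h3
    exact_mod_cast h2
  refine ⟨l.length, fun j => 1 / (1 - r j), fun j => ⟨?_, ?_⟩, hev2, ?_⟩
  · have := hr1 j
    exact div_nonneg zero_le_one (by linarith)
  · have := hr1 j
    rw [div_le_div_iff₀ (by linarith) (by norm_num)]
    linarith
  · have hd1 : HasDerivAt (fun t => G.eval t) ((derivative G).eval 1) 1 := G.hasDerivAt 1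
    have hd2 := hasDerivAt_zt (G.eval 1) (fun j => 1 / (1 - r j)) 1
    have hfun : (fun t => G.eval t) = zt (G.eval 1) (fun j => 1 / (1 - r j)) := by
      funext t
      exact hev2 t
    rw [hfun] at hd1
    have h4 := hd1.unique hd2
    rw [h4]
    congr 1
    refine Finset.sum_congr rfl fun j _ => ?_
    simp

section

variable {X : Type} [Fintype X] [DecidableEq X]

/-- The exponent `1 + j_x`. -/
def ex (π : Equiv.Perm X) (s : X → Fin 2) (x : X) : ℕ :=
  if s x = s (π x) then 1 else if s x = 1 then 2 else 0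

omit [Fintype X] [DecidableEq X] in
theorem jj_eq_ex (π : Equiv.Perm X) (s : X → Fin 2) (x : X) :
    jj π s x = (ex π s x : ℝ) - 1 := by
  unfold jj ex
  rcases Fin.exists_fin_two.1 ⟨s x, rfl⟩ with h | h <;>
    rcases Fin.exists_fin_two.1 ⟨s (π x), rfl⟩ with h' | h' <;> rw [h, h'] <;> norm_num

theorem sum_ex (π : Equiv.Perm X) (s : X → Fin 2) : ∑ x, ex π s x = Fintype.card X := by
  have h1 : ∑ x, jj π s x = 0 := by
    unfold jj
    rw [Finset.sum_sub_distrib, sub_eq_zero]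
    exact (Equiv.sum_comp π fun x => ((s x : ℕ) : ℝ)).symm
  have h2 : (∑ x, (ex π s x : ℝ)) = Fintype.card X := by
    have h3 : ∑ x, jj π s x = ∑ x, (ex π s x : ℝ) - Fintype.card X := by
      simp only [jj_eq_ex, Finset.sum_sub_distrib, Finset.sum_const, Finset.card_univ,
        nsmul_eq_mul, mul_one]
    linarith
  exact_mod_cast h2

/-- The integer charge of the set `B`. -/
def qz (B : Finset X) (π : Equiv.Perm X) (s : X → Fin 2) : ℤ :=
  (∑ x ∈ B, (ex π s x : ℤ)) - B.card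

theorem qz_cast (B : Finset X) (π : Equiv.Perm X) (s : X → Fin 2) :
    ((qz B π s : ℤ) : ℝ) = ∑ x ∈ B, jj π s x := by
  unfold qz
  simp only [jj_eq_ex, Finset.sum_sub_distrib, Finset.sum_const, nsmul_eq_mul, mul_one]
  push_cast
  ring

/-- The spin flip. -/
def flipE : (X → Fin 2) ≃ (X → Fin 2) :=
  Equiv.arrowCongr (Equiv.refl X) (Equiv.swap 0 1)

omit [Fintype X] [DecidableEq X] in
theorem flipE_apply (s : X → Fin 2) (x : X) : flipE s x = Equiv.swap 0 1 (s x) := by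
  simp [flipE, Equiv.arrowCongr]

theorem wt_flipE (θ : X → ℝ) (π : Equiv.Perm X) (s : X → Fin 2) :
    wt θ π (flipE s) = wt θ π s := by
  unfold wt
  refine Finset.prod_congr rfl fun x _ => ?_
  simp only [flipE_apply, (Equiv.swap (0 : Fin 2) 1).injective.eq_iff]

theorem qz_flipE (B : Finset X) (π : Equiv.Perm X) (s : X → Fin 2) :
    qz B π (flipE s) = - qz B π s := by
  have h1 : ((qz B π (flipE s) : ℤ) : ℝ) = ((- qz B π s : ℤ) : ℝ) := by
    push_cast
    rw [qz_cast, qz_cast, ← Finset.sum_neg_distrib]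
    refine Finset.sum_congr rfl fun x _ => ?_
    unfold jj
    rw [flipE_apply, flipE_apply]
    have h2 : ∀ a : Fin 2, (((Equiv.swap (0 : Fin 2) 1 a : Fin 2) : ℕ) : ℝ) = 1 - ((a : ℕ) : ℝ) := by
      intro a
      fin_cases a <;> simp
    rw [h2, h2]
    ring
  exact_mod_cast h1

theorem gen_eq (μ : Equiv.Perm X → ℝ) (θ : X → ℝ) (ζ : X → ℂ) :
    gen μ θ ζ = ∑ π, ∑ s, ((μ π * wt θ π s : ℝ) : ℂ) * ∏ x, ζ x ^ ex π s x := by
  unfold gen
  refine Finset.sum_congr rfl fun π _ => Finset.sum_congr rfl fun s _ => ?_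
  congr 1
  refine Finset.prod_congr rfl fun x _ => ?_
  unfold ex
  split_ifs <;> simp

/-- `gen` with the variable `c z` on `B` and `c` elsewhere. -/
theorem gen_block (μ : Equiv.Perm X → ℝ) (θ : X → ℝ) (B : Finset X) (c z : ℂ) (hz : z ≠ 0) :
    gen μ θ (fun x => if x ∈ B then c * z else c) =
      c ^ Fintype.card X * z ^ B.card *
        ∑ π, ∑ s, ((μ π * wt θ π s : ℝ) : ℂ) * z ^ (qz B π s) := by
  rw [gen_eq]
  simp only [Finset.mul_sum]
  refine Finset.sum_congr rfl fun π _ => Finset.sum_congr rfl fun s _ => ?_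
  have h1 : ∏ x, (if x ∈ B then c * z else c) ^ ex π s x =
      c ^ Fintype.card X * ∏ x ∈ B, z ^ ex π s x := by
    have h2 : ∀ x, (if x ∈ B then c * z else c) ^ ex π s x =
        c ^ ex π s x * (if x ∈ B then z ^ ex π s x else 1) := by
      intro x
      split_ifs
      · rw [mul_pow]
      · rw [mul_one]
    simp only [h2, Finset.prod_mul_distrib, Finset.prod_pow_eq_pow_sum, sum_ex]
    congr 1
    rw [Finset.prod_ite_mem, Finset.univ_inter]
    exact Finset.prod_pow_eq_pow_sum B _ _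
  rw [h1, Finset.prod_pow_eq_pow_sum]
  have h3 : z ^ (∑ x ∈ B, ex π s x) = z ^ B.card * z ^ (qz B π s) := by
    rw [← zpow_natCast, ← zpow_natCast, ← zpow_add₀ hz]
    congr 1
    unfold qz
    push_cast
    ring
  rw [h3]
  ring

theorem sum_flip (μ : Equiv.Perm X → ℝ) (θ : X → ℝ) (B : Finset X) (z : ℂ) :
    ∑ π, ∑ s, ((μ π * wt θ π s : ℝ) : ℂ) * z ^ (qz B π s) =
      ∑ π, ∑ s, ((μ π * wt θ π s : ℝ) : ℂ) * z ^ (- qz B π s) := by
  refine Finset.sum_congr rfl fun π _ => ?_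
  rw [← Equiv.sum_comp (flipE (X := X))]
  refine Finset.sum_congr rfl fun s _ => ?_
  rw [wt_flipE, qz_flipE]

/-- The twist polynomial. -/
noncomputable def twG (μ : Equiv.Perm X → ℝ) (θ : X → ℝ) (B : Finset X) : ℝ[X] :=
  ∑ π : Equiv.Perm X, ∑ s : X → Fin 2, Polynomial.C (μ π * wt θ π s) * Chebyshev.T ℝ (qz B π s)

theorem twG_cos (μ : Equiv.Perm X → ℝ) (θ : X → ℝ) (B : Finset X) (φ : ℝ) :
    (twG μ θ B).eval (Real.cos φ) =
      ∑ π, ∑ s, μ π * wt θ π s * Real.cos (φ * ∑ x ∈ B, jj π s x) := by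
  unfold twG
  simp only [Polynomial.eval_finsetSum, Polynomial.eval_mul, Polynomial.eval_C]
  refine Finset.sum_congr rfl fun π _ => Finset.sum_congr rfl fun s _ => ?_
  rw [Chebyshev.T_real_cos, qz_cast, mul_comm φ]

theorem twG_one (μ : Equiv.Perm X → ℝ) (θ : X → ℝ) (B : Finset X) :
    (twG μ θ B).eval 1 = ZZ μ θ := by
  unfold twG ZZ
  simp only [Polynomial.eval_finsetSum, Polynomial.eval_mul, Polynomial.eval_C,
    Chebyshev.T_eval_one, mul_one]

theorem twG_deriv (μ : Equiv.Perm X → ℝ) (θ : X → ℝ) (B : Finset X) (hZ : ZZ μ θ ≠ 0) :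
    (derivative (twG μ θ B)).eval 1 =
      ZZ μ θ * KK μ θ (fun x => if x ∈ B then 1 else 0) := by
  unfold twG KK EE
  rw [mul_div_cancel₀ _ hZ]
  simp only [Polynomial.derivative_sum, Polynomial.derivative_C_mul, Polynomial.eval_finsetSum,
    Polynomial.eval_mul, Polynomial.eval_C, Chebyshev.derivative_T_eval_one]
  refine Finset.sum_congr rfl fun π _ => Finset.sum_congr rfl fun s _ => ?_
  rw [qz_cast]
  congr 2
  simp only [ite_mul, one_mul, zero_mul]
  rw [Finset.sum_ite_mem, Finset.univ_inter]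

theorem twG_complex (μ : Equiv.Perm X → ℝ) (θ : X → ℝ) (B : Finset X) (φ : ℂ) :
    ((twG μ θ B).map (algebraMap ℝ ℂ)).eval (Complex.cos φ) =
      ∑ π, ∑ s, ((μ π * wt θ π s : ℝ) : ℂ) * Complex.exp (φ * Complex.I) ^ (qz B π s) := by
  have h1 : ((twG μ θ B).map (algebraMap ℝ ℂ)).eval (Complex.cos φ) =
      ∑ π, ∑ s, ((μ π * wt θ π s : ℝ) : ℂ) * Complex.cos (qz B π s * φ) := by
    unfold twG
    simp only [Polynomial.map_sum, Polynomial.map_mul, Polynomial.map_C, Chebyshev.map_T,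
      Polynomial.eval_finsetSum, Polynomial.eval_mul, Polynomial.eval_C,
      Chebyshev.T_complex_cos]
    rfl
  have h2 : ∀ n : ℤ, Complex.cos (n * φ) =
      (Complex.exp (φ * Complex.I) ^ n + Complex.exp (φ * Complex.I) ^ (-n)) / 2 := by
    intro n
    rw [Complex.cos, ← Complex.exp_int_mul, ← Complex.exp_int_mul]
    congr 3
    · ring_nf
    · push_cast
      ring_nf
  rw [h1]
  simp only [h2]
  have h3 := sum_flip μ θ B (Complex.exp (φ * Complex.I))
  have h4 : ∑ π, ∑ s, ((μ π * wt θ π s : ℝ) : ℂ) *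
      ((Complex.exp (φ * Complex.I) ^ (qz B π s) +
        Complex.exp (φ * Complex.I) ^ (- qz B π s)) / 2) =
      (∑ π, ∑ s, ((μ π * wt θ π s : ℝ) : ℂ) * Complex.exp (φ * Complex.I) ^ (qz B π s) +
        ∑ π, ∑ s, ((μ π * wt θ π s : ℝ) : ℂ) *
          Complex.exp (φ * Complex.I) ^ (- qz B π s)) / 2 := by
    rw [← Finset.sum_add_distrib, Finset.sum_div]
    refine Finset.sum_congr rfl fun π _ => ?_
    rw [← Finset.sum_add_distrib, Finset.sum_div]
    refine Finset.sum_congr rfl fun s _ => ?_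
    ring
  rw [h4, ← h3]
  ring

/-- Stability: no zero of the block polynomial outside of the negative real axis. -/
theorem block_ne_zero {μ : Equiv.Perm X → ℝ} {θ : X → ℝ} (hst : Stable μ θ) (B : Finset X)
    {z : ℂ} (hz : z ≠ 0) (harg : z.arg ≠ Real.pi) :
    ∑ π, ∑ s, ((μ π * wt θ π s : ℝ) : ℂ) * z ^ (qz B π s) ≠ 0 := by
  intro h0
  set c : ℂ := Complex.exp (((Real.pi / 2 - z.arg / 2 : ℝ) : ℂ) * Complex.I) with hc
  have hlt : z.arg < Real.pi := lt_of_le_of_ne (Complex.arg_le_pi z) harg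
  have hgt : -Real.pi < z.arg := Complex.neg_pi_lt_arg z
  have hcos : 0 < Real.cos (z.arg / 2) :=
    Real.cos_pos_of_mem_Ioo ⟨by linarith, by linarith⟩
  have hc1 : 0 < c.im := by
    rw [hc, Complex.exp_ofReal_mul_I_im, Real.sin_pi_div_two_sub]
    exact hcos
  have hcz : c * z = (‖z‖ : ℂ) * Complex.exp (((Real.pi / 2 + z.arg / 2 : ℝ) : ℂ) * Complex.I) := by
    conv_lhs => rw [← Complex.norm_mul_exp_arg_mul_I z]
    rw [hc, mul_left_comm, ← Complex.exp_add]
    congr 2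
    push_cast
    ring
  have hcz1 : 0 < (c * z).im := by
    rw [hcz, Complex.im_ofReal_mul, Complex.exp_ofReal_mul_I_im, add_comm,
      Real.sin_add_pi_div_two]
    exact mul_pos (norm_pos_iff.2 hz) hcos
  have h1 := hst (fun x => if x ∈ B then c * z else c) (by
    intro x
    split_ifs
    · exact hcz1
    · exact hc1)
  apply h1
  rw [gen_block μ θ B c z hz, h0, mul_zero]

/-- All complex roots of the twist polynomial are real and `≤ -1`. -/
theorem twG_roots {μ : Equiv.Perm X → ℝ} {θ : X → ℝ} (hst : Stable μ θ) (B : Finset X) (τ : ℂ)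
    (hτ : ((twG μ θ B).map (algebraMap ℝ ℂ)).eval τ = 0) : ∃ r : ℝ, r ≤ -1 ∧ τ = r := by
  obtain ⟨φ, rfl⟩ := Complex.cos_surjective τ
  rw [twG_complex] at hτ
  set z : ℂ := Complex.exp (φ * Complex.I) with hz
  have hz0 : z ≠ 0 := Complex.exp_ne_zero _
  have harg : z.arg = Real.pi := by
    by_contra hne
    exact block_ne_zero hst B hz0 hne hτ
  have hzneg : z = -(‖z‖ : ℂ) := by
    conv_lhs => rw [← Complex.norm_mul_exp_arg_mul_I z]
    rw [harg, Complex.exp_pi_mul_I, mul_neg_one]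
  set r : ℝ := ‖z‖ with hr
  have hr0 : 0 < r := norm_pos_iff.2 hz0
  refine ⟨-((r + r⁻¹) / 2), ?_, ?_⟩
  · have h1 : 2 ≤ r + r⁻¹ := by
      have h2 : r * r⁻¹ = 1 := mul_inv_cancel₀ hr0.ne'
      have h3 : 0 < r⁻¹ := inv_pos.2 hr0
      nlinarith [sq_nonneg (r - r⁻¹)]
    linarith
  · have h1 : Complex.cos φ = (z + z⁻¹) / 2 := by
      rw [Complex.cos, hz, ← Complex.exp_neg, neg_mul]
    rw [h1, hzneg]
    push_cast
    rw [inv_neg]
    ring

/-- **The twist of a set of nodes.** -/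
theorem twist_factor (μ : Equiv.Perm X → ℝ) (θ : X → ℝ) (hst : Stable μ θ) (hZ : 0 < ZZ μ θ)
    (B : Finset X) :
    ∃ (m : ℕ) (p : Fin m → ℝ), (∀ j, 0 ≤ p j ∧ p j ≤ 1 / 2) ∧
      (∀ t : ℝ, (twG μ θ B).eval t = ZZ μ θ * ∏ j, (1 - p j * (1 - t))) ∧
      (∑ j, p j) = KK μ θ (fun x => if x ∈ B then 1 else 0) := by
  have h0 : twG μ θ B ≠ 0 := by
    intro h
    have := twG_one μ θ B
    rw [h] at this
    simp only [Polynomial.eval_zero] at this
    linarith
  obtain ⟨m, p, hp, h1, h2⟩ := exists_prod_of_roots (twG μ θ B) h0 (twG_roots hst B)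
  rw [twG_one] at h1 h2
  rw [twG_deriv μ θ B hZ.ne'] at h2
  exact ⟨m, p, hp, h1, (mul_left_cancel₀ hZ.ne' h2).symm⟩

/-- **The twist integral for a set of nodes.** -/
theorem twist_integral (μ : Equiv.Perm X → ℝ) (θ : X → ℝ) (hst : Stable μ θ) (hZ : 0 < ZZ μ θ)
    (B : Finset X) :
    KK μ θ (fun x => if x ∈ B then 1 else 0) *
        (∫ t in (-1 : ℝ)..1, (1 - t) * (twG μ θ B).eval t) ≤
      ∫ t in (-1 : ℝ)..1, (twG μ θ B).eval t := by
  obtain ⟨m, p, hp, h1, h2⟩ := twist_factor μ θ hst hZ B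
  have h3 : (fun t => (twG μ θ B).eval t) = zt (ZZ μ θ) p := by
    funext t
    exact h1 t
  have h4 : ∀ t, (twG μ θ B).eval t = zt (ZZ μ θ) p t := h1
  simp only [h4]
  rw [← h2]
  exact zint hZ.le (fun j => (hp j).1) fun j => (hp j).2

end

end Vale.Agent.P361.LRO.TwR
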