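import Vale.Agent.P361.LRO.Tw.Factor
import Vale.Agent.P361.LRO.Tw.Defs
import Vale.Agent.P361.LRO.Dict.Base
import Vale.Agent.P361.LRO.Bridge.Tens

/-!
P361, block (1): the twisted dictionary. `∑ μ wt cos (φ Q_B)` is the loop sum with the
slices `1 + θ (cos φ σ³ + sin φ σ¹)` on `B` and `1 + θ σ³` off `B`.
-/

namespace Vale.Agent.P361.LRO

open Finset Matrix

noncomputable section

variable {X : Type} [Fintype X] [DecidableEq X]

/-- The slice in the charge picture with the twist `c = e^{iφ}`. -/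
def chA (θ : ℝ) (c d : ℂ) : Matrix (Fin 2) (Fin 2) ℂ := !![1, θ * d; θ * c, 1]

theorem chA_apply (θ φ : ℝ) (a b : Fin 2) :
    chA θ (Complex.exp (φ * Complex.I)) (Complex.exp (-(φ * Complex.I))) a b =
      ((if a = b then 1 else θ : ℝ) : ℂ) *
        Complex.exp ((φ * (((a : ℕ) : ℝ) - ((b : ℕ) : ℝ)) : ℝ) * Complex.I) := by
  fin_cases a <;> fin_cases b <;> simp [chA] 

theorem chA_apply_one (θ : ℝ) (a b : Fin 2) :
    chA θ 1 1 a b = ((if a = b then 1 else θ : ℝ) : ℂ) := by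
  fin_cases a <;> fin_cases b <;> simp [chA]

def rotU : Matrix (Fin 2) (Fin 2) ℂ := !![1, 1; Complex.I, -Complex.I]
def rotW : Matrix (Fin 2) (Fin 2) ℂ := !![1 / 2, -Complex.I / 2; 1 / 2, Complex.I / 2]

theorem rotW_mul_rotU : rotW * rotU = 1 := by
  unfold rotW rotU
  ext i j
  fin_cases i <;> fin_cases j <;> simp [Matrix.mul_apply, Fin.sum_univ_two] <;> ring_nf <;>
    simp [Complex.I_sq] <;> norm_num

theorem rotU_chA (θ φ : ℝ) :
    rotU * chA θ (Complex.exp (φ * Complex.I)) (Complex.exp (-(φ * Complex.I))) * rotW =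
      (rotM θ φ).map (algebraMap ℝ ℂ) := by
  have h1 : Complex.exp (φ * Complex.I) = Complex.cos φ + Complex.sin φ * Complex.I := by
    rw [Complex.exp_mul_I]
  have h2 : Complex.exp (-(φ * Complex.I)) = Complex.cos φ - Complex.sin φ * Complex.I := by
    rw [← neg_mul, Complex.exp_mul_I, Complex.cos_neg, Complex.sin_neg]
    ring
  rw [h1, h2]
  unfold rotU rotW chA rotM
  ext i j
  fin_cases i <;> fin_cases j <;>
    simp [Matrix.mul_apply, Fin.sum_univ_two] <;> ring_nf <;> simp [Complex.I_sq] <;> ring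

theorem rotU_chA_one (θ : ℝ) :
    rotU * chA θ 1 1 * rotW = (rotM θ 0).map (algebraMap ℝ ℂ) := by
  have h := rotU_chA θ 0
  simpa using h

/-- The slices in the spin picture. -/
def spA (θ : X → ℝ) (B : Finset X) (φ : ℝ) (z : X) : Matrix (Fin 2) (Fin 2) ℝ :=
  if z ∈ B then rotM (θ z) φ else rotM (θ z) 0

/-- The slices in the charge picture. -/
def caA (θ : X → ℝ) (B : Finset X) (φ : ℝ) (z : X) : Matrix (Fin 2) (Fin 2) ℂ :=
  if z ∈ B then chA (θ z) (Complex.exp (φ * Complex.I)) (Complex.exp (-(φ * Complex.I)))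
  else chA (θ z) 1 1

omit [Fintype X] in
theorem rotU_caA (θ : X → ℝ) (B : Finset X) (φ : ℝ) (z : X) :
    rotU * caA θ B φ z * rotW = (spA θ B φ z).map (algebraMap ℝ ℂ) := by
  unfold caA spA
  split_ifs
  · exact rotU_chA _ _
  · exact rotU_chA_one _

theorem prod_caA (θ : X → ℝ) (B : Finset X) (φ : ℝ) (π : Equiv.Perm X) (s : X → Fin 2) :
    ∏ z, caA θ B φ z (s z) (s (π z)) =
      (wt θ π s : ℂ) * Complex.exp ((φ * ∑ z ∈ B, jj π s z : ℝ) * Complex.I) := by
  have h1 : ∀ z, caA θ B φ z (s z) (s (π z)) =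
      ((if s z = s (π z) then 1 else θ z : ℝ) : ℂ) *
        (if z ∈ B then Complex.exp ((φ * jj π s z : ℝ) * Complex.I) else 1) := by
    intro z
    unfold caA jj
    by_cases hz : z ∈ B
    · rw [if_pos hz, if_pos hz, chA_apply]
    · rw [if_neg hz, if_neg hz, chA_apply_one, mul_one]
  simp only [h1, Finset.prod_mul_distrib]
  congr 1
  · unfold wt
    push_cast
    rfl
  · rw [Finset.prod_ite_mem, Finset.univ_inter, ← Complex.exp_sum]
    congr 1
    rw [Finset.mul_sum]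
    push_cast
    rw [Finset.sum_mul]

/-- **Twisted dictionary**: `∑ μ wt cos (φ Q_B)` in the spin picture. -/
theorem Zf_eq_NZ (μ : Equiv.Perm X → ℝ) (θ : X → ℝ) (B : Finset X) (φ : ℝ) :
    Zf μ θ B φ = Dict.NZ μ (spA θ B φ) := by
  have h1 : (Br.NZ μ (caA θ B φ)) = Br.NZ μ (fun z => (spA θ B φ z).map (algebraMap ℝ ℂ)) := by
    rw [← Br.NZ_conj μ (caA θ B φ) rotW_mul_rotU]
    congr 1
    funext z
    exact rotU_caA θ B φ z
  have h2 : Br.NZ μ (fun z => (spA θ B φ z).map (algebraMap ℝ ℂ)) =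
      ((Dict.NZ μ (spA θ B φ) : ℝ) : ℂ) := by
    unfold Br.NZ Dict.NZ
    push_cast
    refine Finset.sum_congr rfl fun π _ => ?_
    rw [smul_eq_mul, Complex.ofReal_mul, Complex.real_smul]
    congr 1
    push_cast
    rfl
  have h3 : (Br.NZ μ (caA θ B φ)).re = Zf μ θ B φ := by
    unfold Br.NZ Zf
    rw [Complex.re_sum]
    refine Finset.sum_congr rfl fun π _ => ?_
    rw [Complex.real_smul, Complex.re_ofReal_mul, Complex.re_sum, Finset.mul_sum]
    refine Finset.sum_congr rfl fun s _ => ?_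
    rw [prod_caA, Complex.re_ofReal_mul, Complex.exp_ofReal_mul_I_re]
    ring
  rw [← h3, h1, h2, Complex.ofReal_re]

end

end Vale.Agent.P361.LRO
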