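import Vale.Agent.P361.LRO.Tw.Subset

/-!
Block (1) of the low temperature order proof (P361): binomial sums over the subsets of the block.
-/

namespace Vale.Agent.P361.LRO.Tw

open Finset

set_option linter.unusedSectionVars false

variable {V : Type} [DecidableEq V]

theorem sum_pow_card (b : Finset V) (g : ℕ → ℝ) :
    ∑ A ∈ b.powerset, g A.card = ∑ k ∈ range (b.card + 1), (b.card.choose k : ℝ) * g k := by
  rw [Finset.sum_powerset_apply_card]
  refine Finset.sum_congr rfl fun k _ => ?_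
  rw [nsmul_eq_mul]

/-- `∑_k C(n,k) x^k y^{n-k} / (k+1)` -/
theorem bin_one (x y : ℝ) (n : ℕ) :
    ((n : ℝ) + 1) * x * ∑ k ∈ range (n + 1), (n.choose k : ℝ) * (x ^ k * y ^ (n - k) * ((k : ℝ) + 1)⁻¹)
      = (x + y) ^ (n + 1) - y ^ (n + 1) := by
  have hexp : (x + y) ^ (n + 1) = ∑ k ∈ range (n + 1),
      x ^ (k + 1) * y ^ (n + 1 - (k + 1)) * ((n + 1).choose (k + 1) : ℝ) + y ^ (n + 1) := by
    rw [add_pow, Finset.sum_range_succ']; simp
  rw [hexp, add_sub_cancel_right, Finset.mul_sum]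
  refine Finset.sum_congr rfl fun k hk => ?_
  have h := Nat.add_one_mul_choose_eq n k
  have h' : ((n : ℝ) + 1) * (n.choose k : ℝ) = ((n + 1).choose (k + 1) : ℝ) * ((k : ℝ) + 1) := by
    exact_mod_cast h
  have hk1 : ((k : ℝ) + 1) ≠ 0 := by positivity
  have e : n + 1 - (k + 1) = n - k := by omega
  rw [e]
  calc ((n : ℝ) + 1) * x * ((n.choose k : ℝ) * (x ^ k * y ^ (n - k) * ((k : ℝ) + 1)⁻¹))
      = (((n : ℝ) + 1) * (n.choose k : ℝ)) * (x ^ (k + 1) * y ^ (n - k) * ((k : ℝ) + 1)⁻¹) := by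
        ring
    _ = ((n + 1).choose (k + 1) : ℝ) * ((k : ℝ) + 1)
          * (x ^ (k + 1) * y ^ (n - k) * ((k : ℝ) + 1)⁻¹) := by rw [h']
    _ = x ^ (k + 1) * y ^ (n - k) * ((n + 1).choose (k + 1) : ℝ) := by
        field_simp

theorem bin_two (x y : ℝ) (n : ℕ) :
    ((n : ℝ) + 1) * ((n : ℝ) + 2) * x ^ 2 * ∑ k ∈ range (n + 1),
      (n.choose k : ℝ) * (x ^ k * y ^ (n - k) * (((k : ℝ) + 1) * ((k : ℝ) + 2))⁻¹)
      = (x + y) ^ (n + 2) - y ^ (n + 2) - ((n : ℝ) + 2) * x * y ^ (n + 1) := by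
  have hexp : (x + y) ^ (n + 2) = ∑ k ∈ range (n + 1),
      x ^ (k + 1 + 1) * y ^ (n + 2 - (k + 1 + 1)) * ((n + 2).choose (k + 1 + 1) : ℝ)
      + x * y ^ (n + 1) * ((n + 2 : ℕ) : ℝ) + y ^ (n + 2) := by
    rw [add_pow, Finset.sum_range_succ', Finset.sum_range_succ']; simp
  rw [hexp]
  have e1 : ∀ S : ℝ, S + x * y ^ (n + 1) * ((n + 2 : ℕ) : ℝ) + y ^ (n + 2) - y ^ (n + 2)
      - ((n : ℝ) + 2) * x * y ^ (n + 1) = S := by
    intro S; push_cast; ring
  rw [e1, Finset.mul_sum]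
  refine Finset.sum_congr rfl fun k hk => ?_
  have h := Nat.add_one_mul_choose_eq n k
  have h' : ((n : ℝ) + 1) * (n.choose k : ℝ) = ((n + 1).choose (k + 1) : ℝ) * ((k : ℝ) + 1) := by
    exact_mod_cast h
  have g := Nat.add_one_mul_choose_eq (n + 1) (k + 1)
  have g' : ((n : ℝ) + 2) * ((n + 1).choose (k + 1) : ℝ)
      = ((n + 2).choose (k + 2) : ℝ) * ((k : ℝ) + 2) := by
    have : (((n + 1 : ℕ) : ℝ) + 1) * ((n + 1).choose (k + 1) : ℝ)
      = ((n + 2).choose (k + 2) : ℝ) * (((k + 1 : ℕ) : ℝ) + 1) := by exact_mod_cast g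
    push_cast at this
    linarith
  have hk1 : ((k : ℝ) + 1) ≠ 0 := by positivity
  have hk2 : ((k : ℝ) + 2) ≠ 0 := by positivity
  have e : n + 2 - (k + 1 + 1) = n - k := by omega
  rw [e]
  calc ((n : ℝ) + 1) * ((n : ℝ) + 2) * x ^ 2 *
        ((n.choose k : ℝ) * (x ^ k * y ^ (n - k) * (((k : ℝ) + 1) * ((k : ℝ) + 2))⁻¹))
      = ((n : ℝ) + 2) * (((n : ℝ) + 1) * (n.choose k : ℝ)) *
          (x ^ (k + 2) * y ^ (n - k) * (((k : ℝ) + 1) * ((k : ℝ) + 2))⁻¹) := by ring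
    _ = (((n : ℝ) + 2) * ((n + 1).choose (k + 1) : ℝ)) * ((k : ℝ) + 1) *
          (x ^ (k + 2) * y ^ (n - k) * (((k : ℝ) + 1) * ((k : ℝ) + 2))⁻¹) := by rw [h']; ring
    _ = ((n + 2).choose (k + 2) : ℝ) * ((k : ℝ) + 2) * ((k : ℝ) + 1) *
          (x ^ (k + 2) * y ^ (n - k) * (((k : ℝ) + 1) * ((k : ℝ) + 2))⁻¹) := by rw [g']
    _ = x ^ (k + 1 + 1) * y ^ (n - k) * ((n + 2).choose (k + 1 + 1) : ℝ) := by
        field_simp

/-- Upper bound for the first sum. -/
theorem sum_one_le {x y : ℝ} (hx : 0 < x) (hy : 0 ≤ y) (b : Finset V) :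
    ∑ A ∈ b.powerset, x ^ A.card * y ^ (b.card - A.card) * ((A.card : ℝ) + 1)⁻¹
      ≤ (x + y) ^ (b.card + 1) / (((b.card : ℝ) + 1) * x) := by
  have h := sum_pow_card b (fun k => x ^ k * y ^ (b.card - k) * ((k : ℝ) + 1)⁻¹)
  rw [h, le_div_iff₀ (by positivity), mul_comm, bin_one]
  have := pow_nonneg hy (b.card + 1)
  linarith

/-- Lower bound for the second sum. -/
theorem le_sum_two {x y : ℝ} (hx : 0 < x) (hy : 0 ≤ y) (b : Finset V)
    (h6 : 6 * (x + y) ≤ (b.card : ℝ) * x) :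
    (2 / 3) * ((x + y) ^ (b.card + 1) / (((b.card : ℝ) + 1) * x)) ≤
      ∑ A ∈ b.powerset, x ^ A.card * y ^ (b.card - A.card) *
        (((A.card : ℝ) + 1) * ((A.card : ℝ) + 2))⁻¹ * (A.card : ℝ) := by
  have h := sum_pow_card b (fun k => x ^ k * y ^ (b.card - k) *
        (((k : ℝ) + 1) * ((k : ℝ) + 2))⁻¹ * (k : ℝ))
  rw [h]
  have hsplit : ∑ k ∈ range (b.card + 1), (b.card.choose k : ℝ) * (x ^ k * y ^ (b.card - k) *
        (((k : ℝ) + 1) * ((k : ℝ) + 2))⁻¹ * (k : ℝ))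
      = ∑ k ∈ range (b.card + 1), (b.card.choose k : ℝ) * (x ^ k * y ^ (b.card - k) * ((k : ℝ) + 1)⁻¹)
        - 2 * ∑ k ∈ range (b.card + 1),
          (b.card.choose k : ℝ) * (x ^ k * y ^ (b.card - k) * (((k : ℝ) + 1) * ((k : ℝ) + 2))⁻¹) := by
    rw [Finset.mul_sum, ← Finset.sum_sub_distrib]
    refine Finset.sum_congr rfl fun k _ => ?_
    have hk1 : ((k : ℝ) + 1) ≠ 0 := by positivity
    have hk2 : ((k : ℝ) + 2) ≠ 0 := by positivity
    field_simp
    ring
  rw [hsplit]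
  set F1 := ∑ k ∈ range (b.card + 1),
    (b.card.choose k : ℝ) * (x ^ k * y ^ (b.card - k) * ((k : ℝ) + 1)⁻¹) with hF1
  set F2 := ∑ k ∈ range (b.card + 1),
    (b.card.choose k : ℝ) * (x ^ k * y ^ (b.card - k) * (((k : ℝ) + 1) * ((k : ℝ) + 2))⁻¹) with hF2
  have h1 := bin_one x y b.card
  have h2 := bin_two x y b.card
  rw [← hF1] at h1
  rw [← hF2] at h2
  set n : ℝ := (b.card : ℝ) with hn
  have hn0 : 0 ≤ n := by positivity
  set W := (x + y) ^ (b.card + 1) with hW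
  set Y := y ^ (b.card + 1) with hY
  have hW2 : (x + y) ^ (b.card + 2) = (x + y) * W := by rw [hW]; ring
  have hY2 : y ^ (b.card + 2) = y * Y := by rw [hY]; ring
  rw [hW2, hY2] at h2
  have hWY : 0 ≤ Y := by rw [hY]; positivity
  have hWpos : 0 ≤ W := by rw [hW]; positivity
  have hF1' : F1 = (W - Y) / ((n + 1) * x) := by
    rw [eq_div_iff (by positivity)]; linarith
  have hF2' : F2 = ((x + y) * W - y * Y - (n + 2) * x * Y) / ((n + 1) * (n + 2) * x ^ 2) := by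
    rw [eq_div_iff (by positivity)]; linarith
  have key : (n + 1) * (n + 2) * x ^ 2 * (F1 - 2 * F2)
      = (n + 2) * x * (W - Y) - 2 * ((x + y) * W - y * Y - (n + 2) * x * Y) := by
    rw [hF1', hF2']
    field_simp
  have goal' : (n + 1) * (n + 2) * x ^ 2 * ((2 / 3) * (W / ((n + 1) * x)))
      ≤ (n + 1) * (n + 2) * x ^ 2 * (F1 - 2 * F2) := by
    rw [key]
    have e : (n + 1) * (n + 2) * x ^ 2 * ((2 / 3) * (W / ((n + 1) * x)))
        = (2 / 3) * ((n + 2) * x * W) := by field_simp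
    rw [e]
    have p1 : 2 * (x + y) * W ≤ (1 / 3) * ((n + 2) * x * W) := by
      have : 2 * (x + y) ≤ (1 / 3) * ((n + 2) * x) := by nlinarith
      nlinarith
    have p2 : 0 ≤ (n + 2) * x * Y := by positivity
    have p3 : 0 ≤ y * Y := by positivity
    nlinarith
  exact le_of_mul_le_mul_left goal' (by positivity)

/-- The weights of the subsets containing `x` and `y`. -/
theorem sum_pair {X Y : ℝ} (b : Finset V) {x y : V} (hx : x ∈ b) (hy : y ∈ b) (hxy : x ≠ y) :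
    ∑ A ∈ b.powerset, (if x ∈ A ∧ y ∈ A then X ^ A.card * Y ^ (b.card - A.card) else 0)
      = X ^ 2 * (X + Y) ^ (b.card - 2) := by
  have h := Finset.prod_add (fun _ : V => X) (fun z => if z ≠ x ∧ z ≠ y then Y else 0) b
  have e1 : ∏ z ∈ b, (X + if z ≠ x ∧ z ≠ y then Y else 0) = X ^ 2 * (X + Y) ^ (b.card - 2) := by
    have hb : b = insert x (insert y ((b.erase x).erase y)) := by
      rw [Finset.insert_erase (Finset.mem_erase.2 ⟨hxy.symm, hy⟩), Finset.insert_erase hx]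
    have hc : ((b.erase x).erase y).card = b.card - 2 := by
      rw [Finset.card_erase_of_mem (Finset.mem_erase.2 ⟨hxy.symm, hy⟩),
        Finset.card_erase_of_mem hx]
      omega
    have hy' : y ∉ (b.erase x).erase y := Finset.notMem_erase y _
    have hx' : x ∉ insert y ((b.erase x).erase y) := by
      rw [Finset.insert_erase (Finset.mem_erase.2 ⟨hxy.symm, hy⟩)]
      exact Finset.notMem_erase x b
    have hprod : ∏ z ∈ (b.erase x).erase y, (X + if z ≠ x ∧ z ≠ y then Y else 0)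
        = (X + Y) ^ (b.card - 2) := by
      rw [← hc, ← Finset.prod_const]
      refine Finset.prod_congr rfl fun z hz => ?_
      have h1 : z ≠ y := (Finset.mem_erase.1 hz).1
      have h2 : z ≠ x := (Finset.mem_erase.1 (Finset.mem_erase.1 hz).2).1
      rw [if_pos ⟨h2, h1⟩]
    conv_lhs => rw [hb]
    rw [Finset.prod_insert hx', Finset.prod_insert hy', hprod]
    simp
    ring
  rw [e1] at h
  rw [h]
  refine Finset.sum_congr rfl fun A hA => ?_
  have hAb : A ⊆ b := Finset.mem_powerset.1 hA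
  rw [Finset.prod_const, Finset.prod_ite_zero, Finset.prod_const,
    Finset.card_sdiff_of_subset hAb]
  by_cases hm : x ∈ A ∧ y ∈ A
  · rw [if_pos hm, if_pos]
    intro z hz
    have hz' := (Finset.mem_sdiff.1 hz).2
    exact ⟨fun h' => hz' (h' ▸ hm.1), fun h' => hz' (h' ▸ hm.2)⟩
  · rw [if_neg hm, if_neg, mul_zero]
    intro h'
    apply hm
    constructor
    · by_contra hxA
      exact (h' x (Finset.mem_sdiff.2 ⟨hx, hxA⟩)).1 rfl
    · by_contra hyA
      exact (h' y (Finset.mem_sdiff.2 ⟨hy, hyA⟩)).2 rfl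

/-- Sums of `f |A|` over the subsets containing `x` do not depend on `x`. -/
theorem sum_mem_eq (b : Finset V) {x : V} (hx : x ∈ b) (f : ℕ → ℝ) :
    ∑ A ∈ b.powerset, (if x ∈ A then f A.card else 0)
      = ∑ k ∈ range b.card, ((b.card - 1).choose k : ℝ) * f (k + 1) := by
  have hb : b = insert x (b.erase x) := (Finset.insert_erase hx).symm
  have hxe : x ∉ b.erase x := Finset.notMem_erase x b
  have hpos : 0 < b.card := Finset.card_pos.2 ⟨x, hx⟩
  conv_lhs => rw [hb]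
  rw [Finset.sum_powerset_insert hxe]
  have e1 : ∑ A ∈ (b.erase x).powerset, (if x ∈ A then f A.card else 0) = 0 := by
    refine Finset.sum_eq_zero fun A hA => ?_
    rw [if_neg fun h => hxe (Finset.mem_powerset.1 hA h)]
  have e2 : ∑ A ∈ (b.erase x).powerset, (if x ∈ insert x A then f (insert x A).card else 0)
      = ∑ A ∈ (b.erase x).powerset, f (A.card + 1) := by
    refine Finset.sum_congr rfl fun A hA => ?_
    rw [if_pos (Finset.mem_insert_self x A), Finset.card_insert_of_notMem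
      fun h => hxe (Finset.mem_powerset.1 hA h)]
  rw [e1, e2, zero_add]
  have h := sum_pow_card (b.erase x) (fun k => f (k + 1))
  rw [h, Finset.card_erase_of_mem hx, Nat.sub_add_cancel hpos]

/-- `∑_A f |A| ∑_{x ∈ A} r_x = (avg r) ∑_A f |A| |A|`. -/
theorem sum_mem_avg (b : Finset V) (f : ℕ → ℝ) (r : V → ℝ) :
    (b.card : ℝ) * ∑ A ∈ b.powerset, f A.card * ∑ x ∈ A, r x
      = (∑ A ∈ b.powerset, f A.card * (A.card : ℝ)) * ∑ x ∈ b, r x := by
  set G := ∑ k ∈ range b.card, ((b.card - 1).choose k : ℝ) * f (k + 1) with hG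
  have hgen : ∀ s : V → ℝ, ∑ A ∈ b.powerset, f A.card * ∑ x ∈ A, s x = G * ∑ x ∈ b, s x := by
    intro s
    have h1 : ∑ A ∈ b.powerset, f A.card * ∑ x ∈ A, s x
        = ∑ A ∈ b.powerset, ∑ x ∈ b, s x * (if x ∈ A then f A.card else 0) := by
      refine Finset.sum_congr rfl fun A hA => ?_
      have hAb : A ⊆ b := Finset.mem_powerset.1 hA
      rw [Finset.mul_sum, ← Finset.sum_subset hAb]
      · refine Finset.sum_congr rfl fun x hx => ?_
        rw [if_pos hx, mul_comm]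
      · intro x _ hx; rw [if_neg hx, mul_zero]
    rw [h1, Finset.sum_comm, Finset.mul_sum]
    refine Finset.sum_congr rfl fun x hx => ?_
    rw [← Finset.mul_sum, sum_mem_eq b hx f, mul_comm]
  have h1 := hgen (fun _ => 1)
  simp only [Finset.sum_const, nsmul_eq_mul, mul_one] at h1
  rw [hgen r, h1]
  ring

end Vale.Agent.P361.LRO.Tw
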