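import Mathlib

/-!
# P361, long-range order, block (1): the block twist on the symmetric subspace (helper365)

`ι` = sites of the block, `N = card ι`.  `R` = (reduced) density matrix of the block, real, positive
semidefinite, commuting with `S³` (i.e. `R v v' = 0` unless `v, v'` have the same number of up spins).
`Wt c s t = ∏ (c + s (t σ³ + √(1-t²) σ¹))`.  No Casimir operator, no integral over the sphere.
-/

open Finset MeasureTheory

namespace Vale.Agent.P361.LRO.Tw

variable {ι : Type*} [Fintype ι] [DecidableEq ι]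

/-- number of up spins -/
def nUp (v : ι → Fin 2) : ℕ := (univ.filter (fun x => v x = 0)).card

/-- number of up spins in `A` -/
def upIn (A : Finset ι) (v : ι → Fin 2) : ℕ := (A.filter (fun x => v x = 0)).card

/-- one-site matrix `c + s (t σ³ + √(1-t²) σ¹)` -/
noncomputable def gM (c s t : ℝ) (a b : Fin 2) : ℝ :=
  if a = b then (if a = 0 then c + s * t else c - s * t) else s * √(1 - t ^ 2)

/-- the block operator -/
noncomputable def Wt (c s t : ℝ) (v v' : ι → Fin 2) : ℝ := ∏ x, gM c s t (v x) (v' x)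

/-- spinor -/
noncomputable def eta (t : ℝ) (a : Fin 2) : ℝ := if a = 0 then √((1 + t) / 2) else √((1 - t) / 2)

theorem gM_eq (c s t : ℝ) (h1 : -1 ≤ t) (h2 : t ≤ 1) (a b : Fin 2) :
    gM c s t a b = 2 * s * (eta t a * eta t b) + (if a = b then c - s else 0) := by
  have e1 : √((1 + t) / 2) * √((1 + t) / 2) = (1 + t) / 2 := Real.mul_self_sqrt (by linarith)
  have e2 : √((1 - t) / 2) * √((1 - t) / 2) = (1 - t) / 2 := Real.mul_self_sqrt (by linarith)
  have e3 : √((1 + t) / 2) * √((1 - t) / 2) = √(1 - t ^ 2) / 2 := by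
    rw [← Real.sqrt_mul (by linarith)]
    have : (1 + t) / 2 * ((1 - t) / 2) = (1 - t ^ 2) / 2 ^ 2 := by ring
    rw [this, Real.sqrt_div (by nlinarith), Real.sqrt_sq (by norm_num)]
  fin_cases a <;> fin_cases b <;> simp only [gM, eta, Fin.zero_eta, Fin.mk_one, Fin.isValue,
    ↓reduceIte, one_ne_zero, zero_ne_one, add_zero]
  · rw [e1]; ring
  · rw [e3]; ring
  · rw [mul_comm (√((1 - t) / 2)), e3]; ring
  · rw [e2]; ring

theorem gM_nonneg (c s t : ℝ) (hs : 0 ≤ s) (hc : s ≤ c) (h1 : -1 ≤ t) (h2 : t ≤ 1) (a b : Fin 2) :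
    0 ≤ gM c s t a b := by
  unfold gM
  split_ifs
  · nlinarith
  · nlinarith
  · exact mul_nonneg hs (Real.sqrt_nonneg _)

theorem gM_comm (c s t : ℝ) (a b : Fin 2) : gM c s t a b = gM c s t b a := by
  fin_cases a <;> fin_cases b <;> simp [gM]

theorem Wt_comm (c s t : ℝ) (v v' : ι → Fin 2) : Wt c s t v v' = Wt c s t v' v := by
  unfold Wt
  exact Finset.prod_congr rfl (fun x _ => gM_comm _ _ _ _ _)

theorem Wt_nonneg (c s t : ℝ) (hs : 0 ≤ s) (hc : s ≤ c) (h1 : -1 ≤ t) (h2 : t ≤ 1)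
    (v v' : ι → Fin 2) : 0 ≤ Wt c s t v v' :=
  Finset.prod_nonneg (fun x _ => gM_nonneg c s t hs hc h1 h2 _ _)

/-- square root of `gM` -/
noncomputable def aM (c s t : ℝ) (a b : Fin 2) : ℝ :=
  (if a = b then √(c - s) else 0) + (√(c + s) - √(c - s)) * (eta t a * eta t b)

theorem sum_aM (c s t : ℝ) (hs : 0 ≤ s) (hc : s ≤ c) (h1 : -1 ≤ t) (h2 : t ≤ 1) (a b : Fin 2) :
    ∑ e, aM c s t a e * aM c s t b e = gM c s t a b := by
  rw [gM_eq c s t h1 h2]
  have e1 : √((1 + t) / 2) * √((1 + t) / 2) = (1 + t) / 2 := Real.mul_self_sqrt (by linarith)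
  have e2 : √((1 - t) / 2) * √((1 - t) / 2) = (1 - t) / 2 := Real.mul_self_sqrt (by linarith)
  have e3 : √(c + s) * √(c + s) = c + s := Real.mul_self_sqrt (by linarith)
  have e4 : √(c - s) * √(c - s) = c - s := Real.mul_self_sqrt (by linarith)
  rw [Fin.sum_univ_two]
  set p := √((1 + t) / 2)
  set q := √((1 - t) / 2)
  set x := √(c + s)
  set y := √(c - s)
  have hpq : p * p + q * q = 1 := by rw [e1, e2]; ring
  fin_cases a <;> fin_cases b <;> simp only [aM, eta, Fin.zero_eta, Fin.mk_one, Fin.isValue,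
    ↓reduceIte, one_ne_zero, zero_ne_one, add_zero, zero_add]
  · have : (y + (x - y) * (p * p)) * (y + (x - y) * (p * p)) + (x - y) * (p * q) * ((x - y) * (p * q)) =
      (x * x - y * y) * (p * p) + y * y + (x - y) ^ 2 * (p * p) * (p * p + q * q - 1) := by ring
    rw [this, hpq, e3, e4]; ring
  · have : (y + (x - y) * (p * p)) * ((x - y) * (q * p)) + (x - y) * (p * q) * (y + (x - y) * (q * q)) =
      (x * x - y * y) * (p * q) + (x - y) ^ 2 * (q * p) * (p * p + q * q - 1) := by ring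
    rw [this, hpq, e3, e4]; ring
  · have : (x - y) * (q * p) * (y + (x - y) * (p * p)) + (y + (x - y) * (q * q)) * ((x - y) * (p * q)) =
      (x * x - y * y) * (q * p) + (x - y) ^ 2 * (q * p) * (p * p + q * q - 1) := by ring
    rw [this, hpq, e3, e4]; ring
  · have : (x - y) * (q * p) * ((x - y) * (q * p)) + (y + (x - y) * (q * q)) * (y + (x - y) * (q * q)) =
      (x * x - y * y) * (q * q) + y * y + (x - y) ^ 2 * (q * q) * (p * p + q * q - 1) := by ring
    rw [this, hpq, e3, e4]; ring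

theorem Wt_eq_sum (c s t : ℝ) (hs : 0 ≤ s) (hc : s ≤ c) (h1 : -1 ≤ t) (h2 : t ≤ 1)
    (v v' : ι → Fin 2) :
    Wt c s t v v' = ∑ w : ι → Fin 2, (∏ x, aM c s t (v x) (w x)) * ∏ x, aM c s t (v' x) (w x) := by
  unfold Wt
  simp_rw [← sum_aM c s t hs hc h1 h2]
  rw [Finset.prod_univ_sum, Fintype.piFinset_univ]
  exact Finset.sum_congr rfl (fun w _ => Finset.prod_mul_distrib)

/-- positivity of the quadratic form of `Wt`, restricted to any set -/
theorem Wt_quad_nonneg (c s t : ℝ) (hs : 0 ≤ s) (hc : s ≤ c) (h1 : -1 ≤ t) (h2 : t ≤ 1)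
    (S : Finset (ι → Fin 2)) (y : (ι → Fin 2) → ℝ) :
    0 ≤ ∑ v ∈ S, ∑ v' ∈ S, y v * y v' * Wt c s t v v' := by
  have h : ∑ v ∈ S, ∑ v' ∈ S, y v * y v' * Wt c s t v v' =
      ∑ w : ι → Fin 2, (∑ v ∈ S, y v * ∏ x, aM c s t (v x) (w x)) ^ 2 := by
    simp_rw [Wt_eq_sum c s t hs hc h1 h2, Finset.mul_sum]
    rw [Finset.sum_congr rfl (fun v _ => Finset.sum_comm), Finset.sum_comm]
    apply Finset.sum_congr rfl
    intro w _
    rw [sq, Finset.sum_mul_sum]
    apply Finset.sum_congr rfl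
    intro v _
    apply Finset.sum_congr rfl
    intro v' _
    ring
  rw [h]
  exact Finset.sum_nonneg (fun w _ => sq_nonneg _)

end Vale.Agent.P361.LRO.Tw
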