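import Vale.Agent.P361.LRO.Tw.Sym

/-!
# P361, block (1): moments (helper365)
-/

open Finset MeasureTheory

set_option linter.unusedSectionVars false

namespace Vale.Agent.P361.LRO.Tw

/-- Beta integral for natural exponents, division free. -/
theorem beta_nat (i j : ℕ) :
    ∫ p in (0 : ℝ)..1, p ^ i * (1 - p) ^ j = (i.factorial : ℝ) * j.factorial / (i + j + 1).factorial := by
  induction j generalizing i with
  | zero =>
    simp only [pow_zero, mul_one, integral_pow, Nat.factorial_zero, Nat.cast_one, add_zero]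
    rw [Nat.factorial_succ]
    push_cast
    have : (i.factorial : ℝ) ≠ 0 := by exact_mod_cast Nat.factorial_ne_zero i
    field_simp
    simp
  | succ j ih =>
    have hparts : ∫ p in (0 : ℝ)..1, (((i : ℝ) + 1) * (p ^ i * (1 - p) ^ (j + 1)) -
        ((j : ℝ) + 1) * (p ^ (i + 1) * (1 - p) ^ j)) = 0 := by
      have hd : ∀ p ∈ Set.uIcc (0 : ℝ) 1, HasDerivAt (fun p : ℝ => p ^ (i + 1) * (1 - p) ^ (j + 1))
          (((i : ℝ) + 1) * (p ^ i * (1 - p) ^ (j + 1)) -
            ((j : ℝ) + 1) * (p ^ (i + 1) * (1 - p) ^ j)) p := by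
        intro p _
        have h1 := (hasDerivAt_pow (i + 1) p)
        have h0 : HasDerivAt (fun p : ℝ => 1 - p) (-1) p := by
          simpa using (hasDerivAt_id p).const_sub 1
        have h2 : HasDerivAt (fun p : ℝ => (1 - p) ^ (j + 1))
            ((((j + 1 : ℕ) : ℝ) * (1 - p) ^ (j + 1 - 1)) * (-1)) p := h0.fun_pow (j + 1)
        have h3 := h1.fun_mul h2
        refine h3.congr_deriv ?_
        push_cast
        ring
      rw [intervalIntegral.integral_eq_sub_of_hasDerivAt hd]
      · simp
      · apply Continuous.intervalIntegrable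
        fun_prop
    rw [intervalIntegral.integral_sub, intervalIntegral.integral_const_mul,
      intervalIntegral.integral_const_mul, ih (i + 1)] at hparts
    · have hi : ((i : ℝ) + 1) ≠ 0 := by positivity
      have hf : ((i + 1 + j + 1).factorial : ℝ) ≠ 0 := by exact_mod_cast Nat.factorial_ne_zero _
      have hidx : i + (j + 1) + 1 = i + 1 + j + 1 := by ring
      rw [hidx]
      have e1 : ((i + 1).factorial : ℝ) = (i + 1) * i.factorial := by
        rw [Nat.factorial_succ]; push_cast; ring
      have e2 : ((j + 1).factorial : ℝ) = (j + 1) * j.factorial := by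
        rw [Nat.factorial_succ]; push_cast; ring
      rw [e1] at hparts
      rw [e2]
      have h5 : ((i : ℝ) + 1) * ∫ p in (0 : ℝ)..1, p ^ i * (1 - p) ^ (j + 1) =
          ((i : ℝ) + 1) * ((i.factorial : ℝ) * ((j + 1) * j.factorial) / ((i + 1 + j + 1).factorial : ℝ)) := by
        have h6 : ((i : ℝ) + 1) * ∫ p in (0 : ℝ)..1, p ^ i * (1 - p) ^ (j + 1) =
          ((j : ℝ) + 1) * (((i : ℝ) + 1) * i.factorial * j.factorial / ((i + 1 + j + 1).factorial : ℝ)) := by
          linarith
        rw [h6]
        ring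
      exact mul_left_cancel₀ hi h5
    · apply Continuous.intervalIntegrable; fun_prop
    · apply Continuous.intervalIntegrable; fun_prop

/-- the two integrals over `t` that we need -/
theorem int_eta0 (i j : ℕ) :
    ∫ t in (-1 : ℝ)..1, ((1 + t) / 2) ^ i * ((1 - t) / 2) ^ j =
      2 * ((i.factorial : ℝ) * j.factorial / (i + j + 1).factorial) := by
  have h := intervalIntegral.integral_comp_mul_add (a := (-1 : ℝ)) (b := 1)
    (fun p : ℝ => p ^ i * (1 - p) ^ j) (c := (1 / 2 : ℝ)) (by norm_num) (1 / 2)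
  have e : ∀ t : ℝ, ((1 + t) / 2) ^ i * ((1 - t) / 2) ^ j =
      (1 / 2 * t + 1 / 2) ^ i * (1 - (1 / 2 * t + 1 / 2)) ^ j := by
    intro t; congr 1 <;> ring
  simp_rw [e]
  rw [h]
  norm_num
  rw [beta_nat]

theorem int_eta1 (i j : ℕ) :
    ∫ t in (-1 : ℝ)..1, t * (((1 + t) / 2) ^ i * ((1 - t) / 2) ^ j) =
      2 * ((i.factorial : ℝ) * j.factorial / (i + j + 1).factorial) * (((i : ℝ) - j) / (i + j + 2)) := by
  have e : ∀ t : ℝ, t * (((1 + t) / 2) ^ i * ((1 - t) / 2) ^ j) =
      2 * (((1 + t) / 2) ^ (i + 1) * ((1 - t) / 2) ^ j) - ((1 + t) / 2) ^ i * ((1 - t) / 2) ^ j := by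
    intro t; ring
  simp_rw [e]
  rw [intervalIntegral.integral_sub, intervalIntegral.integral_const_mul, int_eta0, int_eta0]
  · have e1 : ((i + 1).factorial : ℝ) = (i + 1) * i.factorial := by
      rw [Nat.factorial_succ]; push_cast; ring
    have e2 : ((i + 1 + j + 1).factorial : ℝ) = (i + j + 2) * (i + j + 1).factorial := by
      rw [show i + 1 + j + 1 = (i + j + 1) + 1 by ring, Nat.factorial_succ]; push_cast; ring
    rw [e1, e2]
    have : ((i + j + 1).factorial : ℝ) ≠ 0 := by exact_mod_cast Nat.factorial_ne_zero _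
    have h2 : ((i : ℝ) + j + 2) ≠ 0 := by positivity
    field_simp
    ring
  · apply Continuous.intervalIntegrable; fun_prop
  · apply Continuous.intervalIntegrable; fun_prop

end Vale.Agent.P361.LRO.Tw
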