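import Vale.Agent.P361.LRO.Tw.SymB

/-!
# P361, block (1): row sums (helper365)
-/

open Finset MeasureTheory

set_option linter.unusedSectionVars false

namespace Vale.Agent.P361.LRO.Tw

variable {ι : Type*} [Fintype ι] [DecidableEq ι]

theorem nUp_eq (A : Finset ι) (v : ι → Fin 2) : nUp v = upIn A v + upIn Aᶜ v := by
  unfold nUp upIn
  rw [← Finset.card_union_of_disjoint]
  · rw [← Finset.filter_union, Finset.union_compl]
  · apply Finset.disjoint_filter_filter
    exact disjoint_compl_right

theorem upIn_congr (A : Finset ι) (v v' : ι → Fin 2) (h : ∀ x ∈ A, v x = v' x) :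
    upIn A v = upIn A v' := by
  unfold upIn
  congr 1
  apply Finset.filter_congr
  intro x hx
  rw [h x hx]

theorem upIn_le (A : Finset ι) (v : ι → Fin 2) : upIn A v ≤ A.card := Finset.card_filter_le _ _

/-- number of `v'` equal to `v` off `A` with the same number of up spins -/
theorem card_fiber (A : Finset ι) (v : ι → Fin 2) :
    (univ.filter (fun v' : ι → Fin 2 => (∀ x ∈ Aᶜ, v x = v' x) ∧ nUp v' = nUp v)).card =
      A.card.choose (upIn A v) := by
  rw [← Finset.card_powersetCard]
  refine Finset.card_nbij' (fun v' => A.filter (fun x => v' x = 0))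
    (fun B => fun x => if x ∈ A then (if x ∈ B then 0 else 1) else v x) ?_ ?_ ?_ ?_
  · intro v' hv'
    simp only [Finset.coe_filter, Finset.mem_univ, true_and, Set.mem_ofPred_eq] at hv'
    rw [Finset.mem_coe, Finset.mem_powersetCard]
    refine ⟨Finset.filter_subset _ _, ?_⟩
    have h1 := nUp_eq A v
    have h2 := nUp_eq A v'
    have h3 := upIn_congr Aᶜ v v' hv'.1
    have h4 := hv'.2
    change upIn A v' = upIn A v
    omega
  · intro B hB
    rw [Finset.mem_coe, Finset.mem_powersetCard] at hB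
    simp only [Finset.coe_filter, Finset.mem_univ, true_and, Set.mem_ofPred_eq]
    have h0 : ∀ x ∈ Aᶜ, v x = (fun x => if x ∈ A then (if x ∈ B then (0 : Fin 2) else 1) else v x) x := by
      intro x hx
      rw [Finset.mem_compl] at hx
      simp [hx]
    refine ⟨h0, ?_⟩
    rw [nUp_eq A, nUp_eq A v, ← upIn_congr Aᶜ v _ h0]
    congr 1
    rw [← hB.2]
    unfold upIn
    congr 1
    ext x
    simp only [Finset.mem_filter]
    constructor
    · rintro ⟨hxA, hx⟩
      simp only [hxA, if_true] at hx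
      by_contra hxB
      simp [hxB] at hx
    · intro hx
      have hxA := hB.1 hx
      simp [hxA, hx]
  · intro v' hv'
    simp only [Finset.coe_filter, Finset.mem_univ, true_and, Set.mem_ofPred_eq] at hv'
    funext x
    by_cases hx : x ∈ A
    · by_cases h0 : v' x = 0
      · simp [hx, h0]
      · have h1 : v' x = 1 := Fin.eq_one_of_ne_zero (v' x) h0
        simp [hx, h1]
    · simp only [hx, if_false]
      exact hv'.1 x (Finset.mem_compl.mpr hx)
  · intro B hB
    rw [Finset.mem_coe, Finset.mem_powersetCard] at hB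
    ext x
    simp only [Finset.mem_filter]
    constructor
    · rintro ⟨hxA, hx⟩
      simp only [hxA, if_true] at hx
      by_contra hxB
      simp [hxB] at hx
    · intro hx
      have hxA := hB.1 hx
      simp [hxA, hx]

/-- expansion of `Wt` -/
theorem Wt_expand (c s t : ℝ) (h1 : -1 ≤ t) (h2 : t ≤ 1) (v v' : ι → Fin 2) :
    Wt c s t v v' = ∑ A : Finset ι, (2 * s) ^ A.card * ((∏ x ∈ A, eta t (v x)) * ∏ x ∈ A, eta t (v' x)) *
      (if ∀ x ∈ Aᶜ, v x = v' x then (c - s) ^ (Fintype.card ι - A.card) else 0) := by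
  unfold Wt
  simp_rw [gM_eq c s t h1 h2]
  rw [Finset.prod_add, Finset.powerset_univ]
  apply Finset.sum_congr rfl
  intro A _
  congr 1
  · rw [Finset.prod_mul_distrib, Finset.prod_const, Finset.prod_mul_distrib]
  · rw [← Finset.compl_eq_univ_sdiff]
    split_ifs with h
    · rw [Finset.prod_congr rfl (fun x hx => if_pos (h x hx)), Finset.prod_const, Finset.card_compl]
    · push Not at h
      obtain ⟨x, hx, hne⟩ := h
      exact Finset.prod_eq_zero hx (if_neg hne)

theorem prod_eta (t : ℝ) (h1 : -1 ≤ t) (h2 : t ≤ 1) (A : Finset ι) (v v' : ι → Fin 2)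
    (h : upIn A v' = upIn A v) :
    (∏ x ∈ A, eta t (v x)) * ∏ x ∈ A, eta t (v' x) =
      ((1 + t) / 2) ^ (upIn A v) * ((1 - t) / 2) ^ (A.card - upIn A v) := by
  have e1 : √((1 + t) / 2) * √((1 + t) / 2) = (1 + t) / 2 := Real.mul_self_sqrt (by linarith)
  have e2 : √((1 - t) / 2) * √((1 - t) / 2) = (1 - t) / 2 := Real.mul_self_sqrt (by linarith)
  have key : ∀ w : ι → Fin 2, ∏ x ∈ A, eta t (w x) =
      √((1 + t) / 2) ^ (upIn A w) * √((1 - t) / 2) ^ (A.card - upIn A w) := by
    intro w
    have h3 : ∏ x ∈ A, eta t (w x) =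
        (∏ x ∈ A.filter (fun x => w x = 0), √((1 + t) / 2)) *
          ∏ x ∈ A.filter (fun x => ¬ w x = 0), √((1 - t) / 2) := by
      rw [← Finset.prod_ite]
      rfl
    rw [h3, Finset.prod_const, Finset.prod_const]
    congr 2
    have := Finset.card_filter_add_card_filter_not (s := A) (fun x => w x = 0)
    unfold upIn
    omega
  rw [key v, key v', h]
  calc _ = (√((1 + t) / 2) * √((1 + t) / 2)) ^ (upIn A v) *
        (√((1 - t) / 2) * √((1 - t) / 2)) ^ (A.card - upIn A v) := by
        rw [mul_pow, mul_pow]; ring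
    _ = _ := by rw [e1, e2]

/-- **row sums** -/
theorem row_sum (c s t : ℝ) (h1 : -1 ≤ t) (h2 : t ≤ 1) (v : ι → Fin 2) :
    ∑ v' ∈ univ.filter (fun v' : ι → Fin 2 => nUp v' = nUp v), Wt c s t v v' =
      ∑ A : Finset ι, (2 * s) ^ A.card * (c - s) ^ (Fintype.card ι - A.card) *
        (A.card.choose (upIn A v) : ℝ) *
        (((1 + t) / 2) ^ (upIn A v) * ((1 - t) / 2) ^ (A.card - upIn A v)) := by
  simp_rw [Wt_expand c s t h1 h2]
  rw [Finset.sum_comm]
  apply Finset.sum_congr rfl
  intro A _
  simp_rw [mul_ite, mul_zero]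
  rw [← Finset.sum_filter, Finset.filter_filter]
  have h3 : ∀ v' ∈ univ.filter (fun v' : ι → Fin 2 => nUp v' = nUp v ∧ ∀ x ∈ Aᶜ, v x = v' x),
      (2 * s) ^ A.card * ((∏ x ∈ A, eta t (v x)) * ∏ x ∈ A, eta t (v' x)) *
        (c - s) ^ (Fintype.card ι - A.card) =
      (2 * s) ^ A.card * (c - s) ^ (Fintype.card ι - A.card) *
        (((1 + t) / 2) ^ (upIn A v) * ((1 - t) / 2) ^ (A.card - upIn A v)) := by
    intro v' hv'
    rw [Finset.mem_filter] at hv'
    have h4 : upIn A v' = upIn A v := by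
      have e1 := nUp_eq A v
      have e2 := nUp_eq A v'
      have e3 := upIn_congr Aᶜ v v' hv'.2.2
      have e4 := hv'.2.1
      omega
    rw [prod_eta t h1 h2 A v v' h4]
    ring
  rw [Finset.sum_congr rfl h3, Finset.sum_const]
  have h5 : (univ.filter (fun v' : ι → Fin 2 => nUp v' = nUp v ∧ ∀ x ∈ Aᶜ, v x = v' x)).card =
      A.card.choose (upIn A v) := by
    rw [← card_fiber A v]
    congr 1
    ext v'
    simp only [Finset.mem_filter, Finset.mem_univ, true_and]
    exact and_comm
  rw [h5, nsmul_eq_mul]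
  ring

end Vale.Agent.P361.LRO.Tw
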