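import Vale.Agent.P361.LRO.Tw.SymC

/-!
# P361, block (1): integrated row sums (helper365)
-/

open Finset MeasureTheory

set_option linter.unusedSectionVars false

namespace Vale.Agent.P361.LRO.Tw

variable {ι : Type*} [Fintype ι] [DecidableEq ι]

/-- weight of a subset with `m` elements (`N = card ι`) -/
noncomputable def aw (N : ℕ) (c s : ℝ) (m : ℕ) : ℝ := (2 * s) ^ m * (c - s) ^ (N - m)

theorem aw_nonneg (N : ℕ) (c s : ℝ) (hs : 0 ≤ s) (hc : s ≤ c) (m : ℕ) : 0 ≤ aw N c s m :=
  mul_nonneg (pow_nonneg (by linarith) _) (pow_nonneg (by linarith) _)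

/-- `∫ row = r0` -/
noncomputable def r0 (ι : Type*) [Fintype ι] [DecidableEq ι] (c s : ℝ) : ℝ :=
  ∑ A : Finset ι, aw (Fintype.card ι) c s A.card * (2 / ((A.card : ℝ) + 1))

noncomputable def bB (ι : Type*) [Fintype ι] [DecidableEq ι] (c s : ℝ) : ℝ :=
  ∑ A : Finset ι, aw (Fintype.card ι) c s A.card *
    (2 / (((A.card : ℝ) + 1) * ((A.card : ℝ) + 2))) * A.card

theorem choose_fact (m i : ℕ) (h : i ≤ m) :
    (m.choose i : ℝ) * ((i.factorial : ℝ) * (m - i).factorial / (i + (m - i) + 1).factorial) =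
      1 / ((m : ℝ) + 1) := by
  have h1 : ((m.choose i : ℝ)) * i.factorial * (m - i).factorial = m.factorial := by
    exact_mod_cast Nat.choose_mul_factorial_mul_factorial h
  have h2 : i + (m - i) + 1 = m + 1 := by omega
  rw [h2, Nat.factorial_succ]
  have h3 : (m.factorial : ℝ) ≠ 0 := by exact_mod_cast Nat.factorial_ne_zero _
  push_cast
  rw [mul_div_assoc', ← mul_assoc, h1]
  field_simp

theorem int_row0 (c s : ℝ) (v : ι → Fin 2) :
    ∫ t in (-1 : ℝ)..1, ∑ v' ∈ univ.filter (fun v' : ι → Fin 2 => nUp v' = nUp v), Wt c s t v v' =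
      r0 ι c s := by
  have hcongr : ∫ t in (-1 : ℝ)..1,
      ∑ v' ∈ univ.filter (fun v' : ι → Fin 2 => nUp v' = nUp v), Wt c s t v v' =
      ∫ t in (-1 : ℝ)..1, ∑ A : Finset ι, (2 * s) ^ A.card * (c - s) ^ (Fintype.card ι - A.card) *
        (A.card.choose (upIn A v) : ℝ) *
        (((1 + t) / 2) ^ (upIn A v) * ((1 - t) / 2) ^ (A.card - upIn A v)) := by
    apply intervalIntegral.integral_congr
    intro t ht
    rw [Set.uIcc_of_le (by norm_num)] at ht
    exact row_sum c s t ht.1 ht.2 v
  rw [hcongr, intervalIntegral.integral_finsetSum]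
  · unfold r0
    apply Finset.sum_congr rfl
    intro A _
    rw [intervalIntegral.integral_const_mul, int_eta0]
    have h := choose_fact A.card (upIn A v) (upIn_le A v)
    unfold aw
    calc _ = (2 * s) ^ A.card * (c - s) ^ (Fintype.card ι - A.card) * 2 *
          ((A.card.choose (upIn A v) : ℝ) * (((upIn A v).factorial : ℝ) * (A.card - upIn A v).factorial /
            (upIn A v + (A.card - upIn A v) + 1).factorial)) := by ring
      _ = _ := by rw [h]; ring
  · intro A _
    apply Continuous.intervalIntegrable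
    fun_prop

theorem int_row1 (c s : ℝ) (v : ι → Fin 2) :
    ∫ t in (-1 : ℝ)..1, t * ∑ v' ∈ univ.filter (fun v' : ι → Fin 2 => nUp v' = nUp v), Wt c s t v v' =
      ∑ A : Finset ι, aw (Fintype.card ι) c s A.card *
        (2 / (((A.card : ℝ) + 1) * ((A.card : ℝ) + 2))) * (2 * (upIn A v : ℝ) - A.card) := by
  have hcongr : ∫ t in (-1 : ℝ)..1,
      t * ∑ v' ∈ univ.filter (fun v' : ι → Fin 2 => nUp v' = nUp v), Wt c s t v v' =
      ∫ t in (-1 : ℝ)..1, ∑ A : Finset ι, (2 * s) ^ A.card * (c - s) ^ (Fintype.card ι - A.card) *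
        (A.card.choose (upIn A v) : ℝ) *
        (t * (((1 + t) / 2) ^ (upIn A v) * ((1 - t) / 2) ^ (A.card - upIn A v))) := by
    apply intervalIntegral.integral_congr
    intro t ht
    rw [Set.uIcc_of_le (by norm_num)] at ht
    simp only
    rw [row_sum c s t ht.1 ht.2 v, Finset.mul_sum]
    apply Finset.sum_congr rfl
    intro A _
    ring
  rw [hcongr, intervalIntegral.integral_finsetSum]
  · apply Finset.sum_congr rfl
    intro A _
    rw [intervalIntegral.integral_const_mul, int_eta1]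
    have h := choose_fact A.card (upIn A v) (upIn_le A v)
    have hle := upIn_le A v
    have hcast : ((A.card - upIn A v : ℕ) : ℝ) = (A.card : ℝ) - upIn A v := by
      rw [Nat.cast_sub hle]
    unfold aw
    calc _ = (2 * s) ^ A.card * (c - s) ^ (Fintype.card ι - A.card) * 2 *
          ((A.card.choose (upIn A v) : ℝ) * (((upIn A v).factorial : ℝ) * (A.card - upIn A v).factorial /
            (upIn A v + (A.card - upIn A v) + 1).factorial)) *
          (((upIn A v : ℝ) - ((A.card - upIn A v : ℕ) : ℝ)) /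
            ((upIn A v : ℝ) + ((A.card - upIn A v : ℕ) : ℝ) + 2)) := by ring
      _ = _ := by
          rw [h, hcast]
          have h1 : ((upIn A v : ℝ) + ((A.card : ℝ) - upIn A v) + 2) = (A.card : ℝ) + 2 := by ring
          rw [h1]
          have h2 : ((A.card : ℝ) + 1) ≠ 0 := by positivity
          have h3 : ((A.card : ℝ) + 2) ≠ 0 := by positivity
          field_simp
          ring
  · intro A _
    apply Continuous.intervalIntegrable
    fun_prop

/-- symmetry in the sites -/
theorem sum_mem_eqD (f : ℕ → ℝ) (x y : ι) :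
    ∑ A : Finset ι, (if x ∈ A then f A.card else 0) = ∑ A : Finset ι, (if y ∈ A then f A.card else 0) := by
  have h := Equiv.sum_comp (Equiv.finsetCongr (Equiv.swap x y))
    (fun A : Finset ι => if y ∈ A then f A.card else 0)
  rw [← h]
  apply Finset.sum_congr rfl
  intro A _
  simp only [Equiv.finsetCongr_apply, Finset.card_map]
  have : (y ∈ A.map (Equiv.swap x y).toEmbedding) ↔ x ∈ A := by
    rw [Finset.mem_map_equiv]
    simp
  simp [this]

theorem sum_upIn (f : ℕ → ℝ) (v : ι → Fin 2) :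
    (Fintype.card ι : ℝ) * ∑ A : Finset ι, f A.card * (upIn A v : ℝ) =
      (nUp v : ℝ) * ∑ A : Finset ι, f A.card * (A.card : ℝ) := by
  have h1 : ∀ w : ι → Prop, [DecidablePred w] → ∑ A : Finset ι, f A.card * ((A.filter w).card : ℝ) =
      ∑ x ∈ univ.filter w, ∑ A : Finset ι, (if x ∈ A then f A.card else 0) := by
    intro w _
    rw [Finset.sum_comm]
    apply Finset.sum_congr rfl
    intro A _
    rw [← Finset.sum_filter, Finset.sum_const, nsmul_eq_mul, mul_comm]
    congr 2
    congr 1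
    ext x
    simp [and_comm]
  rcases isEmpty_or_nonempty ι with hι | ⟨⟨x0⟩⟩
  · have hz : ∀ A : Finset ι, A = ∅ := fun A => Finset.eq_empty_of_isEmpty A
    have : nUp v = 0 := by unfold nUp; simp
    rw [this]; simp
  · set Φ := ∑ A : Finset ι, (if x0 ∈ A then f A.card else 0) with hΦ
    have h2 : ∑ A : Finset ι, f A.card * (upIn A v : ℝ) = (nUp v : ℝ) * Φ := by
      have := h1 (fun x => v x = 0)
      unfold upIn
      rw [this, Finset.sum_congr rfl (fun x _ => sum_mem_eqD f x x0), Finset.sum_const, nsmul_eq_mul]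
      rfl
    have h3 : ∑ A : Finset ι, f A.card * (A.card : ℝ) = (Fintype.card ι : ℝ) * Φ := by
      have := h1 (fun _ => True)
      simp only [Finset.filter_true] at this
      rw [this, Finset.sum_congr rfl (fun x _ => sum_mem_eqD f x x0), Finset.sum_const, nsmul_eq_mul]
      rfl
    rw [h2, h3]
    ring

theorem r0_nonneg (c s : ℝ) (hs : 0 ≤ s) (hc : s ≤ c) : 0 ≤ r0 ι c s :=
  Finset.sum_nonneg (fun A _ => mul_nonneg (aw_nonneg _ _ _ hs hc _) (by positivity))

theorem r0_pos (c s : ℝ) (hs : 0 < s) (hc : s ≤ c) : 0 < r0 ι c s := by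
  unfold r0
  apply Finset.sum_pos'
  · intro A _
    exact mul_nonneg (aw_nonneg _ _ _ hs.le hc _) (by positivity)
  · refine ⟨univ, Finset.mem_univ _, ?_⟩
    unfold aw
    rw [Finset.card_univ, Nat.sub_self, pow_zero, mul_one]
    positivity

theorem bB_nonneg (c s : ℝ) (hs : 0 ≤ s) (hc : s ≤ c) : 0 ≤ bB ι c s :=
  Finset.sum_nonneg (fun A _ => mul_nonneg (mul_nonneg (aw_nonneg _ _ _ hs hc _) (by positivity))
    (by positivity))

theorem bB_le (c s : ℝ) (hs : 0 ≤ s) (hc : s ≤ c) : bB ι c s ≤ r0 ι c s := by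
  unfold bB r0
  apply Finset.sum_le_sum
  intro A _
  rw [mul_assoc]
  apply mul_le_mul_of_nonneg_left _ (aw_nonneg _ _ _ hs hc _)
  have h2 : (0 : ℝ) < (A.card : ℝ) + 1 := by positivity
  have h3 : (0 : ℝ) < (A.card : ℝ) + 2 := by positivity
  rw [div_mul_eq_mul_div, div_le_div_iff₀ (by positivity) h2]
  nlinarith

theorem continuous_gM (c s : ℝ) (a b : Fin 2) : Continuous (fun t => gM c s t a b) := by
  unfold gM
  split_ifs <;> fun_prop

theorem continuous_Wt (c s : ℝ) (v v' : ι → Fin 2) : Continuous (fun t => Wt c s t v v') := by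
  unfold Wt
  exact continuous_finsetProd _ (fun x _ => continuous_gM c s _ _)

/-- the integrated row sum of `(1 - t) W` -/
theorem int_row_one_sub (c s : ℝ) (v : ι → Fin 2) :
    (Fintype.card ι : ℝ) * ∫ t in (-1 : ℝ)..1, (1 - t) *
        ∑ v' ∈ univ.filter (fun v' : ι → Fin 2 => nUp v' = nUp v), Wt c s t v v' =
      (Fintype.card ι : ℝ) * r0 ι c s - (2 * (nUp v : ℝ) - Fintype.card ι) * bB ι c s := by
  have hcont : Continuous (fun t => ∑ v' ∈ univ.filter (fun v' : ι → Fin 2 => nUp v' = nUp v),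
      Wt c s t v v') := continuous_finsetSum _ (fun v' _ => continuous_Wt c s v v')
  have hi : ∫ t in (-1 : ℝ)..1, (1 - t) *
        ∑ v' ∈ univ.filter (fun v' : ι → Fin 2 => nUp v' = nUp v), Wt c s t v v' =
      (∫ t in (-1 : ℝ)..1, ∑ v' ∈ univ.filter (fun v' : ι → Fin 2 => nUp v' = nUp v), Wt c s t v v') -
      ∫ t in (-1 : ℝ)..1, t * ∑ v' ∈ univ.filter (fun v' : ι → Fin 2 => nUp v' = nUp v),
        Wt c s t v v' := by
    rw [← intervalIntegral.integral_sub (hcont.intervalIntegrable _ _)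
      (Continuous.intervalIntegrable (by exact continuous_id.mul hcont) _ _)]
    congr 1
    funext t
    ring
  rw [hi, int_row0, int_row1]
  have h := sum_upIn (fun m => aw (Fintype.card ι) c s m *
        (2 / (((m : ℝ) + 1) * ((m : ℝ) + 2)))) v
  have h2 : ∑ A : Finset ι, aw (Fintype.card ι) c s A.card *
        (2 / (((A.card : ℝ) + 1) * ((A.card : ℝ) + 2))) * (2 * (upIn A v : ℝ) - A.card) =
      2 * ∑ A : Finset ι, aw (Fintype.card ι) c s A.card *
        (2 / (((A.card : ℝ) + 1) * ((A.card : ℝ) + 2))) * (upIn A v : ℝ) - bB ι c s := by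
    unfold bB
    rw [Finset.mul_sum, ← Finset.sum_sub_distrib]
    apply Finset.sum_congr rfl
    intro A _
    ring
  rw [h2]
  have h3 : ∑ A : Finset ι, aw (Fintype.card ι) c s A.card *
        (2 / (((A.card : ℝ) + 1) * ((A.card : ℝ) + 2))) * (A.card : ℝ) = bB ι c s := rfl
  rw [h3] at h
  linear_combination (-2) * h

end Vale.Agent.P361.LRO.Tw
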