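import Vale.Agent.P361.LRO.Tw.SymD

/-!
# P361, block (1): quadratic forms and the block twist inequality (helper365)
-/

open Finset MeasureTheory

set_option linter.unusedSectionVars false

namespace Vale.Agent.P361.LRO.Tw

variable {ι : Type*} [Fintype ι] [DecidableEq ι]

/-- configurations with `n` up spins -/
def Cn (ι : Type*) [Fintype ι] [DecidableEq ι] (n : ℕ) : Finset (ι → Fin 2) :=
  univ.filter (fun v => nUp v = n)

theorem mem_Cn (n : ℕ) (v : ι → Fin 2) : v ∈ Cn ι n ↔ nUp v = n := by simp [Cn]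

/-- `Z_R(t) = Tr (R W_t)` -/
noncomputable def ZR (R : (ι → Fin 2) → (ι → Fin 2) → ℝ) (c s t : ℝ) : ℝ :=
  ∑ v, ∑ v', R v v' * Wt c s t v v'

/-- weight of the symmetric state with `n` up spins -/
noncomputable def wn (R : (ι → Fin 2) → (ι → Fin 2) → ℝ) (n : ℕ) : ℝ :=
  (∑ v ∈ Cn ι n, ∑ v' ∈ Cn ι n, R v v') / (Cn ι n).card

theorem nUp_le (v : ι → Fin 2) : nUp v ≤ Fintype.card ι := by
  unfold nUp
  exact (Finset.card_filter_le _ _).trans (le_of_eq Finset.card_univ)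

/-- sum over all configurations = sum over the classes -/
theorem sum_classes (f : (ι → Fin 2) → ℝ) :
    ∑ v, f v = ∑ n ∈ range (Fintype.card ι + 1), ∑ v ∈ Cn ι n, f v := by
  rw [← Finset.sum_fiberwise_of_maps_to (s := univ) (t := range (Fintype.card ι + 1))
    (g := fun v : ι → Fin 2 => nUp v)]
  · rfl
  · intro v _
    rw [Finset.mem_range]
    exact Nat.lt_succ_of_le (nUp_le v)

theorem sum_classes₂ (R : (ι → Fin 2) → (ι → Fin 2) → ℝ)
    (hc : ∀ v v', nUp v ≠ nUp v' → R v v' = 0) (M : (ι → Fin 2) → (ι → Fin 2) → ℝ) :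
    ∑ v, ∑ v', R v v' * M v v' =
      ∑ n ∈ range (Fintype.card ι + 1), ∑ v ∈ Cn ι n, ∑ v' ∈ Cn ι n, R v v' * M v v' := by
  rw [sum_classes]
  apply Finset.sum_congr rfl
  intro n _
  apply Finset.sum_congr rfl
  intro v hv
  rw [mem_Cn] at hv
  symm
  apply Finset.sum_subset (Finset.subset_univ _)
  intro v' _ hv'
  rw [mem_Cn] at hv'
  rw [hc v v' (by rw [hv]; exact fun h => hv' h.symm), zero_mul]

/-- one class: a symmetric kernel with constant row sums which is positive semidefinite dominates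
its mean part -/
theorem class_lower (S : Finset (ι → Fin 2)) (Q : (ι → Fin 2) → (ι → Fin 2) → ℝ) (q : ℝ)
    (hsym : ∀ v v', Q v v' = Q v' v) (hrow : ∀ v ∈ S, ∑ v' ∈ S, Q v v' = q)
    (hpos : ∀ y : (ι → Fin 2) → ℝ, 0 ≤ ∑ v ∈ S, ∑ v' ∈ S, y v * y v' * Q v v')
    (x : (ι → Fin 2) → ℝ) :
    q * (∑ v ∈ S, x v) ^ 2 / S.card ≤ ∑ v ∈ S, ∑ v' ∈ S, x v * x v' * Q v v' := by
  rcases S.eq_empty_or_nonempty with rfl | hne
  · simp
  have hS : (0 : ℝ) < S.card := by exact_mod_cast hne.card_pos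
  set m : ℝ := (∑ v ∈ S, x v) / S.card with hm
  have h := hpos (fun v => x v - m)
  have hcol : ∀ v' ∈ S, ∑ v ∈ S, Q v v' = q := by
    intro v' hv'
    rw [← hrow v' hv']
    exact Finset.sum_congr rfl (fun v _ => hsym _ _)
  have e1 : ∑ v ∈ S, ∑ v' ∈ S, (x v - m) * (x v' - m) * Q v v' =
      ∑ v ∈ S, ∑ v' ∈ S, x v * x v' * Q v v' - m * ∑ v ∈ S, x v * ∑ v' ∈ S, Q v v' -
        m * ∑ v' ∈ S, x v' * ∑ v ∈ S, Q v v' + m ^ 2 * ∑ v ∈ S, ∑ v' ∈ S, Q v v' := by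
    have e2 : ∑ v' ∈ S, x v' * ∑ v ∈ S, Q v v' = ∑ v ∈ S, ∑ v' ∈ S, x v' * Q v v' := by
      simp_rw [Finset.mul_sum]
      exact Finset.sum_comm
    rw [e2]
    simp_rw [Finset.mul_sum]
    rw [← Finset.sum_sub_distrib, ← Finset.sum_sub_distrib, ← Finset.sum_add_distrib]
    apply Finset.sum_congr rfl
    intro v _
    rw [← Finset.sum_sub_distrib, ← Finset.sum_sub_distrib, ← Finset.sum_add_distrib]
    apply Finset.sum_congr rfl
    intro v' _
    ring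
  have hA : ∑ v ∈ S, x v * ∑ v' ∈ S, Q v v' = (∑ v ∈ S, x v) * q := by
    rw [Finset.sum_mul]
    exact Finset.sum_congr rfl (fun v hv => by rw [hrow v hv])
  have hB : ∑ v' ∈ S, x v' * ∑ v ∈ S, Q v v' = (∑ v ∈ S, x v) * q := by
    rw [Finset.sum_mul]
    exact Finset.sum_congr rfl (fun v hv => by rw [hcol v hv])
  have hC : ∑ v ∈ S, ∑ v' ∈ S, Q v v' = S.card * q := by
    rw [Finset.sum_congr rfl hrow, Finset.sum_const, nsmul_eq_mul]
  rw [e1, hA, hB, hC] at h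
  have hx : ∑ v ∈ S, x v = m * S.card := by rw [hm, div_mul_cancel₀ _ hS.ne']
  rw [hx] at h ⊢
  have : q * (m * S.card) ^ 2 / S.card = q * m ^ 2 * S.card := by rw [div_eq_iff hS.ne']; ring
  rw [this]
  nlinarith

/-- one class, upper bound for a symmetric nonnegative kernel with constant row sums -/
theorem class_upper (S : Finset (ι → Fin 2)) (Q : (ι → Fin 2) → (ι → Fin 2) → ℝ) (q : ℝ)
    (hsym : ∀ v v', Q v v' = Q v' v) (hrow : ∀ v ∈ S, ∑ v' ∈ S, Q v v' = q)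
    (h0 : ∀ v v', 0 ≤ Q v v') (x : (ι → Fin 2) → ℝ) :
    ∑ v ∈ S, ∑ v' ∈ S, x v * x v' * Q v v' ≤ q * ∑ v ∈ S, x v ^ 2 := by
  have h1 : ∑ v ∈ S, ∑ v' ∈ S, x v * x v' * Q v v' ≤
      ∑ v ∈ S, ∑ v' ∈ S, (x v ^ 2 / 2 + x v' ^ 2 / 2) * Q v v' := by
    apply Finset.sum_le_sum; intro v _
    apply Finset.sum_le_sum; intro v' _
    apply mul_le_mul_of_nonneg_right _ (h0 v v')
    nlinarith [sq_nonneg (x v - x v')]
  refine h1.trans (le_of_eq ?_)
  have e1 : ∑ v ∈ S, ∑ v' ∈ S, (x v ^ 2 / 2 + x v' ^ 2 / 2) * Q v v' =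
      ∑ v ∈ S, x v ^ 2 / 2 * ∑ v' ∈ S, Q v v' + ∑ v' ∈ S, x v' ^ 2 / 2 * ∑ v ∈ S, Q v v' := by
    simp_rw [Finset.mul_sum]
    rw [Finset.sum_comm (s := S) (t := S) (f := fun v' v => x v' ^ 2 / 2 * Q v v'),
      ← Finset.sum_add_distrib]
    apply Finset.sum_congr rfl; intro v _
    rw [← Finset.sum_add_distrib]
    apply Finset.sum_congr rfl; intro v' _
    ring
  have hcol : ∀ v' ∈ S, ∑ v ∈ S, Q v v' = q := by
    intro v' hv'
    rw [← hrow v' hv']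
    exact Finset.sum_congr rfl (fun v _ => hsym _ _)
  have hA : ∑ v ∈ S, x v ^ 2 / 2 * ∑ v' ∈ S, Q v v' = (∑ v ∈ S, x v ^ 2) / 2 * q := by
    rw [Finset.sum_div, Finset.sum_mul]
    exact Finset.sum_congr rfl (fun v hv => by rw [hrow v hv])
  have hB : ∑ v' ∈ S, x v' ^ 2 / 2 * ∑ v ∈ S, Q v v' = (∑ v ∈ S, x v ^ 2) / 2 * q := by
    rw [Finset.sum_div, Finset.sum_mul]
    exact Finset.sum_congr rfl (fun v hv => by rw [hcol v hv])
  rw [e1, hA, hB]
  ring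

end Vale.Agent.P361.LRO.Tw
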